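import Mathlib

/-! Averages over finite groups and the Cauchy-Schwarz step. -/

set_option linter.all false

namespace Vale.Agent.P027G

open Finset Function
open scoped BigOperators

lemma expect_add_left {A : Type*} [AddCommGroup A] [Fintype A] (F : A → ℝ) (c : A) :
    𝔼 a, F (c + a) = 𝔼 a, F a :=
  Fintype.expect_equiv (Equiv.addLeft c) _ _ fun _ => rfl

lemma expect_hom {A B : Type*} [AddCommGroup A] [Fintype A] [AddCommGroup B] [Fintype B]
    (φ : A →+ B) (h : Surjective φ) (F : B → ℝ) : 𝔼 a, F (φ a) = 𝔼 b, F b := by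
  have e1 : ∀ b : B, 𝔼 a, F (φ a) = 𝔼 a, F (φ a + b) := fun b => by
    rw [← expect_add_left (fun a => F (φ a)) (surjInv h b)]
    simp only [map_add, surjInv_eq h b, add_comm]
  calc 𝔼 a, F (φ a) = 𝔼 _b : B, 𝔼 a, F (φ a) := (Fintype.expect_const _).symm
    _ = 𝔼 b : B, 𝔼 a, F (φ a + b) := expect_congr rfl fun b _ => e1 b
    _ = 𝔼 a, 𝔼 b : B, F (φ a + b) := expect_comm _ _ _
    _ = 𝔼 _a : A, 𝔼 b, F b := expect_congr rfl fun a _ => expect_add_left F _
    _ = _ := Fintype.expect_const _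

lemma expect_pair {A B : Type*} [Fintype A] [Fintype B] (F : A × B → ℝ) :
    𝔼 p, F p = 𝔼 a, 𝔼 b, F (a, b) := by
  rw [← univ_product_univ, expect_product]

variable {κ G : Type*} [Fintype κ] [DecidableEq κ] [AddCommGroup G] [Fintype G]

/-- independence of the coordinate `c` -/
def Ind (c : κ) (F : (κ → G) → ℝ) : Prop := ∀ y a, F (update y c a) = F y

lemma expect_update (c : κ) (F : (κ → G) → ℝ) : 𝔼 y, F y = 𝔼 y, 𝔼 a, F (update y c a) := by
  let φ : (κ → G) × G →+ (κ → G) := AddMonoidHom.mk' (fun p => update p.1 c p.2) fun p q => by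
    funext i
    by_cases h : i = c
    · subst h; simp
    · simp [update_of_ne h]
  rw [← expect_hom φ (fun y => ⟨(y, y c), by simp [φ]⟩) F, expect_pair]
  rfl

lemma expect_comp {ι : Type*} [Fintype ι] [DecidableEq ι] (e : ι → κ) (he : Injective e)
    (F : (ι → G) → ℝ) : 𝔼 y : κ → G, F (fun i => y (e i)) = 𝔼 x, F x := by
  let φ : (κ → G) →+ (ι → G) := AddMonoidHom.mk' (fun y i => y (e i)) fun p q => rfl
  exact expect_hom φ (fun x => ⟨extend e x 0, funext fun i => he.extend_apply _ _ _⟩) F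

lemma wcs {A : Type*} [Fintype A] {w g : A → ℝ} (hw : ∀ a, 0 ≤ w a) :
    (𝔼 a, w a * g a) ^ 2 ≤ (𝔼 a, w a) * 𝔼 a, w a * g a ^ 2 := by
  have := expect_mul_sq_le_sq_mul_sq univ (fun a => √(w a)) (fun a => √(w a) * g a)
  simp only [mul_pow, Real.sq_sqrt (hw _), ← mul_assoc, Real.mul_self_sqrt (hw _)] at this
  exact this

/-- two copies of a variable -/
lemma dup {c₀ c₁ : κ} (h : c₀ ≠ c₁) {H B B' : (κ → G) → ℝ} (h0 : Ind c₀ H) (h1 : Ind c₁ H)
    (hB : Ind c₁ B) (hB' : Ind c₁ B') :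
    𝔼 y, H y * B y * B' (update y c₀ (y c₁)) =
      𝔼 y, H y * (𝔼 a, B (update y c₀ a)) * 𝔼 a, B' (update y c₀ a) := by
  rw [expect_update c₁]
  have e : ∀ y : κ → G, 𝔼 b, H (update y c₁ b) * B (update y c₁ b) *
      B' (update (update y c₁ b) c₀ (update y c₁ b c₁)) =
      H y * B y * 𝔼 a, B' (update y c₀ a) := fun y => by
    rw [mul_expect]
    refine expect_congr rfl fun b _ => ?_
    rw [h1, hB, update_self, update_comm h.symm, hB']
  simp only [e]
  rw [expect_update c₀]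
  refine expect_congr rfl fun y _ => ?_
  simp only [h0 y, update_idem]
  rw [← expect_mul, ← mul_expect]

lemma cs_step {c₀ c₁ : κ} (h : c₀ ≠ c₁) {A A' B : (κ → G) → ℝ} (a0 : ∀ y, 0 ≤ A y)
    (a1 : ∀ y, A y ≤ A' y) (hA : Ind c₀ A) (h0 : Ind c₀ A') (h1 : Ind c₁ A') (hB : Ind c₁ B) :
    (𝔼 y, A y * B y) ^ 2 ≤ (𝔼 y, A' y) * 𝔼 y, A' y * B y * B (update y c₀ (y c₁)) := by
  rw [dup h h0 h1 hB hB, expect_update c₀]
  simp only [hA _, ← mul_expect]
  refine (wcs a0).trans (mul_le_mul (expect_le_expect fun y _ => a1 y)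
    (expect_le_expect fun y _ => ?_) (expect_nonneg fun y _ => mul_nonneg (a0 y) (sq_nonneg _))
    (expect_nonneg fun y _ => (a0 y).trans (a1 y)))
  rw [mul_assoc, ← sq]
  exact mul_le_mul_of_nonneg_right (a1 y) (sq_nonneg _)

end Vale.Agent.P027G
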