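import Vale.Agent.P027G.Slf

/-! The counting lemma, by densification. -/

set_option linter.all false

namespace Vale.Agent.P027G

open Finset Function Filter Topology
open scoped BigOperators

variable {ι : Type} [Fintype ι] [DecidableEq ι]
variable {G : ℕ → Type} [∀ n, AddCommGroup (G n)] [∀ n, Fintype (G n)]

/-- test functions -/
def Test (A : ∀ n, ι → (ι → G n) → ℝ) : Prop :=
  ∀ n i, (∀ x, 0 ≤ A n i x ∧ A n i x ≤ 1) ∧ Ind i (A n i)

/-- the cut norms tend to zero -/
def Cut (j : ι) (F : ∀ n, (ι → G n) → ℝ) : Prop := ∀ A, Test A →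
  Tendsto (fun n => 𝔼 x, F n x * ∏ i ∈ univ.erase j, A n i x) atTop (𝓝 0)

/-- the linear forms condition -/
def Lf1 (ν : ∀ n, ι → (ι → G n) → ℝ) : Prop :=
  ∀ T ⊆ IS univ, Tendsto (fun n => 𝔼 y : ι × Bool → G n, ∏ p ∈ T, ν n p.1 (pt y p.2)) atTop (𝓝 1)

/-- the average over the coordinate `j` of the product of the other factors -/
noncomputable def DD (j : ι) (h : ∀ n, ι → (ι → G n) → ℝ) (n : ℕ) (x : ι → G n) : ℝ :=
  𝔼 a, ∏ i ∈ univ.erase j, h n i (update x j a)

/-- the majorants -/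
def bd (ν : ∀ n, ι → (ι → G n) → ℝ) (S : Finset ι) (n : ℕ) (j : ι) (x : ι → G n) : ℝ :=
  if j ∈ S then ν n j x else 1

lemma DD_ind (j : ι) (h : ∀ n, ι → (ι → G n) → ℝ) (n : ℕ) : Ind j (DD j h n) := fun x a => by
  simp only [DD, update_idem]

lemma exp_DD {j : ι} {n : ℕ} {H : (ι → G n) → ℝ} (hH : Ind j H) (h : ∀ n, ι → (ι → G n) → ℝ) :
    𝔼 x, H x * ∏ i ∈ univ.erase j, h n i x = 𝔼 x, H x * DD j h n x := by
  rw [expect_update j]
  simp only [hH _, DD, mul_expect]

lemma DD_mono {j : ι} {h h' : ∀ n, ι → (ι → G n) → ℝ}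
    (e : ∀ n i x, i ≠ j → 0 ≤ h n i x ∧ h n i x ≤ h' n i x) (n : ℕ) (x : ι → G n) :
    0 ≤ DD j h n x ∧ DD j h n x ≤ DD j h' n x :=
  ⟨expect_nonneg fun a _ => prod_nonneg fun i hi => (e n i _ (mem_erase.1 hi).1).1,
    expect_le_expect fun a _ => prod_le_prod (fun i hi => (e n i _ (mem_erase.1 hi).1).1)
      fun i hi => (e n i _ (mem_erase.1 hi).1).2⟩

lemma DD_one (j : ι) (ν : ∀ n, ι → (ι → G n) → ℝ) (n : ℕ) (x : ι → G n) :
    DD j (bd ν ∅) n x = 1 := by
  simp [DD, bd, Fintype.expect_const]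

lemma cut_of {j : ι} {F : ∀ n, (ι → G n) → ℝ} (hF : ∀ n, Ind j (F n))
    (h : ∀ A, Test A → (∀ n i, Ind j (A n i)) →
      Tendsto (fun n => 𝔼 x, F n x * ∏ i ∈ univ.erase j, A n i x) atTop (𝓝 0)) : Cut j F := by
  intro A hA
  choose b _ hb using fun n => exists_max_image univ
    (fun b : G n => |𝔼 x, F n x * ∏ i ∈ univ.erase j, A n i (update x j b)|) univ_nonempty
  have := h (fun n i x => A n i (update x j (b n))) (fun n i => ⟨fun x => (hA n i).1 _, fun x a => by
    by_cases e : i = j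
    · subst e; simp only [update_idem]
    · simp only; rw [update_comm e, (hA n i).2]⟩) fun n i x a => by simp only [update_idem]
  refine squeeze_zero_norm (fun n => ?_) ((tendsto_zero_iff_abs_tendsto_zero _).1 this)
  rw [expect_update j, expect_comm]
  simp only [hF n _]
  exact (abs_expect_le _ _).trans (expect_le univ_nonempty fun a _ => hb n a (mem_univ _))

lemma cut_zero {j : ι} (F : ∀ n, (ι → G n) → ℝ) : Cut j (fun n x => F n x - F n x) :=
  fun A _ => by simp

lemma Cut.mul {j j₀ : ι} (hj : j ≠ j₀) {F H : ∀ n, (ι → G n) → ℝ} (hF : Cut j F)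
    (h0 : ∀ n x, 0 ≤ H n x ∧ H n x ≤ 1) (h1 : ∀ n, Ind j₀ (H n)) :
    Cut j (fun n x => F n x * H n x) := fun A hA => by
  refine (hF (fun n i x => if i = j₀ then H n x * A n i x else A n i x) fun n i => ?_).congr
    fun n => expect_congr rfl fun x _ => ?_
  · by_cases e : i = j₀
    · subst e
      simp only [if_true]
      exact ⟨fun x => ⟨mul_nonneg (h0 n x).1 ((hA n i).1 x).1,
        mul_le_one₀ (h0 n x).2 ((hA n i).1 x).1 ((hA n i).1 x).2⟩,
        fun x a => by simp only; rw [h1, (hA n i).2]⟩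
    · simpa only [if_neg e] using hA n i
  · have m : j₀ ∈ univ.erase j := by simp [hj.symm]
    rw [← mul_prod_erase _ _ m, ← mul_prod_erase _ _ m, if_pos rfl,
      prod_congr rfl fun i hi => if_neg (mem_erase.1 hi).1]
    ring

variable {ν : ∀ n, ι → (ι → G n) → ℝ} (hν : Lf1 ν) (iν : ∀ n j, Ind j (ν n j))

lemma bd_ind (iν : ∀ n j, Ind j (ν n j)) (S : Finset ι) (n : ℕ) (j : ι) : Ind j (bd ν S n j) :=
  fun x a => by simp only [bd, iν n j x a]

include hν in
lemma lfc_bd (j₀ : ι) (S : Bool → Finset ι) : Lfc j₀ (fun n j b => bd ν (S b) n j) := fun T hT => by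
  refine (hν (T.filter fun p => p.1 ∈ S (p.2 j₀)) ((filter_subset _ _).trans hT)).congr
    fun n => expect_congr rfl fun y _ => ?_
  simp only [bd, prod_filter]

include hν iν

lemma two_bd (j₀ : ι) (S₀ S₁ : Finset ι) : Tendsto (fun n => 𝔼 x, bd ν S₀ n j₀ x *
    DD j₀ (bd ν S₀) n x * DD j₀ (bd ν S₁) n x) atTop (𝓝 1) :=
  (lfc_bd hν j₀ (fun b => cond b S₁ S₀) _ (IS_sub {j₀})).congr fun n =>
    two_copies j₀ (fun j b => bd ν (cond b S₁ S₀) n j) (bd_ind iν _ n j₀)

lemma slf_bd {j₀ : ι} {S₀ S₁ : Finset ι} {h₀ h₁ : ∀ n, ι → (ι → G n) → ℝ}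
    (b₀ : ∀ n j x, j ≠ j₀ → 0 ≤ h₀ n j x ∧ h₀ n j x ≤ bd ν S₀ n j x)
    (b₁ : ∀ n j x, j ≠ j₀ → 0 ≤ h₁ n j x ∧ h₁ n j x ≤ bd ν S₁ n j x)
    (i₀ : ∀ n j, Ind j (h₀ n j)) (i₁ : ∀ n j, Ind j (h₁ n j)) :
    Tendsto (fun n => 𝔼 x, (ν n j₀ x - 1) * DD j₀ h₀ n x * DD j₀ h₁ n x) atTop (𝓝 0) := by
  have := slf (lfc_bd hν j₀ fun b => insert j₀ (cond b S₁ S₀))
    (g := fun n j b => cond b (h₁ n j) (h₀ n j)) (fun n j b x hj => by
      cases b
      · simpa [bd, hj] using b₀ n j x hj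
      · simpa [bd, hj] using b₁ n j x hj)
    (fun n j b => by cases b; exacts [i₀ n j, i₁ n j]) fun n j b => bd_ind iν _ n j
  simpa [bd, DD] using this

omit hν iν in
lemma count_dense {g g' : ∀ n, ι → (ι → G n) → ℝ} (tg : Test g) (tg' : Test g')
    (hc : ∀ j, Cut j fun n x => g n j x - g' n j x) :
    Tendsto (fun n => (𝔼 x, ∏ j, g n j x) - 𝔼 x, ∏ j, g' n j x) atTop (𝓝 0) := by
  have key : ∀ E : Finset ι, Tendsto (fun n => (𝔼 x, ∏ j, if j ∈ E then g n j x else g' n j x) -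
      𝔼 x, ∏ j, g' n j x) atTop (𝓝 0) := by
    intro E
    induction E using Finset.induction_on with
    | empty => simp
    | insert j E hj ih =>
      have := (hc j (fun n i x => if i ∈ E then g n i x else g' n i x) fun n i => by
        by_cases e : i ∈ E
        · simpa only [if_pos e] using tg n i
        · simpa only [if_neg e] using tg' n i).add ih
      rw [add_zero] at this
      refine this.congr fun n => ?_
      rw [← add_sub_assoc, ← expect_add_distrib]
      congr 1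
      refine expect_congr rfl fun x _ => ?_
      rw [← mul_prod_erase _ _ (mem_univ j), ← mul_prod_erase _ _ (mem_univ j), if_neg hj,
        if_pos (mem_insert_self _ _), prod_congr (s₁ := univ.erase j) rfl
          (f := fun i => if i ∈ insert j E then g n i x else g' n i x)
          (g := fun i => if i ∈ E then g n i x else g' n i x)
          fun i hi => by simp [(mem_erase.1 hi).1]]
      ring
  simpa using key univ

theorem count (S : Finset ι) : ∀ g g' : ∀ n, ι → (ι → G n) → ℝ,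
    (∀ n j x, 0 ≤ g n j x ∧ g n j x ≤ bd ν S n j x) → (∀ n j, Ind j (g n j)) → Test g' →
    (∀ j, Cut j fun n x => g n j x - g' n j x) →
    Tendsto (fun n => (𝔼 x, ∏ j, g n j x) - 𝔼 x, ∏ j, g' n j x) atTop (𝓝 0) := by
  induction S using Finset.induction_on with
  | empty =>
    exact fun g g' hg ig tg hc =>
      count_dense (fun n i => ⟨fun x => by simpa [bd] using hg n i x, ig n i⟩) tg hc
  | insert j₀ S hj ih =>
  intro g g' hg ig tg hc
  have sp : ∀ (h : ∀ n, ι → (ι → G n) → ℝ) (n : ℕ), Ind j₀ (h n j₀) →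
      𝔼 x, ∏ j, h n j x = 𝔼 x, h n j₀ x * DD j₀ h n x := fun h n hi => by
    rw [← exp_DD hi]
    exact expect_congr rfl fun x _ => (mul_prod_erase _ _ (mem_univ j₀)).symm
  have ih' : ∀ (H H' : ∀ n, (ι → G n) → ℝ) (h h' : ∀ n, ι → (ι → G n) → ℝ),
      (∀ n x, 0 ≤ H n x ∧ H n x ≤ 1) → (∀ n x, 0 ≤ H' n x ∧ H' n x ≤ 1) → (∀ n, Ind j₀ (H n)) →
      (∀ n, Ind j₀ (H' n)) → (Cut j₀ fun n x => H n x - H' n x) →
      (∀ n j x, j ≠ j₀ → 0 ≤ h n j x ∧ h n j x ≤ bd ν S n j x) → (∀ n j, Ind j (h n j)) → Test h' →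
      (∀ j, j ≠ j₀ → Cut j fun n x => h n j x - h' n j x) →
      Tendsto (fun n => (𝔼 x, H n x * DD j₀ h n x) - 𝔼 x, H' n x * DD j₀ h' n x) atTop (𝓝 0) := by
    intro H H' h h' a1 a2 a3 a4 a5 a6 a7 a8 a9
    have e : ∀ (H : ∀ n, (ι → G n) → ℝ) (h : ∀ n, ι → (ι → G n) → ℝ) (n : ℕ), Ind j₀ (H n) →
        𝔼 x, ∏ j, (if j = j₀ then H n x else h n j x) = 𝔼 x, H n x * DD j₀ h n x := by
      intro H h n hi
      rw [← exp_DD hi]
      refine expect_congr rfl fun x _ => ?_
      rw [← mul_prod_erase _ _ (mem_univ j₀), if_pos rfl,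
        prod_congr rfl fun i hi => if_neg (mem_erase.1 hi).1]
    refine (ih (fun n j x => if j = j₀ then H n x else h n j x)
      (fun n j x => if j = j₀ then H' n x else h' n j x) (fun n j x => ?_) (fun n j => ?_)
      (fun n j => ?_) fun j => ?_).congr fun n => by rw [e H h n (a3 n), e H' h' n (a4 n)]
    all_goals by_cases c : j = j₀
    · subst c; simpa [bd, hj] using a1 n x
    · simpa only [if_neg c] using a6 n j x c
    · subst c; simpa only [if_true] using a3 n
    · simpa only [if_neg c] using a7 n j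
    · subst c; simpa only [if_true] using And.intro (a2 n) (a4 n)
    · simpa only [if_neg c] using a8 n j
    · subst c; simpa only [if_true] using a5
    · simpa only [if_neg c] using a9 j c
  have hg1 : ∀ n j x, j ≠ j₀ → 0 ≤ g n j x ∧ g n j x ≤ bd ν S n j x := fun n j x c => by
    simpa [bd, c] using hg n j x
  have hg2 : ∀ n j x, j ≠ j₀ → 0 ≤ g' n j x ∧ g' n j x ≤ bd ν ∅ n j x := fun n j x c => by
    simpa [bd] using (tg n j).1 x
  have d1 := DD_mono hg1
  have d2 := DD_mono hg2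
  simp only [DD_one] at d2
  have n1 := two_bd hν iν j₀ S ∅
  have n2 := two_bd hν iν j₀ S S
  have n3 := two_bd hν iν j₀ {j₀} ∅
  have e0 : ∀ n x, bd ν S n j₀ x = 1 := fun n x => if_neg hj
  have e1 : ∀ n x, DD j₀ (bd ν {j₀}) n x = 1 := fun n x => by
    rw [← DD_one j₀ ν n x]
    exact expect_congr rfl fun a _ => prod_congr rfl fun i hi => by simp [bd, (mem_erase.1 hi).1]
  simp only [DD_one, e0, e1, one_mul, mul_one] at n1 n2 n3
  simp only [bd, mem_singleton, if_true] at n3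
  have sq : ∀ c : ℝ, Tendsto (fun n => 𝔼 x, (DD j₀ (bd ν S) n x + c) ^ 2) atTop
      (𝓝 (1 + 2 * c * 1 + c ^ 2)) := fun c => by
    refine ((n2.add (n1.const_mul (2 * c))).add_const _).congr fun n => ?_
    rw [mul_expect, ← expect_add_distrib, ← Fintype.expect_const (ι := ι → G n) (c ^ 2),
      ← expect_add_distrib]
    exact expect_congr rfl fun x _ => by ring
  have small : ∀ b : ∀ n, (ι → G n) → ℝ, (∀ n x, |b n x| ≤ DD j₀ (bd ν S) n x + 1) →
      Tendsto (fun n => 𝔼 x, (DD j₀ g n x - min (DD j₀ g n x) 1) * b n x) atTop (𝓝 0) := by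
    intro b hb
    have := (sq (-1)).mul (sq 1)
    norm_num at this
    refine tendsto_of_sq (fun n => (expect_mul_sq_le_sq_mul_sq _ _ _).trans (mul_le_mul
      (expect_le_expect fun x _ => ?_) (expect_le_expect fun x _ => ?_)
      (expect_nonneg fun x _ => sq_nonneg _) (expect_nonneg fun x _ => sq_nonneg _))) this
    · have := d1 n x
      rcases le_total (DD j₀ g n x) 1 with c | c
      · rw [min_eq_left c, sub_self, zero_pow two_ne_zero]; positivity
      · rw [min_eq_right c]; nlinarith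
    · exact sq_le_sq' (abs_le.1 (hb n x)).1 (abs_le.1 (hb n x)).2
  have c0 : ∀ n x, 0 ≤ min (DD j₀ g n x) 1 ∧ min (DD j₀ g n x) 1 ≤ 1 := fun n x =>
    ⟨le_min (d1 n x).1 zero_le_one, min_le_right _ _⟩
  have c1 : ∀ n, Ind j₀ fun x => min (DD j₀ g n x) 1 := fun n x a => by simp only [DD_ind j₀ g n x a]
  have c2 : ∀ n, Ind j₀ fun x => min (DD j₀ g n x) 1 - DD j₀ g' n x := fun n x a => by
    simp only [DD_ind j₀ g n x a, DD_ind j₀ g' n x a]
  have cc : Cut j₀ fun n x => min (DD j₀ g n x) 1 - DD j₀ g' n x := by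
    refine cut_of c2 fun A tA iA => ?_
    have pA : ∀ n x, 0 ≤ ∏ i ∈ univ.erase j₀, A n i x ∧ ∏ i ∈ univ.erase j₀, A n i x ≤ 1 :=
      fun n x => ⟨prod_nonneg fun i _ => ((tA n i).1 x).1,
        prod_le_one (fun i _ => ((tA n i).1 x).1) fun i _ => ((tA n i).1 x).2⟩
    have t1 := small (fun n x => ∏ i ∈ univ.erase j₀, A n i x) fun n x => by
      rw [abs_of_nonneg (pA n x).1]
      linarith [(pA n x).2, (d1 n x).1, (d1 n x).2]
    have t2 := ih' (fun _ _ => 1) (fun _ _ => 1) (fun n j x => g n j x * A n j x)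
      (fun n j x => g' n j x * A n j x) (by simp) (by simp) (fun _ _ _ => rfl) (fun _ _ _ => rfl)
      (cut_zero _) (fun n j x c => ⟨mul_nonneg (hg n j x).1 ((tA n j).1 x).1,
        (mul_le_of_le_one_right (hg n j x).1 ((tA n j).1 x).2).trans (hg1 n j x c).2⟩)
      (fun n j x a => by simp only; rw [ig, (tA n j).2])
      (fun n j => ⟨fun x => ⟨mul_nonneg ((tg n j).1 x).1 ((tA n j).1 x).1,
        mul_le_one₀ ((tg n j).1 x).2 ((tA n j).1 x).1 ((tA n j).1 x).2⟩,
        fun x a => by simp only; rw [(tg n j).2, (tA n j).2]⟩)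
      fun j c => by
        simpa only [sub_mul] using (hc j).mul c (fun n x => (tA n j).1 x) fun n => iA n j
    have e : ∀ (h : ∀ n, ι → (ι → G n) → ℝ) n x, DD j₀ (fun n j x => h n j x * A n j x) n x =
        DD j₀ h n x * ∏ i ∈ univ.erase j₀, A n i x := fun h n x => by
      simp only [DD, prod_mul_distrib, iA n _ x, expect_mul]
    have := t2.sub t1
    rw [sub_zero] at this
    refine this.congr fun n => ?_
    simp only [e, ← expect_sub_distrib]
    exact expect_congr rfl fun x _ => by ring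
  have f4 : Tendsto (fun n => 𝔼 x, (DD j₀ g n x - DD j₀ g' n x) ^ 2) atTop (𝓝 0) := by
    have t0 := small (fun n x => DD j₀ g n x - DD j₀ g' n x) fun n x => by
      rw [abs_le]
      constructor <;> linarith [d1 n x, d2 n x]
    have t1 := ih' _ _ g g' c0 d2 c1 (DD_ind j₀ g') cc hg1 ig tg fun j _ => hc j
    have t2 := ih' _ _ g g' d2 d2 (DD_ind j₀ g') (DD_ind j₀ g') (cut_zero _) hg1 ig tg fun j _ => hc j
    have t3 := (cc g' tg).congr fun n => exp_DD (c2 n) g'
    have := ((t0.add t1).sub t2).sub t3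
    simp only [add_zero, sub_zero] at this
    refine this.congr fun n => ?_
    simp only [← expect_sub_distrib, ← expect_add_distrib]
    exact expect_congr rfl fun x _ => by ring
  have tg2 := fun n j => (tg n j).2
  have f5 : Tendsto (fun n => 𝔼 x, ν n j₀ x * (DD j₀ g n x - DD j₀ g' n x) ^ 2) atTop (𝓝 0) := by
    have t1 := slf_bd hν iν hg1 hg1 ig ig
    have t2 := slf_bd hν iν hg1 hg2 ig tg2
    have t3 := slf_bd hν iν hg2 hg2 tg2 tg2
    have := (((t1.sub t2).sub t2).add t3).add f4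
    simp only [add_zero, sub_zero] at this
    refine this.congr fun n => ?_
    simp only [← expect_sub_distrib, ← expect_add_distrib]
    exact expect_congr rfl fun x _ => by ring
  have hg0 : ∀ n x, 0 ≤ g n j₀ x ∧ g n j₀ x ≤ ν n j₀ x := fun n x => by simpa [bd] using hg n j₀ x
  have f6 : Tendsto (fun n => 𝔼 x, g n j₀ x * (DD j₀ g n x - DD j₀ g' n x)) atTop (𝓝 0) := by
    have := n3.mul f5
    rw [mul_zero] at this
    exact tendsto_of_sq (fun n => (wcs fun x => (hg0 n x).1).trans (mul_le_mul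
      (expect_le_expect fun x _ => (hg0 n x).2)
      (expect_le_expect fun x _ => mul_le_mul_of_nonneg_right (hg0 n x).2 (sq_nonneg _))
      (expect_nonneg fun x _ => mul_nonneg (hg0 n x).1 (sq_nonneg _))
      (expect_nonneg fun x _ => (hg0 n x).1.trans (hg0 n x).2))) this
  have f7 := (hc j₀ g' tg).congr fun n => exp_DD (H := fun x => g n j₀ x - g' n j₀ x)
    (fun x a => by simp only; rw [ig, tg2]) g'
  have := f6.add f7
  rw [add_zero] at this
  refine this.congr fun n => ?_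
  rw [sp g n (ig n j₀), sp g' n (tg2 n j₀)]
  simp only [← expect_sub_distrib, ← expect_add_distrib]
  exact expect_congr rfl fun x _ => by ring

end Vale.Agent.P027G
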