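import Vale.Agent.P027Z.Defs

/-! The height bound for progressions of length `k`. -/

namespace Vale.Agent.P027G

open Vale.Agent.P027Z

/-- For `s = d / x` in lowest terms with `x > 0`:
`log (max |d| x) ≤ C * (∏ i < k, radN n |x + i d|) ^ κ`. -/
def GoodK (k n κ : ℕ) (C : ℝ) (s : ℚ) : Prop :=
  Real.log (max s.num.natAbs s.den : ℕ) ≤
    C * (∏ i ∈ Finset.range k, radN n (s.den + i * s.num).natAbs : ℕ) ^ κ

end Vale.Agent.P027G
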