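import Vale.Agent.P027G.Avg

/-! The dense model theorem for the cut norm. -/

set_option linter.all false

namespace Vale.Agent.P027G

open Finset Function
open scoped BigOperators

section
variable {ι : Type} [Fintype ι] [DecidableEq ι] {G : Type} [AddCommGroup G] [Fintype G]

/-- test functions -/
def Test0 (A : ι → (ι → G) → ℝ) : Prop := ∀ i, (∀ x, 0 ≤ A i x ∧ A i x ≤ 1) ∧ Ind i (A i)

/-- the cut norm is at most `η` -/
def CutE (ψ : (ι → G) →+ G) (j : ι) (h : G → ℝ) (η : ℝ) : Prop :=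
  ∀ A, Test0 A → |𝔼 x, h (ψ x) * ∏ i ∈ univ.erase j, A i x| ≤ η

/-- the dual norm is at most `B` -/
def Dual (ψ : (ι → G) →+ G) (j : ι) (χ : G → ℝ) (B : ℝ) : Prop :=
  ∀ h η, 0 < η → CutE ψ j h η → |𝔼 z, h z * χ z| ≤ B * η

variable {ψ : (ι → G) →+ G} (hψ : Surjective ψ) {j : ι}
include hψ

lemma exists_phi {A : ι → (ι → G) → ℝ} (hA : Test0 A) : ∃ φ : G → ℝ,
    (∀ h : G → ℝ, 𝔼 x, h (ψ x) * ∏ i ∈ univ.erase j, A i x = 𝔼 z, h z * φ z) ∧
    ∀ h η, CutE ψ j h η → CutE ψ j (fun z => h z * φ z) η := by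
  classical
  have e : ∀ x, 𝔼 w : ψ.ker, ∏ i ∈ univ.erase j, A i (surjInv hψ (ψ x) + w) =
      𝔼 w : ψ.ker, ∏ i ∈ univ.erase j, A i (x + w) := fun x => by
    rw [← expect_add_left (fun w : ψ.ker => ∏ i ∈ univ.erase j, A i (x + w))
      ⟨surjInv hψ (ψ x) - x, by simp [AddMonoidHom.mem_ker, surjInv_eq]⟩]
    simp [← add_assoc]
  refine ⟨fun z => 𝔼 w : ψ.ker, ∏ i ∈ univ.erase j, A i (surjInv hψ z + w), fun h => ?_,
    fun h η hh B hB => ?_⟩
  · rw [← expect_hom ψ hψ]
    simp only [e, mul_expect]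
    rw [expect_comm, ← Fintype.expect_const (ι := ψ.ker) (𝔼 x, h (ψ x) * _)]
    refine expect_congr rfl fun w _ => ?_
    rw [← expect_add_left _ (w : ι → G)]
    simp only [map_add, (AddMonoidHom.mem_ker.1 w.2), zero_add, add_comm]
  · simp only [e, mul_expect, expect_mul]
    rw [expect_comm]
    refine (abs_expect_le _ _).trans (expect_le univ_nonempty fun w _ => ?_)
    have := hh (fun i x => A i (x + w) * B i x) fun i => ⟨fun x =>
      ⟨mul_nonneg ((hA i).1 _).1 ((hB i).1 _).1,
        mul_le_one₀ ((hA i).1 _).2 ((hB i).1 _).1 ((hB i).1 _).2⟩, fun x a => by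
      have : update x i a + w.1 = update (x + w.1) i (a + w.1 i) := by
        funext l
        by_cases c : l = i
        · subst c; simp
        · simp [update_of_ne c]
      simp only
      rw [this, (hA i).2, (hB i).2]⟩
    simpa only [prod_mul_distrib, mul_assoc] using this

lemma Dual.mul {χ χ' : G → ℝ} {B B' : ℝ} (hB' : 0 < B') (h : Dual ψ j χ B) (h' : Dual ψ j χ' B') :
    Dual ψ j (fun z => χ' z * χ z) (B * B') := fun u η hη hu => by
  have := h (fun z => u z * χ' z) (B' * η) (by positivity) fun A hA => by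
    obtain ⟨φ, p1, p2⟩ := exists_phi hψ (j := j) hA
    rw [p1 fun z => u z * χ' z]
    simpa only [mul_right_comm] using h' _ η hη (p2 u η hu)
  simpa only [mul_assoc] using this

lemma Dual.pow {χ : G → ℝ} {B : ℝ} (hB : 0 < B) (h : Dual ψ j χ B) (m : ℕ) :
    Dual ψ j (fun z => χ z ^ m) (B ^ m) := by
  induction m with
  | zero =>
    intro u η _ hu
    have := hu (fun _ _ => 1) fun i => ⟨by simp, fun _ _ => rfl⟩
    simpa [expect_hom ψ hψ] using this
  | succ m ih => simpa only [pow_succ, mul_comm] using ih.mul hψ hB h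

lemma cutE_l1 (h : G → ℝ) : CutE ψ j h (𝔼 z, |h z|) := fun A hA => by
  rw [← expect_hom ψ hψ fun z => |h z|]
  refine (abs_expect_le _ _).trans (expect_le_expect fun x _ => ?_)
  rw [abs_mul, abs_of_nonneg (prod_nonneg fun i _ => ((hA i).1 x).1)]
  exact mul_le_of_le_one_right (abs_nonneg _)
    (prod_le_one (fun i _ => ((hA i).1 x).1) fun i _ => ((hA i).1 x).2)

omit hψ in
lemma CutE.comb {h h' : G → ℝ} {η η' : ℝ} (a b : ℝ) (c : CutE ψ j h η) (c' : CutE ψ j h' η') :
    CutE ψ j (fun z => a * h z + b * h' z) (|a| * η + |b| * η') := fun A hA => by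
  simp only [add_mul, mul_assoc, expect_add_distrib, ← mul_expect]
  refine (abs_add_le _ _).trans ?_
  rw [abs_mul, abs_mul]
  exact add_le_add (mul_le_mul_of_nonneg_left (c A hA) (abs_nonneg _))
    (mul_le_mul_of_nonneg_left (c' A hA) (abs_nonneg _))

lemma separate {f : G → ℝ} {η : ℝ} (hη : 0 < η)
    (hn : ∀ u : G → ℝ, (∀ z, 0 ≤ u z ∧ u z ≤ 1 + η) → ¬ CutE ψ j (fun z => f z - u z) η) :
    ∃ χ : G → ℝ, 𝔼 z, f z * χ z = 1 ∧ (1 + η) * 𝔼 z, max (χ z) 0 ≤ 1 ∧ Dual ψ j χ η⁻¹ ∧
      ∀ z, |χ z| ≤ η⁻¹ := by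
  classical
  obtain ⟨L, s, t, h1, h2, h3⟩ := geometric_hahn_banach_compact_closed
    (s := Set.Icc (0 : G → ℝ) fun _ => 1 + η) (t := {u | CutE ψ j (fun z => f z - u z) η})
    (convex_Icc _ _) isCompact_Icc (fun u hu v hv a b ha hb hab => by
      have := CutE.comb (ψ := ψ) (j := j) (h := fun z => f z - u z) (h' := fun z => f z - v z)
        a b hu hv
      rw [abs_of_nonneg ha, abs_of_nonneg hb, ← add_mul, hab, one_mul] at this
      rw [Set.mem_setOf_eq]
      convert this using 2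
      simp only [Pi.add_apply, Pi.smul_apply, smul_eq_mul]
      linear_combination (-f _) * hab)
    (by
      simp only [CutE, Set.setOf_forall]
      refine isClosed_iInter fun A => isClosed_iInter fun _ => isClosed_le ?_ continuous_const
      simp only [Fintype.expect_eq_sum_div_card]
      fun_prop)
    (Set.disjoint_left.2 fun u hu => hn u fun z => ⟨hu.1 z, hu.2 z⟩)
  have s0 : 0 < s := by
    simpa using h1 0 ⟨le_rfl, fun _ => by simp only [Pi.zero_apply]; positivity⟩
  have h4 : ∀ h : G → ℝ, CutE ψ j h η → t < L f - L h := fun h hh => by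
    rw [← map_sub]
    exact h3 _ (by simpa using hh)
  have f0 : t < L f := by
    simpa using h4 0 fun A _ => by simpa using hη.le
  have f1 : 0 < L f := by linarith
  let χ : G → ℝ := fun z => Fintype.card G * L (fun l => if z = l then 1 else 0) / L f
  have e : ∀ u : G → ℝ, 𝔼 z, u z * χ z = L u / L f := fun u => by
    have := LinearMap.pi_apply_eq_sum_univ (L : (G → ℝ) →ₗ[ℝ] ℝ) u
    simp only [ContinuousLinearMap.coe_coe, smul_eq_mul] at this
    rw [this, Fintype.expect_eq_sum_div_card, sum_div, sum_div]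
    refine sum_congr rfl fun z _ => ?_
    have : (Fintype.card G : ℝ) ≠ 0 := by simp
    simp only [χ]
    field_simp
  have d : Dual ψ j χ η⁻¹ := fun h η₁ hη₁ hh => by
    have k : ∀ a : ℝ, |a| = η / η₁ → a * L h < L f := fun a ha => by
      have := CutE.comb a 0 hh hh
      rw [ha, abs_zero, zero_mul, add_zero, div_mul_cancel₀ _ hη₁.ne'] at this
      simp only [zero_mul, add_zero] at this
      have := h4 (a • h) this
      rw [map_smul, smul_eq_mul] at this
      linarith
    have k1 := k (η / η₁) (abs_of_pos (by positivity))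
    have k2 := k (-(η / η₁)) (by rw [abs_neg, abs_of_pos (by positivity)])
    rw [e, abs_div, abs_of_pos f1, div_le_iff₀ f1]
    have : η / η₁ * |L h| ≤ L f := by
      rcases abs_choice (L h) with c | c <;> rw [c] <;> linarith
    rw [div_mul_eq_mul_div, div_le_iff₀ hη₁] at this
    rw [mul_assoc, ← div_eq_inv_mul, le_div_iff₀ hη]
    linarith
  refine ⟨χ, by rw [e, div_self f1.ne'], ?_, d, fun z => ?_⟩
  · have := h1 (fun z => if 0 ≤ χ z then 1 + η else 0)
      ⟨fun z => by simp only [Pi.zero_apply]; split_ifs <;> positivity,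
        fun z => by simp only; split_ifs <;> linarith⟩
    have e1 := e fun z => if 0 ≤ χ z then 1 + η else 0
    rw [mul_expect]
    refine le_trans (le_of_eq (Eq.trans (expect_congr rfl fun z _ => ?_) e1)) ?_
    · split_ifs with c
      · rw [max_eq_left c]
      · rw [max_eq_right (not_le.1 c).le, mul_zero, zero_mul]
    · rw [div_le_one f1]; linarith
  · have c := cutE_l1 hψ (j := j) fun l => if l = z then (Fintype.card G : ℝ) else 0
    have c0 : (Fintype.card G : ℝ) ≠ 0 := by simp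
    have e1 : 𝔼 l, |if l = z then (Fintype.card G : ℝ) else 0| = 1 := by
      simp only [abs_ite, Fintype.expect_eq_sum_div_card]
      simp
    rw [e1] at c
    have := d _ 1 one_pos c
    simp only [ite_mul, zero_mul, Fintype.expect_eq_sum_div_card, sum_ite_eq', mem_univ,
      if_true] at this
    rwa [mul_div_cancel_left₀ _ c0, mul_one] at this

end

theorem dense_model {η : ℝ} (hη : 0 < η) : ∃ η' : ℝ, 0 < η' ∧ ∀ (ι : Type) [Fintype ι]
    [DecidableEq ι] (G : Type) [AddCommGroup G] [Fintype G] (ψ : (ι → G) →+ G) (j : ι),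
    Surjective ψ → ∀ ν f : G → ℝ, (∀ z, 0 ≤ f z ∧ f z ≤ ν z) → CutE ψ j (fun z => ν z - 1) η' →
    ∃ f' : G → ℝ, (∀ z, 0 ≤ f' z ∧ f' z ≤ 1) ∧ CutE ψ j (fun z => f z - f' z) (2 * η) := by
  obtain ⟨γ, hγ, hγ'⟩ : ∃ γ : ℝ, 0 < γ ∧ (1 + η) * (1 - 5 * γ) = 1 :=
    ⟨η / (1 + η) / 5, by positivity, by field_simp; ring⟩
  obtain ⟨P, hP⟩ := exists_polynomial_near_of_continuousOn (-η⁻¹) η⁻¹ (fun t => max t 0)
    (by fun_prop) γ hγ
  let C := ∑ m ∈ range (P.natDegree + 1), |P.coeff m| * η⁻¹ ^ m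
  have C0 : 0 ≤ C := by positivity
  refine ⟨min 1 (γ / (C + 1)), by positivity, fun ι _ _ G _ _ ψ j hψ ν f hf hν => ?_⟩
  by_contra hn
  obtain ⟨χ, c1, c2, c3, c4⟩ := separate hψ (j := j) (f := f) hη fun u hu hc =>
    hn ⟨fun z => min (u z) 1, fun z => ⟨le_min (hu z).1 zero_le_one, min_le_right _ _⟩, by
      have := CutE.comb 1 1 hc (cutE_l1 hψ (j := j) fun z => u z - min (u z) 1)
      simp only [one_mul, abs_one, sub_add_sub_cancel] at this
      refine fun A hA => (this A hA).trans ?_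
      have : 𝔼 z, |u z - min (u z) 1| ≤ η := expect_le univ_nonempty fun z _ => by
        rcases le_total (u z) 1 with c | c
        · rw [min_eq_left c, sub_self, abs_zero]; exact hη.le
        · rw [min_eq_right c, abs_of_nonneg (by linarith)]; linarith [hu z]
      linarith⟩
  have p := fun m => (c3.pow hψ (inv_pos.2 hη) m) _ _ (by positivity) hν
  have a1 : |𝔼 z, (ν z - 1) * P.eval (χ z)| ≤ γ := by
    simp only [Polynomial.eval_eq_sum_range, mul_sum, expect_sum_comm]
    refine (abs_sum_le_sum_abs _ _).trans (le_trans (b := C * (γ / (C + 1))) ?_ ?_)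
    · rw [sum_mul]
      refine sum_le_sum fun m _ => ?_
      simp only [mul_left_comm _ (P.coeff m), ← mul_expect]
      rw [abs_mul, mul_assoc]
      refine mul_le_mul_of_nonneg_left ((p m).trans ?_) (abs_nonneg _)
      exact mul_le_mul_of_nonneg_left (min_le_right _ _) (by positivity)
    · rw [← mul_div_assoc, div_le_iff₀ (by positivity)]
      nlinarith
  have a2 : 𝔼 z, ν z ≤ 2 := by
    have := (le_abs_self _).trans (p 0)
    simp only [pow_zero, mul_one, one_mul, expect_sub_distrib, Fintype.expect_const] at this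
    linarith [min_le_left 1 (γ / (C + 1))]
  have a3 : 𝔼 z, f z * χ z ≤
      𝔼 z, (max (χ z) 0 + (ν z - 1) * P.eval (χ z) + γ * ν z + γ) := expect_le_expect fun z _ => by
    have b := abs_lt.1 (hP (χ z) (abs_le.1 (c4 z)))
    have b1 : f z * χ z ≤ ν z * max (χ z) 0 :=
      (mul_le_mul_of_nonneg_left (le_max_left _ _) (hf z).1).trans
        (mul_le_mul_of_nonneg_right (hf z).2 (le_max_right _ _))
    have b2 := (hf z).1.trans (hf z).2
    nlinarith
  simp only [expect_add_distrib, ← mul_expect, Fintype.expect_const] at a3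
  have a4 := le_abs_self (𝔼 z, (ν z - 1) * P.eval (χ z))
  have a5 : 𝔼 z, max (χ z) 0 ≤ 1 - 5 * γ := le_of_mul_le_mul_left (c2.trans hγ'.ge) (by positivity)
  nlinarith

end Vale.Agent.P027G
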