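import Vale.Agent.P027G.Red
import Vale.Agent.P027Z.C1
import Vale.Agent.P027Z.Primes
import Vale.Agent.P027Z.A1
import Vale.Agent.P027Z.A2

/-! The assembled reductions. -/

set_option linter.all false

namespace Vale.Agent.P027G

open Vale.Agent.P027Z MvPolynomial

/-- the negative answer in its strong form -/
def Neg : Prop :=
  (∃ (m : ℕ) (g : MvPolynomial (Option (Fin m)) ℤ), ∀ x : ℚ,
    (∃ n : ℤ, x = n) ↔ ∃ y : Fin m → ℚ, aeval (fun o : Option (Fin m) => o.elim x y) g = 0) ∧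
  ¬ ComputablePred (fun F : List (ℤ × List ℕ) =>
    ∃ y : ℕ → ℚ, (F.map fun t => (t.1 : ℚ) * (t.2.map y).prod).sum = 0)

variable (g : GT)
include g

theorem neg_of_dioph {k j κ : ℕ} {C : ℝ} {r : ℕ} {h : MvPolynomial (Option (Fin r)) ℤ}
    (h1 : ∀ x d : ℕ, 0 < d → (∀ i < k, (x + i * d).Prime ∧ (x + i * d) % 24 = 17) →
      ∃ z : Fin r → ℚ, aeval (fun o : Option (Fin r) => o.elim ((d : ℚ) / x) z) h = 0)
    (h2 : ∀ (s : ℚ) (z : Fin r → ℚ), aeval (fun o : Option (Fin r) => o.elim s z) h = 0 →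
      GoodK k (2 ^ j) κ C s) : Neg := by
  obtain ⟨m, S, f, hf⟩ := thmK a1 a2 (parStar c1 p1) g k j κ C
    {s | ∃ z : Fin r → ℚ, aeval (fun o : Option (Fin r) => o.elim s z) h = 0} h1
    fun s ⟨z, hz⟩ => h2 s z hz
  obtain ⟨M, f', hf'⟩ := dioph_subst S f h
  have : ∃ (m : ℕ) (g : MvPolynomial (Option (Fin m)) ℤ), ∀ x : ℚ,
      (∃ n : ℤ, x = n) ↔ ∃ y : Fin m → ℚ, aeval (fun o : Option (Fin m) => o.elim x y) g = 0 :=
    ⟨M, f', fun x => (hf x).trans (hf' x)⟩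
  exact ⟨this, undec_of_int this⟩

theorem neg_of_set {j : ℕ} (h : ∃ (R : Finset ℚ) (T : ℚ) (κ : ℕ) (C : ℝ), ∀ t : ℚ, T < t →
    Real.log (max t.num.natAbs t.den : ℕ) ≤ C * (Rad (2 ^ j) R t : ℝ) ^ κ) : Neg := by
  obtain ⟨R, T, κ, C, h⟩ := h
  obtain ⟨k, κ, C, h⟩ := good_of_set h
  refine neg_of_dioph g (k := k + 1) (j := j) (κ := κ) (C := C) (r := 4)
    (h := X none * (X (some 0) ^ 2 + X (some 1) ^ 2 + X (some 2) ^ 2 + X (some 3) ^ 2) - 1)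
    (fun x d hd hp => ?_) fun s z hz => h s ?_
  · obtain ⟨a, b, c, e, he⟩ := Nat.sum_four_squares (x * d)
    have x0 : (x : ℚ) ≠ 0 := by simpa using (hp 0 (by omega)).1.ne_zero
    have d0 : (d : ℚ) ≠ 0 := by positivity
    have he' : (a : ℚ) ^ 2 + b ^ 2 + c ^ 2 + e ^ 2 = x * d := by exact_mod_cast he
    refine ⟨![a / d, b / d, c / d, e / d], ?_⟩
    simp
    field_simp
    linarith
  · simp at hz
    by_contra c
    nlinarith [mul_nonneg (neg_nonneg.2 (not_lt.1 c))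
      (show 0 ≤ z 0 ^ 2 + z 1 ^ 2 + z 2 ^ 2 + z 3 ^ 2 by positivity)]

theorem neg_of_any (h : (∃ (k j κ : ℕ) (C : ℝ) (r : ℕ) (h : MvPolynomial (Option (Fin r)) ℤ),
        (∀ x d : ℕ, 0 < d → (∀ i < k, (x + i * d).Prime ∧ (x + i * d) % 24 = 17) →
          ∃ z : Fin r → ℚ, aeval (fun o : Option (Fin r) => o.elim ((d : ℚ) / x) z) h = 0) ∧
        ∀ (s : ℚ) (z : Fin r → ℚ), aeval (fun o : Option (Fin r) => o.elim s z) h = 0 →
          GoodK k (2 ^ j) κ C s) ∨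
      (∃ (R : Finset ℚ) (T : ℚ) (j κ : ℕ) (C : ℝ), ∀ t : ℚ, T < t →
        Real.log (max t.num.natAbs t.den : ℕ) ≤
          C * (radN (2 ^ j) t.den * ∏ r ∈ R, radN (2 ^ j) (t - r).num.natAbs : ℕ) ^ κ) ∨
      (∃ (L : List ℚ) (T : ℚ) (j κ : ℕ) (C : ℝ), ∀ (B : ℤ) (t y : ℚ), T < t → y ≠ 0 →
        B * y ^ 2 ^ j = (L.map fun r => t - r).prod →
        Real.log (max t.num.natAbs t.den : ℕ) ≤ C * |(B : ℝ)| ^ κ) ∨
      (∃ (a b c m j κ : ℕ) (T : ℚ) (C : ℝ), m ∈ [1, 3, 5, 7, 9] ∧ a ∣ 2 ^ j ∧ b ∣ 2 ^ j ∧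
        c ∣ m * 2 ^ j ∧ ∀ t : ℚ, T < t → Real.log (max t.num.natAbs t.den : ℕ) ≤
          C * (radN a t.num.natAbs * radN b (t.den - t.num).natAbs * radN c t.den : ℕ) ^ κ) ∨
      ∃ k K : ℕ, ∀ a b : ℕ, 0 < a → 0 < b → a.Coprime b →
        a + b ≤ K * (∏ p ∈ (a * b * (a + b)).primeFactors, p) ^ k) : Neg := by
  rcases h with ⟨k, j, κ, C, r, h, h1, h2⟩ | ⟨R, T, j, κ, C, h⟩ | ⟨L, T, j, κ, C, h⟩ |
    ⟨a, b, c, m, j, κ, T, C, h1, h2, h3, h4, h⟩ | ⟨k, K, h⟩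
  · exact neg_of_dioph g h1 h2
  · exact neg_of_set g ⟨R, T, κ, C, h⟩
  · exact neg_of_set g (set_of_twist (by positivity) h)
  · exact neg_of_set g (set_of_sig h1 h2 h3 h4 h)
  · obtain ⟨j, κ, C, h⟩ := sig_of_abc h
    exact neg_of_set g (set_of_sig (m := 1) (by simp) dvd_rfl dvd_rfl (by simp) h)

end Vale.Agent.P027G
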