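import Mathlib

/-! Statements of the blocks for long progressions of primes in the class of seventeen. -/

namespace Vale.Agent.P027G

open Finset
open scoped BigOperators

/-- the density theorem for progressions -/
def Sz : Prop := ∀ (k : ℕ) (δ : ℝ), 0 < δ → ∃ N₀ : ℕ, ∀ N : ℕ, N₀ ≤ N → ∀ A : Finset ℕ,
  A ⊆ Icc 1 N → δ * N ≤ A.card → ∃ a d : ℕ, 0 < d ∧ ∀ i < k, a + i * d ∈ A

/-- the weighted counting form in cyclic groups of prime order -/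
def SzW : Prop := ∀ (k : ℕ) (δ : ℝ), 0 < δ → ∃ c : ℝ, 0 < c ∧ ∃ N₀ : ℕ, ∀ (N : ℕ) [Fact N.Prime],
  N₀ ≤ N → ∀ f : ZMod N → ℝ, (∀ x, 0 ≤ f x ∧ f x ≤ 1) → δ ≤ 𝔼 x, f x →
    c ≤ 𝔼 x, 𝔼 d, ∏ i ∈ range k, f (x + i * d)

/-- the linear forms condition for the system `a`, with error `ε` -/
def LF {σ τ : Type} [Fintype τ] [DecidableEq τ] (a : σ → τ → ℤ) {N : ℕ} [NeZero N]
    (ν : ZMod N → ℝ) (ε : ℝ) : Prop :=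
  ∀ T : Finset σ, |(𝔼 x : τ → ZMod N, ∏ j ∈ T, ν (∑ i, (a j i : ZMod N) * x i)) - 1| ≤ ε

/-- the forms for progressions of length `k`: two copies of each of `k` variables; the form
`(j, ω)` is the sum of `(j - i) * x (i, ω i)` -/
def apForm (k : ℕ) (e : {p : Fin k × (Fin k → Bool) // p.2 p.1 = false}) (v : Fin k × Bool) : ℤ :=
  if e.1.2 v.1 = v.2 then ((e.1.1 : ℕ) : ℤ) - ((v.1 : ℕ) : ℤ) else 0

/-- the relative density theorem -/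
def Rel : Prop := ∀ (k : ℕ) (δ : ℝ), 3 ≤ k → 0 < δ → ∃ c : ℝ, 0 < c ∧ ∃ ε : ℝ, 0 < ε ∧ ∃ N₀ : ℕ,
  ∀ (N : ℕ) [Fact N.Prime], N₀ ≤ N → ∀ ν f : ZMod N → ℝ, (∀ x, 0 ≤ f x ∧ f x ≤ ν x) →
    δ ≤ 𝔼 x, f x → LF (apForm k) ν ε → c ≤ 𝔼 x, 𝔼 d, ∏ i ∈ range k, f (x + i * d)

/-- the majorant of the primes -/
def Maj : Prop := ∀ (σ τ : Type) [Fintype σ] [Fintype τ] [DecidableEq τ] (a : σ → τ → ℤ),
  (∀ j, a j ≠ 0) → (∀ j j', j ≠ j' → ∃ i i', a j i * a j' i' ≠ a j i' * a j' i) →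
  ∃ δ : ℝ, 0 < δ ∧ ∀ ε : ℝ, 0 < ε → ∀ k X : ℕ, ∃ (N : ℕ) (_ : Fact N.Prime) (W b : ℕ)
    (ν f : ZMod N → ℝ), X ≤ N ∧ 0 < W ∧ (∀ x, 0 ≤ f x ∧ f x ≤ ν x) ∧ δ ≤ 𝔼 x, f x ∧
    (∀ x, f x ^ k ≤ ε * N) ∧ LF a ν ε ∧ ∀ x, f x ≠ 0 → 2 * x.val < N ∧
      (W * x.val + b).Prime ∧ (W * x.val + b) % 24 = 17 ∧ X < W * x.val + b

/-- long progressions of primes in the class of seventeen -/
def GT : Prop := ∀ k X : ℕ, ∃ x d : ℕ, 0 < d ∧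
  ∀ i < k, (x + i * d).Prime ∧ (x + i * d) % 24 = 17 ∧ X < x + i * d

end Vale.Agent.P027G
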