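import Vale.Agent.P027G.Defs
import Vale.Agent.P027G.Iface
import Vale.Agent.P027Z.Final

/-! The definability theorem for progressions of any length. -/

set_option linter.all false

namespace Vale.Agent.P027G

open Filter Height Vale.Agent.P027Z MvPolynomial

lemma radN_dvd {n m E : ℕ} (h : ∀ p : ℕ, p.Prime → ¬ p ∣ E → n ∣ m.factorization p) :
    radN n m ∣ E := by
  refine Finset.prod_primes_dvd _ (fun p hp =>
    (Nat.prime_of_mem_primeFactors (Finset.mem_filter.1 hp).1).prime) fun p hp => ?_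
  by_contra c
  exact (Finset.mem_filter.1 hp).2
    (h p (Nat.prime_of_mem_primeFactors (Finset.mem_filter.1 hp).1) c)

lemma val_term {p : ℕ} (hp : p.Prime) {s : ℚ} {i : ℕ} (h : 1 + i * s ≠ 0) :
    (((s.den + i * s.num : ℤ).natAbs.factorization p : ℕ) : ℤ) =
      padicValRat p (1 + i * s) + padicValNat p s.den := by
  haveI := Fact.mk hp
  have hd : (s.den : ℚ) ≠ 0 := by exact_mod_cast s.den_nz
  have e : ((s.den + i * s.num : ℤ) : ℚ) = (1 + i * s) * s.den := by
    push_cast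
    rw [← Rat.mul_den_eq_num s]; ring
  rw [Nat.factorization_def _ hp, ← padicValRat.of_nat (n := s.den), ← padicValRat.mul h hd, ← e,
    padicValRat.of_int, padicValInt]

lemma radN_term {n i : ℕ} {s x : ℚ} (h0 : x ≠ 0) (h1 : x * (1 + s) ≠ 0) (h2 : x * (1 + i * s) ≠ 0)
    {T : Finset ℕ} (hT : ∀ p ∈ T, p.Prime) (t0 : Vs n x ⊆ T) (t1 : Vs n (x * (1 + s)) ⊆ T)
    (t2 : Vs n (x * (1 + i * s)) ⊆ T) :
    radN n (s.den + i * s.num : ℤ).natAbs ≤ 2 * ∏ p ∈ T, p := by
  refine Nat.le_of_dvd (mul_pos two_pos (Finset.prod_pos fun p hp => (hT p hp).pos))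
    (radN_dvd fun p pp hn => ?_)
  haveI := Fact.mk pp
  have key : ∀ x : ℚ, Vs n x ⊆ T → (n : ℤ) ∣ padicValRat p x := fun x hx => by
    by_contra h
    exact hn (dvd_mul_of_dvd_right (Finset.dvd_prod_of_mem _ (hx (mem_Vs.2
      ⟨pp, fun e => hn (e ▸ dvd_mul_right _ _), h⟩))) _)
  have k2 : ∀ y : ℚ, x * y ≠ 0 → Vs n (x * y) ⊆ T → (n : ℤ) ∣ padicValRat p y := fun y a b => by
    have := key _ b
    rw [padicValRat.mul h0 (right_ne_zero_of_mul a)] at this
    exact (dvd_add_right (key _ t0)).1 this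
  have e3 : (1 + s).den = s.den := by simpa using Rat.intCast_add_den 1 s
  rw [← Int.natCast_dvd_natCast, val_term pp (right_ne_zero_of_mul h2)]
  exact dvd_add (k2 _ h2 t2) (e3 ▸ dvd_val_den pp (k2 _ h1 t1))

section
variable {I J : Type} {U : Ultrafilter J} (θ : (I → ℚ) →+* Germ (U : Filter J) ℚ)

/-- the images of the quotients that belong to progressions of primes satisfy the height bound -/
def PresK (k n κ : ℕ) (C : ℝ) : Prop := ∀ x d : I → ℕ,
  (∀ i, 0 < d i ∧ ∀ l < k + 2, (x i + l * d i).Prime ∧ (x i + l * d i) % 24 = 17) →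
    ∀ᶠ w in U, GoodK k n κ C (rep θ (fun i => (d i : ℚ) / x i) w)

variable {θ} {k n κ : ℕ} {C : ℝ}

lemma ht_ratioK (hG : PresK θ k n κ C) {x d : I → ℕ} {F : Finset (I → ℕ)}
    (h : ∀ i, 0 < d i ∧ ∀ l < k + 2, (x i + l * d i).Prime ∧ (x i + l * d i) % 24 = 17)
    (hF : ∀ l < k + 2, (fun i => x i + l * d i) ∈ F) :
    ∀ᶠ w in U, logHeight₁ (rep θ (fun i => (d i : ℚ) / x i) w) ≤
      |C| * (2 * Mo θ n F w) ^ (k * κ) := by
  have x0 : ∀ i, x i ≠ 0 := fun i => by simpa using ((h i).2 0 (by omega)).1.ne_zero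
  have ne : ∀ᶠ w in U, ∀ l ∈ Finset.range (k + 2), hat θ (fun i => x i + l * d i) w ≠ 0 :=
    (eventually_all_finset _).2 fun l hl =>
      hat_ne θ _ fun i => ((h i).2 l (Finset.mem_range.1 hl)).1.ne_zero
  filter_upwards [hG x d h, ne, (eventually_all_finset (Finset.range (k + 2))).2 fun l _ =>
    hat_ap θ (d := d) x0 l] with w b n0 e
  simp only [Finset.mem_range] at n0 e
  have t := fun l hl => Finset.subset_biUnion_of_mem (fun q => Vs n (hat θ q w)) (hF l hl)
  have n1 := n0 1 (by omega)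
  have t1 := t 1 (by omega)
  rw [e 1 (by omega), Nat.cast_one, one_mul] at n1 t1
  rw [Rat.logHeight₁_eq_log_max]
  refine b.trans (mul_le_mul (le_abs_self C) ?_ (by positivity) (abs_nonneg C))
  rw [pow_mul]
  refine pow_le_pow_left₀ (by positivity) ?_ _
  have := Finset.prod_le_pow_card (Finset.range k) _ _ fun l hl =>
    have hl' : l < k + 2 := by have := Finset.mem_range.1 hl; omega
    radN_term (n := n) (n0 0 (by omega)) n1 (e l hl' ▸ n0 l hl') (T := VF θ n F w)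
      (fun p hp => prime_VF θ hp) (t 0 (by omega)) t1 (e l hl' ▸ t l hl')
  rw [Finset.card_range] at this
  exact_mod_cast this

variable (ps : ParStar) (g : GT) {j : ℕ} (hG : PresK θ k (2 ^ j) κ C)
include ps g hG

lemma dom_aK (a : I → ℕ) :
    Dom θ (2 ^ j) (fun w => logHeight₁ (hat θ a w) / (2 + 4 * (|C| * 2 ^ (k * κ)))) := by
  classical
  refine Dom.root ps (κ := k * κ) fun X => ?_
  choose x D hD hp using fun i => g ((k + 2) * (a i + 2)) (X i)
  let c : I → Fin 4 → ℕ := fun i => ![1, a i + 1, 1, 2]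
  let d : I → Fin 4 → ℕ := fun i l => c i l * D i
  have hl : ∀ i l, 0 < d i l ∧ ∀ m < k + 2, (x i + m * d i l).Prime ∧ (x i + m * d i l) % 24 = 17 ∧
      X i < x i + m * d i l := fun i l => by
    have c1 : 0 < c i l ∧ c i l ≤ a i + 2 := by fin_cases l <;> simp [c]
    refine ⟨mul_pos c1.1 (hD i), fun m hm => ?_⟩
    rw [← mul_assoc]
    exact hp i _ (Nat.mul_lt_mul_of_lt_of_le hm c1.2 (by omega))
  have e : ∀ i, d i 0 + a i * d i 3 = d i 1 + a i * d i 2 := fun i => by simp [d, c]; ring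
  have ne : ∀ i, d i 2 ≠ d i 3 := fun i => by have := hD i; simp [d, c]; omega
  clear_value d
  let F : Finset (I → ℕ) := ((Finset.range (k + 2)) ×ˢ (Finset.univ : Finset (Fin 4))).image
    fun p => fun i => x i + p.1 * d i p.2
  have hF : ∀ q ∈ F, GS X q := by
    intro q hq i
    obtain ⟨⟨m, l⟩, h, rfl⟩ := Finset.mem_image.1 hq
    exact (hl i l).2 m (Finset.mem_range.1 (Finset.mem_product.1 h).1)
  refine ⟨F, hF, ?_⟩
  have r := fun l : Fin 4 => ht_ratioK hG (x := x) (d := fun i => d i l) (F := F)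
    (fun i => ⟨(hl i l).1, fun m hm => ⟨((hl i l).2 m hm).1, ((hl i l).2 m hm).2.1⟩⟩) fun m hm =>
      Finset.mem_image.2 ⟨(m, l), Finset.mem_product.2
        ⟨Finset.mem_range.2 hm, Finset.mem_univ _⟩, rfl⟩
  have x0 : ∀ i, (x i : ℚ) ≠ 0 := fun i => by
    simpa using ((hl i 0).2 0 (by omega)).1.ne_zero
  let s : Fin 4 → I → ℚ := fun l i => (d i l : ℚ) / x i
  have e1 : (fun i => s 1 i + ((a i : ℤ) : ℚ) * (s 2 i - s 3 i)) = s 0 := by
    funext i
    have h1 : (d i 0 : ℚ) + a i * d i 3 = d i 1 + a i * d i 2 := by exact_mod_cast e i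
    have := x0 i
    simp only [s]
    push_cast
    field_simp
    linear_combination -h1
  have e2 : (fun i => (s 2 i - s 3 i) + s 3 i) = s 2 := by funext i; ring
  have a1 := rep_add θ (s 1) (fun i => ((a i : ℤ) : ℚ) * (s 2 i - s 3 i))
  have a2 := rep_add θ (fun i => s 2 i - s 3 i) (s 3)
  rw [e1] at a1
  rw [e2] at a2
  have a3 := rep_ne θ (fun i => s 2 i - s 3 i) fun i => by
    simp only [s]
    rw [← sub_div]
    exact div_ne_zero (sub_ne_zero.2 (by exact_mod_cast ne i)) (x0 i)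
  filter_upwards [r 0, r 1, r 2, r 3, a1, a2, a3,
    rep_mul θ (fun i => ((a i : ℤ) : ℚ)) (fun i => s 2 i - s 3 i)] with w s0 s1 s2 s3 b1 b2 b3 b4
  change logHeight₁ (rep θ (s _) w) ≤ _ at s0 s1 s2 s3
  change _ = hat θ a w * _ at b4
  have b5 : rep θ (fun i => s 2 i - s 3 i) w = rep θ (s 2) w - rep θ (s 3) w := by rw [b2]; ring
  rw [b4, b5] at b1
  rw [b5] at b3
  have e : hat θ a w = (rep θ (s 0) w - rep θ (s 1) w) / (rep θ (s 2) w - rep θ (s 3) w) := by
    rw [b1]; field_simp; ring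
  have t1 := (congrArg logHeight₁ e).trans_le (h_div _ _)
  have t2 := h_sub (rep θ (s 0) w) (rep θ (s 1) w)
  have t3 := h_sub (rep θ (s 2) w) (rep θ (s 3) w)
  have m1 : (1 : ℝ) ≤ (Mo θ (2 ^ j) F w : ℝ) ^ (k * κ) :=
    one_le_pow₀ (by exact_mod_cast one_le_Mo θ _ F w)
  rw [abs_of_nonneg (div_nonneg (zero_le_logHeight₁ _) (by positivity)),
    div_le_iff₀ (by positivity)]
  rw [mul_pow] at s0 s1 s2 s3
  nlinarith

end

section
variable {I J : Type} {U : Ultrafilter J} {θ : (I → ℚ) →+* Germ (U : Filter J) ℚ}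
  (ps : ParStar) {j : ℕ} {B : ℝ} (hB : 0 < B)
  (hA : ∀ a : I → ℕ, Dom θ (2 ^ j) (fun w => logHeight₁ (hat θ a w) / B))
include ps hB hA

lemma dom_constK (c : ℝ) : Dom θ (2 ^ j) (fun _ => c) := by
  obtain ⟨k, hk⟩ := exists_nat_gt (Real.exp (|c| * B))
  refine (hA (fun _ => k + 1)).mono ?_
  filter_upwards [hat_const θ (k + 1)] with w hw
  rw [hw, Rat.logHeight₁_natCast]
  refine le_trans ?_ (le_abs_self _)
  rw [le_div_iff₀ hB, Real.le_log_iff_exp_le (by positivity)]
  push_cast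
  linarith

theorem dom_htK (ξ : I → ℚ) : Dom θ (2 ^ j) (fun w => logHeight₁ (rep θ ξ w)) := by
  have hc := dom_constK ps hB hA
  have da : ∀ a : I → ℕ, Dom θ (2 ^ j) (fun w => logHeight₁ (hat θ a w)) := fun a =>
    ((hA a).mul ps (hc B)).mono (Eventually.of_forall fun w => by rw [div_mul_cancel₀ _ hB.ne'])
  let a : I → ℕ := fun i => (ξ i).num.toNat
  let a' : I → ℕ := fun i => (-(ξ i).num).toNat
  let b : I → ℕ := fun i => (ξ i).den
  refine ((((hc 1).add ps hc (da a)).add ps hc (da a')).add ps hc (da b)).mono ?_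
  have e : (fun i => ξ i * ((b i : ℤ) : ℚ) + ((a' i : ℤ) : ℚ)) = fun i => ((a i : ℤ) : ℚ) := by
    funext i
    have h1 : (((ξ i).num.toNat : ℤ) : ℚ) - (((-(ξ i).num).toNat : ℤ) : ℚ) = (ξ i).num := by
      exact_mod_cast Int.toNat_sub_toNat_neg _
    have h2 := Rat.mul_den_eq_num (ξ i)
    simp only [a, a', b]
    push_cast at h1 ⊢
    linear_combination h2 - h1
  have r1 := rep_add θ (fun i => ξ i * ((b i : ℤ) : ℚ)) (fun i => ((a' i : ℤ) : ℚ))
  rw [e] at r1
  filter_upwards [r1, rep_mul θ ξ (fun i => ((b i : ℤ) : ℚ)),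
    hat_ne θ b (fun i => (ξ i).den_nz)] with w s1 s2 s3
  change hat θ a w = _ + hat θ a' w at s1
  change _ = _ * hat θ b w at s2
  have e2 : rep θ ξ w = (hat θ a w - hat θ a' w) / hat θ b w := by
    rw [s1, s2]; field_simp; ring
  have t1 := (congrArg logHeight₁ e2).trans_le (h_div _ _)
  have t2 := h_sub (hat θ a w) (hat θ a' w)
  rw [abs_of_nonneg (zero_le_logHeight₁ _)]
  exact le_trans (by linarith) (le_abs_self _)

theorem rep_intK (a1 : A1) (a2 : A2) (x : I → ℤ) :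
    ∀ᶠ w in U, ∃ n : ℤ, rep θ (fun i => x i) w = n := by
  obtain ⟨C', m, h1, h2⟩ := exists_index θ a1 a2 a3 a4
  have hc := dom_constK ps hB hA
  have ht := dom_htK ps hB hA
  refine (rep_eq ps hc (m := m) (fun x => ?_) (fun x q hq => ?_) ht x).mono fun w h => ⟨_, h⟩
  · obtain ⟨ξ, hξ⟩ := h1 x
    have d := ((hc C').mul ps ((hc 1).add ps hc ((((ht (ξ 0)).add ps hc (ht (ξ 1))).add ps hc
      (ht (ξ 2))).add ps hc (ht (ξ 3))))).add ps hc (hc 1)
    refine d.mono (hξ.mono fun w h => le_trans ?_ (le_abs_self _))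
    rw [Fin.sum_univ_four] at h
    have := sq_abs (m x w : ℝ)
    nlinarith [sq_nonneg (|(m x w : ℝ)| - 1), abs_nonneg (m x w : ℝ)]
  · exact vis θ ps j (fun i => q i) (fun w p => Dv p ((m x w : ℚ) - rep θ (fun i => x i) w))
      fun p hp ho => h2 p hp q (fun i => ⟨(hq i).1, (hq i).2.1⟩) ho x

end

/-- the integers are existentially definable from a predicate for the height bound -/
theorem thmK (a1 : A1) (a2 : A2) (ps : ParStar) (g : GT) (k j κ : ℕ) (C : ℝ) (G : Set ℚ)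
    (h1 : ∀ x d : ℕ, 0 < d → (∀ i < k, (x + i * d).Prime ∧ (x + i * d) % 24 = 17) →
      (d : ℚ) / x ∈ G) (h2 : ∀ s ∈ G, GoodK k (2 ^ j) κ C s) :
    ∃ (m : ℕ) (S : Finset (Fin m)) (g : MvPolynomial (Option (Fin m)) ℤ), ∀ x : ℚ,
      (∃ n : ℤ, x = n) ↔ ∃ y : Fin m → ℚ, (∀ i ∈ S, y i ∈ G) ∧
        aeval (fun o : Option (Fin m) => o.elim x y) g = 0 := by
  obtain ⟨m, S, g, b1, b2⟩ := crit G {x | ∃ n : ℤ, x = n} (by
    intro J U θ hθ
    rw [← rep_spec, Germ.liftPred_coe]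
    refine rep_intK ps (by positivity) (dom_aK ps g (k := k) (j := j) (κ := κ) (C := C)
      fun x d h => ?_) a1 a2 id
    have := hθ (fun i => (d i : ℚ) / x i) fun i => h1 _ _ (h i).1 fun l hl => (h i).2 l (by omega)
    rw [← rep_spec, Germ.liftPred_coe] at this
    exact this.mono fun w hw => h2 _ hw)
  refine ⟨m, S, g, fun x => ⟨?_, fun ⟨y, c1, c2⟩ => b2 x y c1 c2⟩⟩
  rintro ⟨n, rfl⟩
  exact b1 n

lemma goodK_prime {k j κ : ℕ} {C : ℝ} (hk : 2 ≤ k) (hj : 1 ≤ j) (hκ : 1 ≤ κ) (hC : 1 ≤ C) {x d : ℕ}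
    (hd : 0 < d) (h0 : x.Prime) (h1 : (x + d).Prime) : GoodK k (2 ^ j) κ C ((d : ℚ) / x) := by
  have h2 := h0.two_le
  have cop : Nat.Coprime d x := by
    have := (Nat.coprime_primes h1 h0).2 (by omega)
    simpa using this
  have e1 : ((d : ℚ) / x).num = d := by
    have := Rat.num_div_eq_of_coprime (a := d) (b := x) (by omega) cop
    simpa only [Int.cast_natCast] using this
  have e2 : ((d : ℚ) / x).den = x := by
    have := Rat.den_div_eq_of_coprime (a := d) (b := x) (by omega) cop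
    simpa only [Int.cast_natCast, Nat.cast_inj] using this
  unfold GoodK
  rw [e1, e2]
  have h4 : x + d ≤ radN (2 ^ j) (x + d) := by
    refine Finset.single_le_prod' (f := fun p : ℕ => p)
      (fun q hq => (Nat.prime_of_mem_primeFactors (Finset.mem_filter.1 hq).1).one_le) ?_
    rw [Finset.mem_filter, Nat.mem_primeFactors, h1.factorization_self]
    refine ⟨⟨h1, dvd_rfl, h1.ne_zero⟩, fun h => ?_⟩
    have := Nat.le_of_dvd (by norm_num) h
    have : 2 ^ 1 ≤ 2 ^ j := Nat.pow_le_pow_right (by norm_num) hj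
    omega
  have h5 := Finset.single_le_prod' (f := fun i : ℕ => radN (2 ^ j) (x + i * d : ℤ).natAbs)
    (fun i _ => one_le_radN _ _) (Finset.mem_range.2 (show 1 < k by omega))
  have e3 : ((x : ℤ) + (1 : ℕ) * d).natAbs = x + d := by omega
  simp only [e3] at h5
  generalize ∏ i ∈ Finset.range k, radN (2 ^ j) (x + i * d : ℤ).natAbs = M at *
  rw [Int.natAbs_natCast]
  have h6 := Real.log_le_sub_one_of_pos (x := ((max d x : ℕ) : ℝ)) (by positivity)
  have h7 : ((max d x : ℕ) : ℝ) ≤ M := by exact_mod_cast (by omega)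
  have h8 := le_self_pow₀ (a := (M : ℝ)) (by exact_mod_cast (by omega)) (n := κ) (by omega)
  have h9 : (0 : ℝ) ≤ M := by positivity
  nlinarith

/-- a set that is definable from a Diophantine set is Diophantine -/
lemma dioph_subst {m r : ℕ} (S : Finset (Fin m)) (g : MvPolynomial (Option (Fin m)) ℤ)
    (h : MvPolynomial (Option (Fin r)) ℤ) : ∃ (M : ℕ) (g' : MvPolynomial (Option (Fin M)) ℤ),
    ∀ x : ℚ, (∃ y : Fin m → ℚ, (∀ i ∈ S, ∃ z : Fin r → ℚ,
      aeval (fun o : Option (Fin r) => o.elim (y i) z) h = 0) ∧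
      aeval (fun o : Option (Fin m) => o.elim x y) g = 0) ↔
    ∃ y : Fin M → ℚ, aeval (fun o : Option (Fin M) => o.elim x y) g' = 0 := by
  let e := Fintype.equivFin (Fin m ⊕ Fin m × Fin r)
  let u : Option (Fin m) → Option (Fin _) := Option.map fun i => e (.inl i)
  let v : Fin m → Option (Fin r) → Option (Fin _) := fun i o =>
    some (e (o.elim (.inl i) fun l => .inr (i, l)))
  have key : ∀ (x : ℚ) (w : Fin _ → ℚ), aeval (fun o : Option (Fin _) => o.elim x w)
      (rename u g ^ 2 + ∑ i ∈ S, rename (v i) h ^ 2) = 0 ↔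
      (∀ i ∈ S, aeval (fun o : Option (Fin r) => o.elim (w (e (.inl i))) fun l =>
        w (e (.inr (i, l)))) h = 0) ∧
      aeval (fun o : Option (Fin m) => o.elim x fun i => w (e (.inl i))) g = 0 := fun x w => by
    have e1 : (fun o : Option (Fin _) => o.elim x w) ∘ u =
        fun o : Option (Fin m) => o.elim x fun i => w (e (.inl i)) := by
      funext o; cases o <;> rfl
    have e2 : ∀ i, (fun o : Option (Fin _) => o.elim x w) ∘ v i = fun o : Option (Fin r) =>
        o.elim (w (e (.inl i))) fun l => w (e (.inr (i, l))) := fun i => by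
      funext o; cases o <;> rfl
    simp only [map_add, map_pow, map_sum, aeval_rename, e1, e2]
    rw [add_eq_zero_iff_of_nonneg (sq_nonneg _) (Finset.sum_nonneg fun _ _ => sq_nonneg _),
      Finset.sum_eq_zero_iff_of_nonneg fun _ _ => sq_nonneg _, and_comm]
    simp only [pow_eq_zero_iff two_ne_zero]
  refine ⟨_, _, fun x => ⟨fun ⟨y, h1, h2⟩ => ?_,
    fun ⟨w, hw⟩ => ⟨_, fun i hi => ⟨_, ((key x w).1 hw).1 i hi⟩, ((key x w).1 hw).2⟩⟩⟩
  choose! z hz using h1
  refine ⟨fun a => Sum.elim y (fun p => z p.1 p.2) (e.symm a), (key x _).2 ?_⟩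
  simp only [Equiv.symm_apply_apply, Sum.elim_inl, Sum.elim_inr]
  exact ⟨hz, h2⟩

end Vale.Agent.P027G
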