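import Vale.Agent.P027G.Iface

/-! Long progressions of primes from the relative theorem and the majorant. -/

set_option linter.all false

namespace Vale.Agent.P027G

open Finset
open scoped BigOperators

lemma ap_of_step {k : ℕ} {u : ℕ → ℤ} (h : ∀ i, i + 2 < k → u i + u (i + 2) = 2 * u (i + 1))
    (i : ℕ) : i < k → u i = u 0 + i * (u 1 - u 0) := by
  induction i using Nat.twoStepInduction with
  | zero => simp
  | one => simp
  | more i a b =>
    intro c
    have := h i c
    rw [a (by omega), b (by omega)] at this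
    push_cast at this ⊢
    linarith

theorem gt (rel : Rel) (maj : Maj) : GT := by
  intro k₀ X
  obtain ⟨k, hk, hk'⟩ : ∃ k, 3 ≤ k ∧ k₀ ≤ k := ⟨_, le_max_left _ _, le_max_right _ _⟩
  have ne : ∀ i j : Fin k, i ≠ j → ((j : ℕ) : ℤ) - (i : ℕ) ≠ 0 := fun i j h e =>
    h (Fin.ext (by omega))
  obtain ⟨δ, hδ, hm⟩ := maj _ _ (apForm k) (fun e h => by
    obtain ⟨i, hi⟩ : ∃ i : Fin k, i ≠ e.1.1 := by
      haveI : Nontrivial (Fin k) := Fin.nontrivial_iff_two_le.2 (by omega)
      exact exists_ne _
    have := congrFun h (i, e.1.2 i)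
    simp only [apForm, if_true, Pi.zero_apply] at this
    exact ne _ _ hi this) (by
    rintro ⟨⟨j, ω⟩, h⟩ ⟨⟨j', ω'⟩, h'⟩ hn
    by_cases c : j = j'
    · subst c
      obtain ⟨i, hi⟩ : ∃ i, ω i ≠ ω' i := by
        by_contra hc
        push Not at hc
        exact hn (by simp [funext hc])
      have : i ≠ j := by
        rintro rfl
        exact hi (h.trans h'.symm)
      refine ⟨(i, ω i), (i, ω' i), ?_⟩
      simp only [apForm, if_true, if_neg hi, zero_mul]
      exact mul_ne_zero (ne _ _ this) (ne _ _ this)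
    · refine ⟨(j', ω j'), (j, ω' j), ?_⟩
      simp only [apForm, if_true, sub_self, ite_self, mul_zero]
      exact mul_ne_zero (ne _ _ (Ne.symm c)) (ne _ _ c))
  obtain ⟨c, hc, ε, hε, N₀, hr⟩ := rel k δ hk hδ
  obtain ⟨N, inst, W, b, ν, f, a1, a2, a3, a4, a5, a6, a7⟩ :=
    hm (min ε (c / 2)) (by positivity) k (max X N₀)
  have h1 := hr N (le_of_max_le_right a1) ν f a3 a4 fun T => (a6 T).trans (min_le_left _ _)
  obtain ⟨x, d, hd, hx⟩ : ∃ x d : ZMod N, d ≠ 0 ∧ ∀ i < k, f (x + i * d) ≠ 0 := by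
    by_contra hn
    push Not at hn
    have : 𝔼 x, 𝔼 d, ∏ i ∈ range k, f (x + i * d) ≤ c / 2 := expect_le univ_nonempty fun x _ => by
      rw [Fintype.expect_eq_sum_div_card, sum_eq_single 0 (fun d _ hd => by
        obtain ⟨i, hi, e⟩ := hn x d hd
        exact prod_eq_zero (mem_range.2 hi) e) (by simp), ZMod.card,
        div_le_iff₀ (by exact_mod_cast inst.1.pos)]
      simp only [mul_zero, add_zero, prod_const, card_range]
      exact (a5 x).trans (mul_le_mul_of_nonneg_right (min_le_right _ _) (by positivity))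
    linarith
  let u : ℕ → ℤ := fun i => ((x + i * d).val : ℕ)
  have hu := ap_of_step (k := k) (u := u) fun i hi => by
    have b0 := (a7 _ (hx i (by omega))).1
    have b1 := (a7 _ (hx (i + 1) (by omega))).1
    have b2 := (a7 _ (hx (i + 2) hi)).1
    have e : (((x + i * d).val + (x + (i + 2 : ℕ) * d).val : ℕ) : ZMod N) =
        (2 * (x + (i + 1 : ℕ) * d).val : ℕ) := by
      push_cast
      simp only [ZMod.natCast_val, ZMod.cast_id', id]
      ring
    rw [ZMod.natCast_eq_natCast_iff', Nat.mod_eq_of_lt (by omega), Nat.mod_eq_of_lt b1] at e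
    simp only [u]
    exact_mod_cast e
  have pr := fun i (hi : i < k) => (a7 _ (hx i hi)).2
  have hD : u 1 - u 0 ≠ 0 := fun e => hd (by
    have : (x + (1 : ℕ) * d).val = (x + (0 : ℕ) * d).val := by
      simp only [u] at e; omega
    simpa using ZMod.val_injective N this)
  have fin : ∀ (x' d' : ℕ) (s : ℕ → ℕ), 0 < d' → (∀ i < k, s i < k ∧ u (s i) = x' + i * d') →
      ∃ x d : ℕ, 0 < d ∧
        ∀ i < k₀, (x + i * d).Prime ∧ (x + i * d) % 24 = 17 ∧ X < x + i * d := by
    intro x' d' s h0 hs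
    refine ⟨W * x' + b, W * d', by positivity, fun i hi => ?_⟩
    obtain ⟨e1, e2⟩ := hs i (by omega)
    have e3 : (x + s i * d).val = x' + i * d' := by simp only [u] at e2; exact_mod_cast e2
    have := pr _ e1
    rw [e3, show W * (x' + i * d') + b = W * x' + b + i * (W * d') by ring] at this
    exact ⟨this.1, this.2.1, (le_max_left _ _).trans_lt this.2.2⟩
  rcases lt_or_gt_of_ne hD with h | h
  · refine fin (u (k - 1)).toNat (u 0 - u 1).toNat (fun i => k - 1 - i) (by omega) fun i hi =>
      ⟨by omega, ?_⟩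
    rw [Int.toNat_of_nonneg (by positivity), Int.toNat_of_nonneg (by omega), hu _ (by omega),
      hu (k - 1) (by omega), Nat.cast_sub (by omega)]
    ring
  · refine fin (u 0).toNat (u 1 - u 0).toNat id (by omega) fun i hi => ⟨hi, ?_⟩
    rw [Int.toNat_of_nonneg (by positivity), Int.toNat_of_nonneg h.le]
    exact hu i hi

end Vale.Agent.P027G
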