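import Vale.Agent.P027G.MajD
import Vale.Agent.PNT.Main

/-! The majorant of the primes: the square of the sieve of Selberg. -/

namespace Vale.Agent.P027G

open Finset Filter
open scoped BigOperators

namespace Mj

variable {σ τ : Type} [Fintype σ] [Fintype τ] [DecidableEq τ]

theorem lf_le {a : σ → τ → ℤ} (h1 : ∀ j, a j ≠ 0)
    (h2 : ∀ j j', j ≠ j' → ∃ i i', a j i * a j' i' ≠ a j i' * a j' i) {A w R : ℕ}
    (hA : ∀ j, ∑ i, |a j i| ≤ A) (hw : 2 * A * A + A ≤ w) (hR : 1 ≤ R) (N : ℕ) [Fact N.Prime]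
    (hN : A < N) (b : ℕ) :
    LF a (fun x : ZMod N => sv (PP w R) (CC w R) (w.factorial * x.val + b : ℕ) ^ 2 / GG w R)
      (Real.exp (4 ^ Fintype.card σ * 4 ^ Fintype.card σ * (2 / (w + 1))) - 1 +
        (R * R) ^ Fintype.card σ * (4 * Fintype.card σ * A * (R * R) ^ Fintype.card σ / N)) := by
  intro T
  have k0 : ∀ j i, |a j i| ≤ A := fun j i =>
    (single_le_sum (f := fun i => |a j i|) (fun _ _ => abs_nonneg _) (mem_univ i)).trans (hA j)
  have k1 : ∀ n : ℕ, A < n → ∀ j, ∃ i, ¬ (n : ℤ) ∣ a j i := fun n hn j =>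
    (Function.ne_iff.1 (h1 j)).imp fun i hi h =>
      hi (Int.eq_zero_of_abs_lt_dvd h ((k0 j i).trans_lt (Nat.cast_lt.2 hn)))
  have k2 : ∀ p ∈ PP w R, ∀ n : ℤ, (p : ℤ) ∣ w.factorial * n → (p : ℤ) ∣ n := fun p hp n h =>
    ((Nat.prime_iff_prime_int.1 (mem_PP.1 hp).2).dvd_or_dvd h).resolve_left fun h =>
      (mem_PP.1 hp).1.1.not_ge ((mem_PP.1 hp).2.dvd_factorial.1 (Int.natCast_dvd_natCast.1 h))
  have k3 := core N (a := fun j : T => a j) (fun j => k1 N hN j) (fun j => hA j) w.factorial b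
    (fun p hp => (mem_PP.1 hp).2) (fun p hp j => (k1 p (by
      have := (mem_PP.1 hp).1.1
      omega) j).imp fun i hi h => hi (k2 p hp _ h))
    (fun p hp j j' h => (h2 j j' (Subtype.coe_ne_coe.2 h)).imp fun i => Exists.imp fun i' hi h => by
      rw [show ∀ W x y z t : ℤ, W * x * (W * y) - W * z * (W * t) = W * (W * (x * y - z * t)) by
        intros; ring] at h
      refine hi (sub_eq_zero.1 (Int.eq_zero_of_abs_lt_dvd (k2 p hp _ (k2 p hp _ h))
        ((abs_sub _ _).trans_lt ?_)))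
      have k4 : ((2 * A * A + A : ℕ) : ℤ) < p := Nat.cast_lt.2 (hw.trans_lt (mem_PP.1 hp).1.1)
      have k5 : ∀ j i j' i', |a j i * a j' i'| ≤ A * A := fun j i j' i' => by
        rw [abs_mul]
        exact mul_le_mul (k0 _ _) (k0 _ _) (abs_nonneg _) (Nat.cast_nonneg _)
      push_cast at k4
      linarith [k5 j i j' i', k5 j i' j' i, Nat.cast_nonneg (α := ℤ) A])
    (fun r hr => (mem_CC.1 hr).1) cc_down fun r hr => (mem_CC.1 hr).2
  rw [← GG] at k3
  have k4 : 1 ≤ GG w R ^ Fintype.card T := one_le_pow₀ (one_le_GG hR)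
  have k5 : Fintype.card T ≤ Fintype.card σ := Fintype.card_subtype_le _
  have k6 : (1 : ℝ) ≤ R * R := one_le_mul_of_one_le_of_one_le (Nat.one_le_cast.2 hR)
    (Nat.one_le_cast.2 hR)
  simp only [← prod_coe_sort T, prod_div_distrib, prod_const, card_univ, ← expect_div]
  push_cast
  rw [div_sub_one (by positivity), abs_div, abs_of_nonneg (zero_le_one.trans k4),
    div_le_iff₀' (by positivity), mul_add]
  refine k3.trans (add_le_add ?_ (le_trans ?_ (le_mul_of_one_le_left (by positivity) k4)))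
  · refine mul_le_mul_of_nonneg_left (sub_le_sub_right ?_ 1) (by positivity)
    simp only [← mul_div_assoc (4 ^ Fintype.card T : ℝ)]
    refine (euler_le (by positivity)).trans ?_
    gcongr <;> norm_num
  · have k7 : ((CC w R).card : ℝ) ≤ R := Nat.cast_le.2 card_cc
    refine mul_le_mul ((pow_le_pow_left₀ (by positivity) (by gcongr) _).trans
      (pow_le_pow_right₀ k6 k5)) ?_ (by positivity) (by positivity)
    gcongr

theorem dens {N W b R M : ℕ} [NeZero N] (hW : 0 < W) (hb : b ≤ R) (hM : 2 * M < N) :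
    PNT.piAP (b : ZMod W) (W * M : ℕ) ≤ (univ.filter fun y : ZMod N => 2 * y.val < N ∧
      (W * y.val + b).Prime ∧ R < W * y.val + b).card + R := by
  rw [PNT.piAP, Nat.floor_natCast]
  refine (card_le_card (t := (univ.filter fun y : ZMod N => 2 * y.val < N ∧
    (W * y.val + b).Prime ∧ R < W * y.val + b).image (fun y => W * y.val + b) ∪ Ioc 0 R)
    fun p hp => ?_).trans ((card_union_le _ _).trans (add_le_add card_image_le (by simp)))
  obtain ⟨h1, h2, h3⟩ := mem_filter.1 hp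
  refine mem_union.2 ((lt_or_ge R p).imp (fun h => ?_) fun h => mem_Ioc.2 ⟨h2.pos, h⟩)
  obtain ⟨t, ht⟩ := (Nat.modEq_iff_dvd' (hb.trans h.le)).1
    ((ZMod.natCast_eq_natCast_iff _ _ _).1 h3).symm
  have h4 : W * t + b = p := by omega
  have h5 : t ≤ M := Nat.le_of_mul_le_mul_left (by have := (mem_Icc.1 h1).2; omega) hW
  have h6 : (t : ZMod N).val = t := ZMod.val_cast_of_lt (by omega)
  exact mem_image.2 ⟨t, mem_filter.2 ⟨mem_univ _, by rw [h6, h4]; exact ⟨by omega, h2, h⟩⟩,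
    by rw [h6, h4]⟩

theorem dens_real {K φ W L L' M π Y R N : ℝ} (hK : 0 < K) (hφ : 0 < φ) (hW : φ ≤ W) (hL : 0 ≤ L)
    (hπ : 0 ≤ π) (hR : 0 ≤ R) (h1 : φ⁻¹ / 2 * (W * M) ≤ π * L') (h2 : L' ≤ K * L) (h3 : π ≤ Y + R)
    (h4 : N ≤ 4 * M) (h5 : R * R ≤ M) (h6 : L ≤ 1 / (16 * K) * R) :
    1 / (16 * K) * N ≤ Y * (φ / W * L) := by
  have h0 : 0 < W := hφ.trans_le hW
  have k1 : 8 * (1 / (16 * K) * M) ≤ π * (φ / W * L) := by
    have k2 := mul_le_mul_of_nonneg_left (h1.trans (mul_le_mul_of_nonneg_left h2 hπ))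
      (by positivity : 0 ≤ φ / W / K)
    refine (le_of_eq ?_).trans (k2.trans_eq ?_) <;> field_simp
    ring
  have k2 : R * (φ / W * L) ≤ 1 / (16 * K) * M :=
    (mul_le_mul_of_nonneg_left ((mul_le_of_le_one_left hL (div_le_one_of_le₀ hW h0.le)).trans h6)
      hR).trans ((mul_left_comm _ _ _).trans_le (mul_le_mul_of_nonneg_left h5 (by positivity)))
  have k3 := mul_le_mul_of_nonneg_right h3 (by positivity : 0 ≤ φ / W * L)
  have k4 := mul_le_mul_of_nonneg_left h4 (by positivity : 0 ≤ 1 / (16 * K))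
  have k5 : 0 ≤ R * (φ / W * L) := by positivity
  linarith

theorem dens_ge {N W b R m : ℕ} [NeZero N] (hW : 0 < W) (hb : W + b + 2 ≤ R)
    (n1 : 2 * R ^ (4 * m + 2) < N) (n2 : N ≤ 2 * (2 * R ^ (4 * m + 2)))
    (r1 : (W.totient : ℝ)⁻¹ / 2 ≤ PNT.piAP (b : ZMod W) (W * R ^ (4 * m + 2) : ℕ) *
      Real.log (W * R ^ (4 * m + 2) : ℕ) / (W * R ^ (4 * m + 2) : ℕ))
    (r3 : Real.log R ≤ 1 / (16 * (4 * m + 3)) * R) :
    1 / (16 * (4 * m + 3)) ≤ 𝔼 y : ZMod N, (if 2 * y.val < N ∧ (W * y.val + b).Prime ∧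
      R < W * y.val + b then W.totient / W * Real.log R else 0 : ℝ) := by
  have hR : (1 : ℝ) ≤ R := Nat.one_le_cast.2 (by omega)
  have h0 : (0 : ℝ) < (W * R ^ (4 * m + 2) : ℕ) := Nat.cast_pos.2 (Nat.mul_pos hW
    (Nat.pow_pos (by omega)))
  rw [Fintype.expect_eq_sum_div_card, ← sum_filter, sum_const, nsmul_eq_mul, ZMod.card,
    le_div_iff₀ (Nat.cast_pos.2 (NeZero.pos N))]
  rw [le_div_iff₀ h0, Nat.cast_mul W (R ^ _)] at r1
  refine dens_real (by positivity) (Nat.cast_pos.2 (Nat.totient_pos.2 hW))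
    (Nat.cast_le.2 (Nat.totient_le _)) (Real.log_nonneg hR) (Nat.cast_nonneg _) (Nat.cast_nonneg _)
    r1 ?_ ?_ ?_ ?_ r3
  · rw [show (4 * m + 3 : ℝ) = (4 * m + 2 + 1 : ℕ) by push_cast; ring, ← Real.log_pow,
      ← Nat.cast_mul]
    refine Real.log_le_log h0 ?_
    exact_mod_cast (Nat.mul_le_mul_right _ (by omega)).trans_eq (pow_succ' R _).symm
  · rw [← Nat.cast_mul]
    exact_mod_cast dens hW (by omega) n1
  · exact_mod_cast (by omega : N ≤ 4 * R ^ (4 * m + 2))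
  · rw [← sq, Nat.cast_pow]
    exact pow_le_pow_right₀ hR (by omega)

theorem err_le {R N A ε : ℝ} {m : ℕ} (hε : 0 < ε) (hR : 1 ≤ R)
    (h1 : R ^ (4 * m + 2) ≤ N) (h2 : 8 * m * A / ε ≤ R) :
    (R * R) ^ m * (4 * m * A * (R * R) ^ m / N) ≤ ε / 2 := by
  have h0 : 0 < R := zero_lt_one.trans_le hR
  rw [div_le_iff₀ hε] at h2
  rw [← mul_div_assoc, div_le_iff₀ ((pow_pos h0 _).trans_le h1)]
  calc _ = 8 * m * A * (R ^ (4 * m) / 2) := by ring
    _ ≤ R * ε * (R ^ (4 * m) / 2) := by gcongr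
    _ = ε / 2 * R ^ (4 * m + 1) := by ring
    _ ≤ _ := mul_le_mul_of_nonneg_left ((pow_le_pow_right₀ hR (by omega)).trans h1) (by positivity)

theorem exists_w (K : ℝ) {ε : ℝ} (hε : 0 < ε) (n : ℕ) :
    ∃ w : ℕ, Real.exp (K * (2 / (w + 1))) ≤ 1 + ε / 2 ∧ n ≤ w := by
  have h := (Real.continuous_exp.tendsto _).comp
    ((tendsto_one_div_add_atTop_nhds_zero_nat.const_mul 2).const_mul K)
  simp only [mul_zero, Real.exp_zero, mul_one_div] at h
  exact ((h.eventually_le_const (by linarith : (1 : ℝ) < 1 + ε / 2)).and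
    (eventually_ge_atTop n)).exists

theorem exists_R {W b : ℕ} (hW : 0 < W) (hb : b.Coprime W) (m k n : ℕ) {ε δ : ℝ} (hε : 0 < ε)
    (hδ : 0 < δ) (t : ℝ) : ∃ R : ℕ, (W.totient : ℝ)⁻¹ / 2 ≤
      PNT.piAP (b : ZMod W) (W * R ^ (4 * m + 2) : ℕ) * Real.log (W * R ^ (4 * m + 2) : ℕ) /
        (W * R ^ (4 * m + 2) : ℕ) ∧ Real.log R ^ k ≤ ε * R ∧ Real.log R ≤ δ * R ∧ t ≤ R ∧ n ≤ R := by
  have : NeZero W := ⟨hW.ne'⟩
  have e2 := ((PNT.piAP_mul_log_div_tendsto ((ZMod.isUnit_iff_coprime b W).2 hb)).comp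
    (tendsto_natCast_atTop_atTop.comp ((tendsto_pow_atTop (n := 4 * m + 2)
      (by omega)).const_mul_atTop' hW))).eventually_const_le
    (half_lt_self (inv_pos.2 (Nat.cast_pos.2 (Nat.totient_pos.2 hW))))
  have e3 : ∀ n : ℕ, ∀ t : ℝ, 0 < t → ∀ᶠ R : ℕ in atTop, Real.log R ^ n ≤ t * R := fun n t ht => by
    filter_upwards [((Real.tendsto_pow_log_div_mul_add_atTop 1 0 n one_ne_zero).comp
      tendsto_natCast_atTop_atTop).eventually_le_const ht, eventually_gt_atTop 0] with R h1 h2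
    rwa [Function.comp_apply, one_mul, add_zero, div_le_iff₀ (Nat.cast_pos.2 h2)] at h1
  obtain ⟨R, r1, r2, r3, r4⟩ := (e2.and ((e3 k ε hε).and ((e3 1 δ hδ).and
    ((tendsto_natCast_atTop_atTop.eventually_ge_atTop t).and (eventually_ge_atTop n))))).exists
  exact ⟨R, r1, r2, pow_one (Real.log R) ▸ r3, r4⟩

end Mj

open Mj

theorem maj : Maj := by
  intro σ τ _ _ _ a h1 h2
  obtain ⟨A, hA⟩ : ∃ A : ℕ, ∀ j, ∑ i, |a j i| ≤ A := ⟨∑ j, ∑ i, (a j i).natAbs, fun j => by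
    push_cast
    exact single_le_sum (f := fun j => ∑ i, |a j i|)
      (fun _ _ => sum_nonneg fun _ _ => abs_nonneg _) (mem_univ j)⟩
  refine ⟨1 / (16 * (4 * Fintype.card σ + 3)), by positivity, fun ε hε k X => ?_⟩
  obtain ⟨w, w1, w2⟩ := exists_w (4 ^ Fintype.card σ * 4 ^ Fintype.card σ) hε (2 * A * A + A + 4)
  obtain ⟨b, b1, b2, b3⟩ := Nat.forall_exists_prime_gt_and_modEq w (q := 24) (a := 17)
    (by norm_num) (by norm_num)
  obtain ⟨R, r1, r2, r3, r4, r5⟩ := exists_R w.factorial_pos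
    (b2.coprime_iff_not_dvd.2 fun h => b1.not_ge (b2.dvd_factorial.1 h)) (Fintype.card σ) k
    (w.factorial + X + b + A + 2) hε (δ := 1 / (16 * (4 * Fintype.card σ + 3))) (by positivity)
    (8 * Fintype.card σ * A / ε)
  obtain ⟨N, hN, n1, n2⟩ := Nat.exists_prime_lt_and_le_two_mul (2 * R ^ (4 * Fintype.card σ + 2))
    (mul_ne_zero two_ne_zero (pow_ne_zero _ (by omega)))
  have : Fact N.Prime := ⟨hN⟩
  have hR : (1 : ℝ) ≤ R := Nat.one_le_cast.2 (by omega)
  have hL := Real.log_nonneg hR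
  have n3 : R ≤ R ^ (4 * Fintype.card σ + 2) := Nat.le_self_pow (by omega) _
  have hG := one_le_GG (w := w) (R := R) (by omega)
  refine ⟨N, this, w.factorial, b,
    fun x => sv (PP w R) (CC w R) (w.factorial * x.val + b : ℕ) ^ 2 / GG w R,
    fun y => if 2 * y.val < N ∧ (w.factorial * y.val + b).Prime ∧ R < w.factorial * y.val + b
      then w.factorial.totient / w.factorial * Real.log R else 0,
    by omega, w.factorial_pos, fun y => ?_, dens_ge w.factorial_pos (by omega) n1 n2 r1 r3,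
    fun y => ?_, fun T => (lf_le h1 h2 hA (w := w) (R := R) (by omega) (by omega) N (by omega) b
      T).trans ?_, fun y hy => ?_⟩
  · beta_reduce
    split_ifs with h
    · rw [sv_prime h.2.1 h.2.2, sq, mul_div_cancel_right₀ _ (by positivity)]
      exact ⟨by positivity, le_GG (by omega)⟩
    · exact ⟨le_rfl, by positivity⟩
  · refine le_trans ?_ (r2.trans (mul_le_mul_of_nonneg_left (Nat.cast_le.2 (by omega)) hε.le))
    beta_reduce
    split_ifs
    · exact pow_le_pow_left₀ (by positivity) (mul_le_of_le_one_left hL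
        (div_le_one_of_le₀ (Nat.cast_le.2 (Nat.totient_le _)) (Nat.cast_nonneg _))) _
    · exact pow_le_pow_left₀ le_rfl hL _
  · have h := err_le (N := N) hε hR
      (by exact_mod_cast (by omega : R ^ (4 * Fintype.card σ + 2) ≤ N)) r4
    linarith
  · have h := Classical.not_not.1 fun h => hy (if_neg h)
    obtain ⟨t, ht⟩ := Nat.factorial_dvd_factorial (by omega : 4 ≤ w)
    refine ⟨h.1, h.2.1, ?_, by omega⟩
    rw [ht, mul_assoc]
    exact (Nat.mul_add_mod _ _ _).trans b3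

end Vale.Agent.P027G
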