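import Vale.Agent.P027G.Iface

/-! The majorant: means over boxes, the Chinese remainder theorem, the local estimate. -/

namespace Vale.Agent.P027G.Mj

open Finset
open scoped BigOperators

variable {σ τ : Type} [Fintype σ] [Fintype τ] [DecidableEq τ]

theorem expect_hom {G H : Type} [AddCommGroup G] [Fintype G] [AddCommGroup H] [Fintype H]
    (φ : G →+ H) (hφ : Function.Surjective φ) (f : H → ℝ) : 𝔼 x, f (φ x) = 𝔼 y, f y := by
  have h1 : ∀ y, 𝔼 x, f (φ x) = 𝔼 x, f (φ x + y) := fun y => by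
    obtain ⟨s, rfl⟩ := hφ y
    exact (Fintype.expect_equiv (Equiv.addRight s) _ _ fun x => by simp).symm
  rw [← Fintype.expect_const (ι := H) (𝔼 x, f (φ x)), expect_congr rfl fun y _ => h1 y,
    expect_comm, ← Fintype.expect_const (ι := G) (𝔼 y, f y)]
  exact expect_congr rfl fun x _ => Fintype.expect_equiv (Equiv.addLeft (φ x)) _ _ fun _ => rfl

/-- the mean over a box -/
noncomputable def lm (D : ℕ) (F : (τ → ℤ) → ℝ) : ℝ := 𝔼 h : τ → Fin D, F fun i => ((h i : ℕ) : ℤ)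

theorem lm_eq (D : ℕ) [NeZero D] (F : (τ → ℤ) → ℝ) :
    lm D F = 𝔼 u : τ → ZMod D, F fun i => ((u i).val : ℤ) := by
  obtain ⟨d, rfl⟩ := Nat.exists_eq_succ_of_ne_zero (NeZero.ne D)
  exact Fintype.expect_equiv (Equiv.refl _) _ _ fun _ => rfl

theorem lm_const {D : ℕ} (hD : D ≠ 0) (c : ℝ) : lm D (fun _ : τ → ℤ => c) = c := by
  have : NeZero D := ⟨hD⟩
  exact Fintype.expect_const c

theorem abs_lm_le {D : ℕ} (hD : D ≠ 0) {F : (τ → ℤ) → ℝ} (h : ∀ x, |F x| ≤ 1) : |lm D F| ≤ 1 := by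
  have : NeZero D := ⟨hD⟩
  exact (abs_expect_le _ _).trans (expect_le univ_nonempty fun _ _ => h _)

/-- periodic functions -/
def Per (D : ℕ) (F : (τ → ℤ) → ℝ) : Prop := ∀ x y, (∀ i, (D : ℤ) ∣ x i - y i) → F x = F y

theorem lm_mul {m n : ℕ} (hm : m ≠ 0) (hn : n ≠ 0) (h : m.Coprime n) {F G : (τ → ℤ) → ℝ}
    (hF : Per m F) (hG : Per n G) : lm (m * n) (fun x => F x * G x) = lm m F * lm n G := by
  have : NeZero m := ⟨hm⟩
  have : NeZero n := ⟨hn⟩
  rw [lm_eq, lm_eq, lm_eq, Fintype.expect_mul_expect, ← expect_product', univ_product_univ]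
  refine Fintype.expect_equiv ((Equiv.piCongrRight fun _ => (ZMod.chineseRemainder h).toEquiv).trans
    (Equiv.arrowProdEquivProdArrow _ _ _)) _ _ fun u => congrArg₂ _ (hF _ _ fun i => ?_)
      (hG _ _ fun i => ?_)
  · rw [← ZMod.intCast_eq_intCast_iff_dvd_sub, Int.cast_natCast, Int.cast_natCast,
      ZMod.natCast_zmod_val, ZMod.natCast_val]
    exact Prod.fst_zmod_cast (u i)
  · rw [← ZMod.intCast_eq_intCast_iff_dvd_sub, Int.cast_natCast, Int.cast_natCast,
      ZMod.natCast_zmod_val, ZMod.natCast_val]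
    exact Prod.snd_zmod_cast (u i)

theorem lm_prod (S : Finset ℕ) (hS : ∀ p ∈ S, p.Prime) (F : ℕ → (τ → ℤ) → ℝ)
    (hF : ∀ p ∈ S, Per p (F p)) :
    lm (∏ p ∈ S, p) (fun x => ∏ p ∈ S, F p x) = ∏ p ∈ S, lm p (F p) := by
  induction S using Finset.induction_on with
  | empty => exact lm_const one_ne_zero 1
  | insert q S hq ih =>
    have h1 : ∀ p ∈ S, p.Prime := fun p hp => hS p (mem_insert_of_mem hp)
    have h2 := hS q (mem_insert_self _ _)
    simp only [prod_insert hq]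
    rw [lm_mul h2.ne_zero (prod_ne_zero_iff.2 fun p hp => (h1 p hp).ne_zero)
      (Nat.Coprime.prod_right fun p hp => (Nat.coprime_primes h2 (h1 p hp)).2 fun h => hq (h ▸ hp))
      (hF q (mem_insert_self _ _)) fun x y h => prod_congr rfl fun p hp =>
        hF p (mem_insert_of_mem hp) x y fun i =>
          (Int.natCast_dvd_natCast.2 (dvd_prod_of_mem _ hp)).trans (h i),
      ih h1 fun p hp => hF p (mem_insert_of_mem hp)]

/-- a linear form -/
def lf {K : Type} [CommRing K] (a : τ → K) : (τ → K) →+ K where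
  toFun u := ∑ i, a i * u i
  map_zero' := by simp
  map_add' u v := by simp only [Pi.add_apply, mul_add, sum_add_distrib]

theorem lf_single {K : Type} [CommRing K] (a : τ → K) (i : τ) (s : K) :
    lf a (Pi.single i s) = a i * s := by
  change ∑ j, a j * (Pi.single i s : τ → K) j = _
  rw [Fintype.sum_eq_single i fun j hj => by rw [Pi.single_eq_of_ne hj, mul_zero],
    Pi.single_eq_same]

theorem lf_surj {K : Type} [Field K] {a : τ → K} {i : τ} (h : a i ≠ 0) :
    Function.Surjective (lf a) := fun y =>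
  ⟨Pi.single i (y / a i), by rw [lf_single, mul_div_cancel₀ _ h]⟩

theorem lf_surj₂ {K : Type} [Field K] {a b : τ → K} {i j : τ} (h : a i * b j - a j * b i ≠ 0) :
    Function.Surjective ((lf a).prod (lf b)) := fun y =>
  ⟨Pi.single i ((y.1 * b j - y.2 * a j) / (a i * b j - a j * b i)) +
    Pi.single j ((y.2 * a i - y.1 * b i) / (a i * b j - a j * b i)), by
    rw [map_add]
    ext <;> simp only [AddMonoidHom.prod_apply, lf_single, Prod.fst_add, Prod.snd_add,
      ← mul_div_assoc, ← add_div, div_eq_iff h] <;> ring⟩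

section loc

variable {p : ℕ} [Fact p.Prime]

theorem ind_one (c : ZMod p) : 𝔼 y : ZMod p, (if c + y = 0 then 1 else 0 : ℝ) = 1 / p := by
  simp only [add_eq_zero_iff_neg_eq, Fintype.expect_eq_sum_div_card, sum_ite_eq, mem_univ, if_true,
    ZMod.card]

omit [Fintype σ] in
theorem ind_le {a : σ → τ → ZMod p} (h1 : ∀ j, ∃ i, a j i ≠ 0)
    (h2 : ∀ j j', j ≠ j' → ∃ i i', a j i * a j' i' - a j i' * a j' i ≠ 0) (c : σ → ZMod p)
    (A : Finset σ) : |𝔼 u, ∏ j ∈ A, (if c j + lf (a j) u = 0 then 1 else 0 : ℝ) -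
      ∏ _j ∈ A, (1 / p : ℝ)| ≤ 1 / (p : ℝ) ^ 2 := by
  classical
  have hp : (1 : ℝ) ≤ p := Nat.one_le_cast.2 (Fact.out : p.Prime).pos
  rcases le_or_gt A.card 1 with h | h
  · rcases A.eq_empty_or_nonempty with rfl | ⟨j, hj⟩
    · simp
    · obtain ⟨i, hi⟩ := h1 j
      rw [eq_singleton_iff_unique_mem.2 ⟨hj, fun k hk => card_le_one.1 h k hk j hj⟩]
      simp only [prod_singleton]
      rw [expect_hom (lf (a j)) (lf_surj hi) fun y => if c j + y = 0 then 1 else 0, ind_one,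
        sub_self, abs_zero]
      positivity
  · obtain ⟨j, hj, j', hj', h3⟩ := one_lt_card.1 h
    obtain ⟨i, i', h4⟩ := h2 j j' h3
    have h5 := expect_hom _ (lf_surj₂ h4) fun y =>
      (if c j + y.1 = 0 then 1 else 0 : ℝ) * if c j' + y.2 = 0 then 1 else 0
    rw [← univ_product_univ, expect_product, ← Fintype.expect_mul_expect
      (fun y => (if c j + y = 0 then 1 else 0 : ℝ)) fun y => if c j' + y = 0 then 1 else 0,
      ind_one, ind_one] at h5
    have h6 : 𝔼 u, ∏ j ∈ A, (if c j + lf (a j) u = 0 then 1 else 0 : ℝ) ≤ 1 / p * (1 / p) := by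
      rw [← h5]
      refine expect_le_expect fun u _ => ?_
      refine le_of_le_of_eq ?_ (prod_pair (f := fun j =>
        (if c j + lf (a j) u = 0 then 1 else 0 : ℝ)) h3)
      exact prod_le_prod_of_subset_of_le_one (insert_subset hj (singleton_subset_iff.2 hj'))
        (fun _ _ => by positivity) fun _ _ _ => by split_ifs <;> norm_num
    have h7 : 0 ≤ 𝔼 u, ∏ j ∈ A, (if c j + lf (a j) u = 0 then 1 else 0 : ℝ) :=
      expect_nonneg fun _ _ => prod_nonneg fun _ _ => by positivity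
    have h8 : (1 / p : ℝ) ^ A.card ≤ (1 / p) ^ 2 :=
      pow_le_pow_of_le_one (by positivity) (div_le_one_of_le₀ hp (by positivity)) h
    have h9 : 0 ≤ (1 / p : ℝ) ^ A.card := by positivity
    rw [prod_const, abs_le, ← one_div_pow, sq]
    rw [sq] at h8
    constructor <;> linarith

theorem loc_zmod {a : σ → τ → ZMod p} (h1 : ∀ j, ∃ i, a j i ≠ 0)
    (h2 : ∀ j j', j ≠ j' → ∃ i i', a j i * a j' i' - a j i' * a j' i ≠ 0) (c : σ → ZMod p)
    {A B : σ → ℝ} (hA : ∀ j, |A j| ≤ 1) (hB : ∀ j, |B j| ≤ 1) :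
    |𝔼 u, ∏ j, (if c j + lf (a j) u = 0 then B j else A j) - ∏ j, ((B j - A j) / p + A j)| ≤
      4 ^ Fintype.card σ / (p : ℝ) ^ 2 := by
  classical
  have h3 : ∀ u j, (if c j + lf (a j) u = 0 then B j else A j) =
      (B j - A j) * (if c j + lf (a j) u = 0 then 1 else 0) + A j := fun u j => by
    split_ifs <;> ring
  simp only [h3, div_eq_mul_one_div (B _ - A _), Fintype.prod_add, expect_sum_comm, prod_mul_distrib,
    ← sum_sub_distrib, ← expect_mul, ← mul_expect, ← sub_mul, ← mul_sub]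
  refine (abs_sum_le_sum_abs _ _).trans ((sum_le_card_nsmul _ _
    (2 ^ Fintype.card σ * (1 / (p : ℝ) ^ 2) * 1) fun T _ => ?_).trans (le_of_eq ?_))
  · rw [abs_mul, abs_mul, abs_prod, abs_prod]
    gcongr
    · refine (prod_le_prod (g := fun _ => 2) (fun _ _ => abs_nonneg _) fun j _ => ?_).trans
        ((prod_const _).trans_le (pow_le_pow_right₀ one_le_two (card_le_univ _)))
      linarith [abs_sub (B j) (A j), hA j, hB j]
    · exact ind_le h1 h2 c T
    · exact prod_le_one (fun _ _ => abs_nonneg _) fun j _ => hA j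
  · rw [card_univ, Fintype.card_finset, nsmul_eq_mul, show (4 : ℝ) = 2 * 2 by norm_num, mul_pow]
    push_cast
    ring

end loc

theorem loc {p : ℕ} (hp : p.Prime) {a : σ → τ → ℤ} (h1 : ∀ j, ∃ i, ¬ (p : ℤ) ∣ a j i)
    (h2 : ∀ j j', j ≠ j' → ∃ i i', ¬ (p : ℤ) ∣ a j i * a j' i' - a j i' * a j' i) (c : σ → ℤ)
    {A B : σ → ℝ} (hA : ∀ j, |A j| ≤ 1) (hB : ∀ j, |B j| ≤ 1) :
    |lm p (fun x => ∏ j, if (p : ℤ) ∣ c j + ∑ i, a j i * x i then B j else A j) -
      ∏ j, ((B j - A j) / p + A j)| ≤ 4 ^ Fintype.card σ / (p : ℝ) ^ 2 := by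
  have : Fact p.Prime := ⟨hp⟩
  have h3 := loc_zmod (a := fun j i => (a j i : ZMod p))
    (fun j => (h1 j).imp fun i hi => mt (ZMod.intCast_zmod_eq_zero_iff_dvd _ _).1 hi)
    (fun j j' h => (h2 j j' h).imp fun i => Exists.imp fun i' hi h0 =>
      hi ((ZMod.intCast_zmod_eq_zero_iff_dvd _ _).1 (by push_cast; exact h0)))
    (fun j => (c j : ZMod p)) hA hB
  rw [lm_eq]
  simp only [← ZMod.intCast_zmod_eq_zero_iff_dvd, Int.cast_add, Int.cast_sum, Int.cast_mul,
    Int.cast_natCast, ZMod.natCast_zmod_val]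
  exact h3

end Vale.Agent.P027G.Mj
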