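import Vale.Agent.P027G.MajA

/-! The majorant: orthogonality and the perturbation of the independent model. -/

namespace Vale.Agent.P027G.Mj

open Finset
open scoped BigOperators

variable {σ : Type} [Fintype σ] [DecidableEq σ] {P Q : Finset ℕ} {C : Finset (Finset ℕ)}
  {w : ℕ → ℝ}

/-- the local mean in the independent model -/
noncomputable def ip (w : ℕ → ℝ) (q : Finset ℕ × Finset ℕ) (p : ℕ) : ℝ :=
  if p ∈ q.1 then (if p ∈ q.2 then w p else 0) else if p ∈ q.2 then 0 else 1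

theorem ip_nonneg (hw : ∀ p, 0 ≤ w p) (q : Finset ℕ × Finset ℕ) (p : ℕ) : 0 ≤ ip w q p := by
  rw [ip]
  split_ifs
  exacts [hw p, le_rfl, le_rfl, zero_le_one]

theorem prod_ip {q : Finset ℕ × Finset ℕ} (h1 : q.1 ⊆ P) (h2 : q.2 ⊆ P) :
    ∏ p ∈ P \ Q, ip w q p = if q.2 \ Q = q.1 \ Q then ∏ p ∈ q.1 \ Q, w p else 0 := by
  split_ifs with h
  · have h3 : ∀ p ∈ P \ Q, ip w q p = if p ∈ q.1 \ Q then w p else 1 := fun p hp => by
      have h4 := Finset.ext_iff.1 h p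
      simp only [mem_sdiff, (mem_sdiff.1 hp).2, not_false_eq_true, and_true] at h4 ⊢
      simp only [ip, h4]
      split_ifs <;> rfl
    rw [prod_congr rfl h3, prod_ite_mem, inter_eq_right.2 (sdiff_subset_sdiff h1 Subset.rfl)]
  · obtain ⟨p, hp⟩ := not_forall.1 (mt Finset.ext_iff.2 h)
    simp only [mem_sdiff] at hp
    refine prod_eq_zero (i := p) (mem_sdiff.2 ⟨?_, by tauto⟩) ?_
    · by_cases h3 : p ∈ q.1
      exacts [h1 h3, h2 (by tauto)]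
    · rw [ip]
      split_ifs <;> tauto

theorem card_fib (s : Finset ℕ) : ((C.filter fun r => r \ Q = s).card : ℝ) ≤ 2 ^ Q.card := by
  have h : (C.filter fun r => r \ Q = s).card ≤ Q.powerset.card :=
    card_le_card_of_injOn (fun r => r ∩ Q) (fun r _ => mem_powerset.2 inter_subset_right)
      fun r hr r' hr' h => by
        have h1 : r ∩ Q = r' ∩ Q := h
        rw [← sdiff_union_inter r Q, ← sdiff_union_inter r' Q, (mem_filter.1 hr).2,
          (mem_filter.1 hr').2, h1]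
  rw [card_powerset] at h
  exact_mod_cast h

theorem sum_ip_le (hC : ∀ r ∈ C, r ⊆ P) (hd : ∀ r ∈ C, r \ Q ∈ C) (hw : ∀ p, 0 ≤ w p) :
    ∑ q ∈ C ×ˢ C, ∏ p ∈ P \ Q, ip w q p ≤ 4 ^ Q.card * ∑ r ∈ C, ∏ p ∈ r, w p := by
  have h0 : ∀ s : Finset ℕ, 0 ≤ ∏ p ∈ s, w p := fun s => prod_nonneg fun p _ => hw p
  have h1 : ∀ s, ∑ r ∈ C, (if r \ Q = s then ∏ p ∈ s, w p else 0) ≤ 2 ^ Q.card * ∏ p ∈ s, w p :=
    fun s => by
      rw [← sum_filter, sum_const, nsmul_eq_mul]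
      exact mul_le_mul_of_nonneg_right (card_fib s) (h0 s)
  rw [sum_congr rfl fun q hq => prod_ip (hC _ (mem_product.1 hq).1) (hC _ (mem_product.1 hq).2),
    sum_product, show (4 : ℝ) = 2 * 2 by norm_num, mul_pow, mul_assoc]
  refine (sum_le_sum fun r _ => h1 (r \ Q)).trans ?_
  rw [← mul_sum, ← sum_fiberwise_of_maps_to hd fun r => ∏ p ∈ r \ Q, w p]
  refine mul_le_mul_of_nonneg_left ?_ (by positivity)
  rw [mul_sum]
  refine sum_le_sum fun s _ => le_trans (le_of_eq ?_) (h1 s)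
  rw [← sum_filter]
  exact sum_congr rfl fun r hr => by rw [(mem_filter.1 hr).2]

theorem sum_ip_eq (hC : ∀ r ∈ C, r ⊆ P) :
    ∑ q ∈ C ×ˢ C, ∏ p ∈ P \ ∅, ip w q p = ∑ r ∈ C, ∏ p ∈ r, w p := by
  rw [sum_congr rfl fun q hq => prod_ip (hC _ (mem_product.1 hq).1) (hC _ (mem_product.1 hq).2),
    sum_product]
  exact sum_congr rfl fun r hr => by simp [hr]

theorem pert (hC : ∀ r ∈ C, r ⊆ P) (hd : ∀ Q, ∀ r ∈ C, r \ Q ∈ C) (hw : ∀ p, 0 ≤ w p)
    {κ : ℕ → ℝ} (hκ : ∀ p, 0 ≤ κ p) (E : (σ → Finset ℕ × Finset ℕ) → ℕ → ℝ)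
    (hE : ∀ q, ∀ p ∈ P, |E q p - ∏ j, ip w (q j) p| ≤ κ p) :
    |∑ q ∈ Fintype.piFinset fun _ => C ×ˢ C, ∏ p ∈ P, E q p -
      (∑ r ∈ C, ∏ p ∈ r, w p) ^ Fintype.card σ| ≤ (∑ r ∈ C, ∏ p ∈ r, w p) ^ Fintype.card σ *
        (∏ p ∈ P, (1 + 4 ^ Fintype.card σ * κ p) - 1) := by
  have h0 : ∀ Q : Finset ℕ, ∑ q ∈ Fintype.piFinset fun _ : σ => C ×ˢ C,
      ∏ p ∈ P \ Q, ∏ j, ip w (q j) p =
      (∑ q ∈ C ×ˢ C, ∏ p ∈ P \ Q, ip w q p) ^ Fintype.card σ := fun Q => by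
    rw [← card_univ, ← prod_const, prod_univ_sum]
    exact sum_congr rfl fun q _ => prod_comm
  have h1 : ∀ q : σ → Finset ℕ × Finset ℕ, ∏ p ∈ P, E q p = ∑ Q ∈ P.powerset,
      (∏ p ∈ Q, (E q p - ∏ j, ip w (q j) p)) * ∏ p ∈ P \ Q, ∏ j, ip w (q j) p := fun q => by
    simp only [← prod_add, sub_add_cancel]
  rw [sum_congr rfl fun q _ => h1 q, sum_comm, prod_one_add,
    ← add_sum_erase _ _ (empty_mem_powerset P), ← add_sum_erase _ _ (empty_mem_powerset P)]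
  simp only [prod_empty, one_mul, h0, sum_ip_eq hC, add_sub_cancel_left, mul_sum]
  refine (abs_sum_le_sum_abs _ _).trans (sum_le_sum fun Q hQ => (abs_sum_le_sum_abs _ _).trans ?_)
  have h2 := mem_powerset.1 (mem_of_mem_erase hQ)
  calc _ ≤ ∑ q ∈ Fintype.piFinset fun _ : σ => C ×ˢ C,
        (∏ p ∈ Q, κ p) * ∏ p ∈ P \ Q, ∏ j, ip w (q j) p := sum_le_sum fun q _ => by
        have h3 : 0 ≤ ∏ p ∈ P \ Q, ∏ j, ip w (q j) p :=
          prod_nonneg fun _ _ => prod_nonneg fun _ _ => ip_nonneg hw _ _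
        rw [abs_mul, abs_prod, abs_of_nonneg h3]
        exact mul_le_mul_of_nonneg_right
          (prod_le_prod (fun _ _ => abs_nonneg _) fun p hp => hE q p (h2 hp)) h3
    _ ≤ (∏ p ∈ Q, κ p) * (4 ^ Q.card * ∑ r ∈ C, ∏ p ∈ r, w p) ^ Fintype.card σ := by
        rw [← mul_sum, h0]
        exact mul_le_mul_of_nonneg_left (pow_le_pow_left₀ (sum_nonneg fun _ _ =>
          prod_nonneg fun _ _ => ip_nonneg hw _ _) (sum_ip_le hC (hd Q) hw) _)
          (prod_nonneg fun p _ => hκ p)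
    _ = _ := by
        rw [prod_mul_distrib, prod_const, mul_pow, ← pow_mul, ← pow_mul, mul_comm Q.card]
        ring

end Vale.Agent.P027G.Mj
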