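import Vale.Agent.P027G.MajB

/-! The majorant: the linear forms estimate in a cyclic group. -/

namespace Vale.Agent.P027G.Mj

open Finset
open scoped BigOperators

variable {σ τ : Type} [Fintype σ] [Fintype τ] [DecidableEq τ]

theorem bad_le (N : ℕ) [NeZero N] (H : ℕ) :
    𝔼 z : ZMod N, (if z.val < H ∨ N ≤ z.val + H then 1 else 0 : ℝ) ≤ 2 * H / N := by
  rw [Fintype.expect_eq_sum_div_card, ZMod.card, sum_boole]
  have h : (univ.filter fun z : ZMod N => z.val < H ∨ N ≤ z.val + H).card ≤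
      (range H ∪ Ico (N - H) N).card :=
    card_le_card_of_injOn ZMod.val (fun z hz => by
      have h1 := (mem_filter.1 hz).2
      have h2 := ZMod.val_lt z
      simp only [coe_union, coe_range, coe_Ico, Set.mem_union, Set.mem_Iio, Set.mem_Ico]
      omega) (ZMod.val_injective N).injOn
  have h2 := card_union_le (range H) (Ico (N - H) N)
  rw [card_range, Nat.card_Ico] at h2
  gcongr
  exact_mod_cast (by omega : (univ.filter fun z : ZMod N => z.val < H ∨ N ≤ z.val + H).card ≤ 2 * H)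

theorem wrap (N : ℕ) [Fact N.Prime] {a : σ → τ → ℤ} (ha : ∀ j, ∃ i, ¬ (N : ℤ) ∣ a j i) {A D : ℕ}
    (hA : ∀ j, ∑ i, |a j i| ≤ A) (hD : D ≠ 0) {Ψ : (σ → ℤ) → ℝ} (hΨ : ∀ x, |Ψ x| ≤ 1) :
    |(𝔼 x : τ → ZMod N, Ψ fun j => (lf (fun i => (a j i : ZMod N)) x).val) -
      𝔼 y : τ → ZMod N, lm D fun h => Ψ fun j =>
        (lf (fun i => (a j i : ZMod N)) y).val + ∑ i, a j i * h i| ≤
      4 * Fintype.card σ * A * D / N := by
  have : NeZero D := ⟨hD⟩
  have h1 : (𝔼 x : τ → ZMod N, Ψ fun j => (lf (fun i => (a j i : ZMod N)) x).val) =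
      𝔼 y : τ → ZMod N, lm D fun h => Ψ fun j =>
        (lf (fun i => (a j i : ZMod N)) (y + fun i => (h i : ZMod N))).val := by
    simp only [lm]
    rw [expect_comm, ← Fintype.expect_const (ι := τ → Fin D) (𝔼 x : τ → ZMod N, _)]
    exact expect_congr rfl fun h _ =>
      (Fintype.expect_equiv (Equiv.addRight _) _ _ fun _ => rfl).symm
  have h2 : ∀ j, 𝔼 y : τ → ZMod N, (if (lf (fun i => (a j i : ZMod N)) y).val < A * D ∨
      N ≤ (lf (fun i => (a j i : ZMod N)) y).val + A * D then 1 else 0 : ℝ) ≤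
      2 * (A * D : ℕ) / N := fun j => by
    obtain ⟨i, hi⟩ := ha j
    exact (expect_hom _ (lf_surj (a := fun i => (a j i : ZMod N))
      (mt (ZMod.intCast_zmod_eq_zero_iff_dvd _ _).1 hi)) fun z : ZMod N => if z.val < A * D ∨ N ≤ z.val + A * D then 1 else 0).trans_le (bad_le N _)
  rw [h1, ← expect_sub_distrib]
  refine (abs_expect_le _ _).trans ((expect_le_expect (g := fun y => 2 * ∑ j,
    if (lf (fun i => (a j i : ZMod N)) y).val < A * D ∨
      N ≤ (lf (fun i => (a j i : ZMod N)) y).val + A * D then 1 else 0) fun y _ => ?_).trans ?_)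
  · by_cases hy : ∃ j, (lf (fun i => (a j i : ZMod N)) y).val < A * D ∨
        N ≤ (lf (fun i => (a j i : ZMod N)) y).val + A * D
    · obtain ⟨j, hj⟩ := hy
      have h3 := single_le_sum (f := fun j => (if (lf (fun i => (a j i : ZMod N)) y).val < A * D ∨
        N ≤ (lf (fun i => (a j i : ZMod N)) y).val + A * D then 1 else 0 : ℝ))
        (fun _ _ => by positivity) (mem_univ j)
      rw [if_pos hj] at h3
      refine (abs_sub _ _).trans ((add_le_add (abs_lm_le hD fun _ => hΨ _)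
        (abs_lm_le hD fun _ => hΨ _)).trans ?_)
      linarith
    · rw [lm, lm, expect_congr rfl fun h _ => congrArg Ψ (funext fun j => ?_), sub_self, abs_zero]
      · positivity
      · have h3 := not_or.1 (not_exists.1 hy j)
        have h4 : |∑ i, a j i * ((h i : ℕ) : ℤ)| ≤ A * D :=
          (abs_sum_le_sum_abs _ _).trans ((sum_le_sum (g := fun i => |a j i| * D) fun i _ => by
            rw [abs_mul, Nat.abs_cast]
            exact mul_le_mul_of_nonneg_left (Nat.cast_le.2 (h i).2.le) (abs_nonneg _)).trans (by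
              rw [← sum_mul]
              exact mul_le_mul_of_nonneg_right (hA j) (Nat.cast_nonneg _)))
        have h5 : lf (fun i => (a j i : ZMod N)) (y + fun i => (((h i : ℕ) : ℤ) : ZMod N)) =
            (((lf (fun i => (a j i : ZMod N)) y).val + ∑ i, a j i * ((h i : ℕ) : ℤ) : ℤ) :
              ZMod N) := by
          rw [map_add, Int.cast_add, Int.cast_natCast, ZMod.natCast_zmod_val, Int.cast_sum]
          simp only [Int.cast_mul]
          rfl
        rw [h5, ZMod.val_intCast]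
        have h6 := abs_le.1 h4
        zify at h3
        exact Int.emod_eq_of_lt (by omega) (by omega)
  · rw [← mul_expect, expect_sum_comm]
    refine (mul_le_mul_of_nonneg_left (sum_le_card_nsmul _ _ _ fun j _ => h2 j) zero_le_two).trans
      (le_of_eq ?_)
    rw [card_univ, nsmul_eq_mul]
    push_cast
    ring

/-- the weight of a prime -/
noncomputable def wp (p : ℕ) : ℝ := 1 / ((p - 1 : ℕ) : ℝ)

theorem wp_nonneg (p : ℕ) : 0 ≤ wp p := one_div_nonneg.2 (Nat.cast_nonneg _)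

theorem wp_eq {p : ℕ} (hp : p.Prime) : wp p = 1 / ((p : ℝ) - 1) := by
  rw [wp, Nat.cast_sub hp.one_le, Nat.cast_one]

/-- the local factor -/
noncomputable def ch (r : Finset ℕ) (p : ℕ) (n : ℤ) : ℝ :=
  if p ∈ r then (if (p : ℤ) ∣ n then -1 else wp p) else 1

/-- the sieve -/
noncomputable def sv (P : Finset ℕ) (C : Finset (Finset ℕ)) (n : ℤ) : ℝ :=
  ∑ r ∈ C, ∏ p ∈ P, ch r p n

theorem abs_wp {p : ℕ} (hp : p.Prime) : |wp p| ≤ 1 := by
  have h : (2 : ℝ) ≤ p := Nat.ofNat_le_cast.2 hp.two_le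
  rw [abs_of_nonneg (wp_nonneg p), wp_eq hp]
  exact div_le_one_of_le₀ (by linarith) (by linarith)

theorem abs_ch {p : ℕ} (hp : p.Prime) (r : Finset ℕ) (n : ℤ) : |ch r p n| ≤ 1 := by
  rw [ch]
  split_ifs
  exacts [by simp, abs_wp hp, by simp]

theorem loc_ch {p : ℕ} (hp : p.Prime) {a : σ → τ → ℤ} (h1 : ∀ j, ∃ i, ¬ (p : ℤ) ∣ a j i)
    (h2 : ∀ j j', j ≠ j' → ∃ i i', ¬ (p : ℤ) ∣ a j i * a j' i' - a j i' * a j' i) (c : σ → ℤ)
    (q : σ → Finset ℕ × Finset ℕ) :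
    |lm p (fun x => ∏ j, ch (q j).1 p (c j + ∑ i, a j i * x i) *
      ch (q j).2 p (c j + ∑ i, a j i * x i)) - ∏ j, ip wp (q j) p| ≤
      4 ^ Fintype.card σ / (p : ℝ) ^ 2 := by
  have h0 : ¬ (p : ℤ) ∣ 1 := fun h => hp.not_dvd_one (Int.natCast_dvd_natCast.1 h)
  have h3 : ∀ r r', |ch r p 0 * ch r' p 0| ≤ 1 ∧ |ch r p 1 * ch r' p 1| ≤ 1 := fun r r' => by
    simp only [abs_mul]
    exact ⟨mul_le_one₀ (abs_ch hp _ _) (abs_nonneg _) (abs_ch hp _ _),
      mul_le_one₀ (abs_ch hp _ _) (abs_nonneg _) (abs_ch hp _ _)⟩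
  convert loc hp h1 h2 c (fun j => (h3 (q j).1 (q j).2).2) fun j => (h3 (q j).1 (q j).2).1
    using 5 with x j
  · refine prod_congr rfl fun j _ => ?_
    simp only [ch, dvd_zero, h0, if_true, if_false]
    split_ifs <;> rfl
  · have h4 : (p : ℝ) ≠ 0 := Nat.cast_ne_zero.2 hp.ne_zero
    have h5 : (p : ℝ) - 1 ≠ 0 := sub_ne_zero.2 (Nat.cast_ne_one.2 hp.ne_one)
    simp only [ch, dvd_zero, h0, if_true, if_false, ip, wp_eq hp]
    split_ifs <;> field_simp <;> ring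

theorem lm_ch {P : Finset ℕ} (hP : ∀ p ∈ P, p.Prime) {R : ℕ} (a : σ → τ → ℤ)
    {q : σ → Finset ℕ × Finset ℕ} (h1 : ∀ j, (q j).1 ⊆ P ∧ (q j).2 ⊆ P)
    (h2 : ∀ j, ∏ p ∈ (q j).1, p ≤ R ∧ ∏ p ∈ (q j).2, p ≤ R) :
    ∃ D : ℕ, D ≠ 0 ∧ D ≤ (R * R) ^ Fintype.card σ ∧ ∀ c : σ → ℤ,
      lm D (fun x => ∏ p ∈ P, ∏ j, ch (q j).1 p (c j + ∑ i, a j i * x i) *
        ch (q j).2 p (c j + ∑ i, a j i * x i)) = ∏ p ∈ P, lm p fun x => ∏ j,
          ch (q j).1 p (c j + ∑ i, a j i * x i) * ch (q j).2 p (c j + ∑ i, a j i * x i) := by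
  obtain ⟨S, hS⟩ : ∃ S : Finset ℕ, ∀ p, p ∈ S ↔ ∃ j, p ∈ (q j).1 ∨ p ∈ (q j).2 :=
    ⟨univ.biUnion fun j => (q j).1 ∪ (q j).2, fun p => by simp⟩
  have h3 : S ⊆ P := fun p hp => by
    obtain ⟨j, h | h⟩ := (hS p).1 hp
    exacts [(h1 j).1 h, (h1 j).2 h]
  have h4 : ∀ r ⊆ P, ∏ p ∈ r, p ≠ 0 := fun r hr =>
    prod_ne_zero_iff.2 fun p hp => (hP p (hr hp)).ne_zero
  refine ⟨∏ p ∈ S, p, h4 S h3, (Nat.le_of_dvd (n := ∏ j, (∏ p ∈ (q j).1, p) * ∏ p ∈ (q j).2, p)
    (Nat.pos_of_ne_zero (prod_ne_zero_iff.2 fun j _ => mul_ne_zero (h4 _ (h1 j).1) (h4 _ (h1 j).2)))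
    (prod_primes_dvd _ (fun p hp => (hP p (h3 hp)).prime) fun p hp => ?_)).trans
    (prod_le_pow_card _ _ _ fun j _ => Nat.mul_le_mul (h2 j).1 (h2 j).2), fun c => ?_⟩
  · obtain ⟨j, h⟩ := (hS p).1 hp
    refine dvd_trans ?_ (dvd_prod_of_mem _ (mem_univ j))
    exact h.elim (fun h => (dvd_prod_of_mem (fun p => p) h).mul_right _)
      fun h => (dvd_prod_of_mem (fun p => p) h).mul_left _
  · have h5 : ∀ p ∉ S, ∀ x : τ → ℤ, ∏ j, ch (q j).1 p (c j + ∑ i, a j i * x i) *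
        ch (q j).2 p (c j + ∑ i, a j i * x i) = 1 := fun p hp x => prod_eq_one fun j _ => by
      have h6 := not_or.1 (not_exists.1 (mt (hS p).2 hp) j)
      rw [ch, ch, if_neg h6.1, if_neg h6.2, one_mul]
    rw [← prod_subset h3 fun p hp hn => by
      rw [funext (h5 p hn), lm_const (hP p hp).ne_zero], ← lm_prod S fun p hp => hP p (h3 hp)]
    · exact congrArg _ (funext fun x => (prod_subset h3 fun p _ hn => h5 p hn x).symm)
    · refine fun p _ x y h => prod_congr rfl fun j _ => ?_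
      have h6 : (p : ℤ) ∣ c j + ∑ i, a j i * x i - (c j + ∑ i, a j i * y i) := by
        rw [add_sub_add_left_eq_sub, ← sum_sub_distrib]
        exact dvd_sum fun i _ => by
          rw [← mul_sub]
          exact (h i).mul_left _
      simp only [ch, dvd_iff_dvd_of_dvd_sub h6]

theorem core (N : ℕ) [Fact N.Prime] {a : σ → τ → ℤ} (ha : ∀ j, ∃ i, ¬ (N : ℤ) ∣ a j i)
    {A R : ℕ} (hA : ∀ j, ∑ i, |a j i| ≤ A) (W b : ℤ) {P : Finset ℕ} (hP : ∀ p ∈ P, p.Prime)
    (h1 : ∀ p ∈ P, ∀ j, ∃ i, ¬ (p : ℤ) ∣ W * a j i)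
    (h2 : ∀ p ∈ P, ∀ j j', j ≠ j' →
      ∃ i i', ¬ (p : ℤ) ∣ W * a j i * (W * a j' i') - W * a j i' * (W * a j' i))
    {C : Finset (Finset ℕ)} (hC : ∀ r ∈ C, r ⊆ P) (hd : ∀ Q, ∀ r ∈ C, r \ Q ∈ C)
    (hR : ∀ r ∈ C, ∏ p ∈ r, p ≤ R) :
    |(𝔼 x : τ → ZMod N, ∏ j, sv P C (W * (lf (fun i => (a j i : ZMod N)) x).val + b) ^ 2) -
      (∑ r ∈ C, ∏ p ∈ r, wp p) ^ Fintype.card σ| ≤ (∑ r ∈ C, ∏ p ∈ r, wp p) ^ Fintype.card σ *
        (∏ p ∈ P, (1 + 4 ^ Fintype.card σ * (4 ^ Fintype.card σ / (p : ℝ) ^ 2)) - 1) +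
      (C.card * C.card) ^ Fintype.card σ *
        (4 * Fintype.card σ * A * (R * R) ^ Fintype.card σ / N) := by
  classical
  have h3 : ∀ n : σ → ℤ, ∏ j, sv P C (n j) ^ 2 = ∑ q ∈ Fintype.piFinset fun _ => C ×ˢ C,
      ∏ p ∈ P, ∏ j, ch (q j).1 p (n j) * ch (q j).2 p (n j) := fun n => by
    simp only [sq, sv, sum_mul_sum, ← sum_product', ← prod_mul_distrib, prod_univ_sum]
    exact sum_congr rfl fun q _ => prod_comm
  have h4 : ∀ y : τ → ZMod N, _ := fun y => pert hC hd wp_nonneg (fun p => by positivity)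
    (fun q p => lm p fun x => ∏ j,
      ch (q j).1 p (W * (lf (fun i => (a j i : ZMod N)) y).val + b + ∑ i, W * a j i * x i) *
      ch (q j).2 p (W * (lf (fun i => (a j i : ZMod N)) y).val + b + ∑ i, W * a j i * x i))
    fun q p hp => loc_ch (hP p hp) (h1 p hp) (h2 p hp) _ q
  have h5 := (abs_expect_le _ _).trans (expect_le univ_nonempty fun y _ => h4 y)
  rw [expect_sub_distrib, Fintype.expect_const, expect_sum_comm] at h5
  simp only [h3, expect_sum_comm]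
  refine (abs_sub_le _ _ _).trans ((add_comm _ _).trans_le (add_le_add h5 ?_))
  rw [← sum_sub_distrib]
  refine (abs_sum_le_sum_abs _ _).trans ((sum_le_card_nsmul _ _
    (4 * Fintype.card σ * A * (R * R) ^ Fintype.card σ / N : ℝ) fun q hq => ?_).trans_eq ?_)
  · have h6 := fun j => mem_product.1 (Fintype.mem_piFinset.1 hq j)
    obtain ⟨D, k1, k2, k3⟩ := lm_ch hP (fun j i => W * a j i)
      (fun j => ⟨hC _ (h6 j).1, hC _ (h6 j).2⟩) fun j => ⟨hR _ (h6 j).1, hR _ (h6 j).2⟩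
    have k4 := wrap N ha hA k1 (Ψ := fun n => ∏ p ∈ P, ∏ j, ch (q j).1 p (W * n j + b) *
      ch (q j).2 p (W * n j + b)) fun n => by
        rw [abs_prod]
        refine prod_le_one (fun _ _ => abs_nonneg _) fun p hp => ?_
        rw [abs_prod]
        refine prod_le_one (fun _ _ => abs_nonneg _) fun j _ => ?_
        rw [abs_mul]
        exact mul_le_one₀ (abs_ch (hP p hp) _ _) (abs_nonneg _) (abs_ch (hP p hp) _ _)
    simp only [mul_add W, add_right_comm _ _ b, mul_sum, ← mul_assoc, k3] at k4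
    refine k4.trans ?_
    gcongr
    exact_mod_cast k2
  · rw [Fintype.card_piFinset, prod_const, card_product, card_univ, nsmul_eq_mul]
    push_cast
    rfl

end Vale.Agent.P027G.Mj
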