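import Vale.Agent.P027G.MajC

/-! The majorant: the sifting primes, the size of the normalising sum. -/

namespace Vale.Agent.P027G.Mj

open Finset
open scoped BigOperators

variable {w R : ℕ}

/-- the sifting primes -/
def PP (w R : ℕ) : Finset ℕ := (Ioc w R).filter Nat.Prime

/-- the sets of sifting primes with a small product -/
def CC (w R : ℕ) : Finset (Finset ℕ) := (PP w R).powerset.filter fun r => ∏ p ∈ r, p ≤ R

/-- the normalising sum -/
noncomputable def GG (w R : ℕ) : ℝ := ∑ r ∈ CC w R, ∏ p ∈ r, wp p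

theorem mem_PP {p : ℕ} : p ∈ PP w R ↔ (w < p ∧ p ≤ R) ∧ p.Prime := by
  rw [PP, mem_filter, mem_Ioc]

theorem mem_CC {r : Finset ℕ} : r ∈ CC w R ↔ r ⊆ PP w R ∧ ∏ p ∈ r, p ≤ R := by
  rw [CC, mem_filter, mem_powerset]

theorem cc_down (Q : Finset ℕ) : ∀ r ∈ CC w R, r \ Q ∈ CC w R := fun _ hr =>
  mem_CC.2 ⟨sdiff_subset.trans (mem_CC.1 hr).1, (prod_le_prod_of_subset_of_one_le' sdiff_subset
    fun _ hp _ => (mem_PP.1 ((mem_CC.1 hr).1 hp)).2.pos).trans (mem_CC.1 hr).2⟩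

theorem card_cc : (CC w R).card ≤ R := by
  have h1 : ∀ r ∈ CC w R, ∀ p ∈ r, p.Prime := fun r hr p hp => (mem_PP.1 ((mem_CC.1 hr).1 hp)).2
  have h : (CC w R).card ≤ (Ioc 0 R).card := card_le_card_of_injOn (fun r => ∏ p ∈ r, p)
    (fun r hr => mem_coe.2 (mem_Ioc.2 ⟨prod_pos fun p hp => (h1 r hr p hp).pos, (mem_CC.1 hr).2⟩))
    fun r hr r' hr' h => by
      rw [← Nat.primeFactors_prod (h1 r hr), ← Nat.primeFactors_prod (h1 r' hr')]
      exact congrArg _ h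
  rwa [Nat.card_Ioc] at h

theorem one_le_GG (hR : 1 ≤ R) : 1 ≤ GG w R :=
  single_le_sum (f := fun r : Finset ℕ => ∏ p ∈ r, wp p)
    (fun _ _ => prod_nonneg fun p _ => wp_nonneg p) (mem_CC.2 ⟨empty_subset _, hR⟩)

theorem sv_prime {n : ℕ} (hn : n.Prime) (h : R < n) : sv (PP w R) (CC w R) n = GG w R :=
  sum_congr rfl fun r hr => by
    rw [← inter_eq_right.2 (mem_CC.1 hr).1, ← prod_ite_mem, inter_eq_right.2 (mem_CC.1 hr).1]
    refine prod_congr rfl fun p hp => ?_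
    have h1 := mem_PP.1 hp
    rw [ch, if_neg fun h2 => (h1.1.2.trans_lt h).ne
      ((Nat.prime_dvd_prime_iff_eq h1.2 hn).1 (Int.natCast_dvd_natCast.1 h2))]

theorem euler_le {K : ℝ} (hK : 0 ≤ K) :
    ∏ p ∈ PP w R, (1 + K / (p : ℝ) ^ 2) ≤ Real.exp (K * (2 / (w + 1))) := by
  refine (Real.prod_one_add_le_exp_sum _ fun p => by positivity).trans (Real.exp_le_exp.2 ?_)
  simp only [div_eq_mul_inv K, ← mul_sum]
  refine mul_le_mul_of_nonneg_left ((sum_le_sum_of_subset_of_nonneg (fun p hp => ?_)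
    fun _ _ _ => by positivity).trans (sum_Ioo_inv_sq_le w (R + 1))) hK
  exact mem_Ioo.2 ⟨(mem_PP.1 hp).1.1, Nat.lt_succ_of_le (mem_PP.1 hp).1.2⟩

theorem fac_le {s T : Finset ℕ} (hs : ∀ p ∈ s, p.Prime) (hT : ∀ m ∈ T, m ∈ Nat.factoredNumbers s) :
    ∑ m ∈ T, (m : ℝ)⁻¹ ≤ ∏ p ∈ s, (1 - (p : ℝ)⁻¹)⁻¹ := by
  have h := (EulerProduct.summable_and_hasSum_factoredNumbers_prod_filter_prime_geometric
    (f := ⟨⟨fun n : ℕ => (n : ℝ)⁻¹, by simp⟩, fun _ _ => by simp [mul_comm]⟩) (fun {p} hp => by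
      change ‖(p : ℝ)⁻¹‖ < 1
      rw [norm_inv, Real.norm_natCast]
      exact inv_lt_one_of_one_lt₀ (Nat.one_lt_cast.2 hp.one_lt)) s).2
  rw [filter_true_of_mem hs] at h
  exact (sum_congr rfl fun m hm => (Set.indicator_of_mem (hT m hm) _).symm).trans_le
    (sum_le_hasSum T (fun _ _ => Set.indicator_nonneg (fun _ _ => by positivity) _)
      ((hasSum_subtype_iff_indicator (f := fun n : ℕ => (n : ℝ)⁻¹)).1 h))

theorem le_GG (hR : 1 ≤ R) : (w.factorial.totient : ℝ) / w.factorial * Real.log R ≤ GG w R := by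
  have h0 : (0 : ℝ) < w.factorial := Nat.cast_pos.2 w.factorial_pos
  have h1 : (w.factorial.totient : ℝ) / w.factorial =
      ∏ p ∈ w.factorial.primeFactors, (1 - (p : ℝ)⁻¹) := by
    have h := congrArg (Rat.cast : ℚ → ℝ) (Nat.totient_eq_mul_prod_factors w.factorial)
    push_cast at h
    rw [h, mul_div_cancel_left₀ _ h0.ne']
  have h2 : (0 : ℝ) < (w.factorial.totient : ℝ) / w.factorial :=
    div_pos (Nat.cast_pos.2 (Nat.totient_pos.2 w.factorial_pos)) h0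
  have h3 : Real.log R ≤ ∑ n ∈ Icc 1 R, (n : ℝ)⁻¹ := by
    have h := log_add_one_le_harmonic R
    rw [harmonic_eq_sum_Icc] at h
    push_cast at h
    exact (Real.log_le_log (Nat.cast_pos.2 hR) (by linarith)).trans h
  have h4 : ∀ n : ℕ, ∏ p ∈ n.primeFactors.filter (w < ·), p ∣ n := fun n =>
    (prod_dvd_prod_of_subset _ _ _ (filter_subset _ _)).trans n.prod_primeFactors_dvd
  have h5 : ∀ n ∈ Icc 1 R, n.primeFactors.filter (w < ·) ∈ CC w R := fun n hn =>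
    mem_CC.2 ⟨fun p hp => mem_PP.2 ⟨⟨(mem_filter.1 hp).2,
      (Nat.le_of_mem_primeFactors (mem_filter.1 hp).1).trans (mem_Icc.1 hn).2⟩,
      Nat.prime_of_mem_primeFactors (mem_filter.1 hp).1⟩,
      (Nat.le_of_dvd (mem_Icc.1 hn).1 (h4 n)).trans (mem_Icc.1 hn).2⟩
  rw [← le_inv_mul_iff₀ h2, GG, mul_sum]
  refine h3.trans ((sum_fiberwise_of_maps_to h5 _).symm.trans_le (sum_le_sum fun r hr => ?_))
  have h6 : ∀ p ∈ r, (w < p ∧ p ≤ R) ∧ p.Prime := fun p hp => mem_PP.1 ((mem_CC.1 hr).1 hp)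
  have h7 : ∀ n ∈ (Icc 1 R).filter fun n => n.primeFactors.filter (w < ·) = r,
      (∏ p ∈ r, p) * (n / ∏ p ∈ r, p) = n := fun n hn =>
    Nat.mul_div_cancel' ((mem_filter.1 hn).2 ▸ h4 n)
  have h8 := fac_le (s := w.factorial.primeFactors ∪ r)
    (T := ((Icc 1 R).filter fun n => n.primeFactors.filter (w < ·) = r).image (· / ∏ p ∈ r, p))
    (fun p hp => (mem_union.1 hp).elim Nat.prime_of_mem_primeFactors fun h => (h6 p h).2)
    fun m hm => by
      obtain ⟨n, hn, rfl⟩ := mem_image.1 hm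
      have k1 : n ≠ 0 := Nat.ne_of_gt (mem_Icc.1 (mem_filter.1 hn).1).1
      refine Nat.mem_factoredNumbers'.2 fun p hp k2 => mem_union.2 ((le_or_gt p w).imp
        (fun h => Nat.mem_primeFactors.2 ⟨hp, hp.dvd_factorial.2 h, w.factorial_ne_zero⟩) fun h => ?_)
      rw [← (mem_filter.1 hn).2]
      exact mem_filter.2 ⟨Nat.mem_primeFactors.2 ⟨hp, h7 n hn ▸ k2.mul_left _, k1⟩, h⟩
  rw [sum_image fun n hn n' hn' h => by rw [← h7 n hn, ← h7 n' hn', show n / _ = n' / _ from h],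
    prod_union (disjoint_left.2 fun p hp k => (h6 p k).1.1.not_ge
      ((h6 p k).2.dvd_factorial.1 (Nat.dvd_of_mem_primeFactors hp)))] at h8
  calc _ = ∑ n ∈ (Icc 1 R).filter fun n => n.primeFactors.filter (w < ·) = r,
        ((∏ p ∈ r, p : ℕ) : ℝ)⁻¹ * ((n / ∏ p ∈ r, p : ℕ) : ℝ)⁻¹ := sum_congr rfl fun n hn => by
        rw [← mul_inv, ← Nat.cast_mul, h7 n hn]
    _ ≤ _ := by
      rw [← mul_sum]
      refine (mul_le_mul_of_nonneg_left h8 (by positivity)).trans_eq ?_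
      rw [h1, mul_left_comm, prod_inv_distrib, Nat.cast_prod, ← prod_inv_distrib (s := r),
        ← prod_mul_distrib]
      refine congrArg _ (prod_congr rfl fun p hp => ?_)
      rw [wp_eq (h6 p hp).2, ← mul_inv, mul_sub, mul_one,
        mul_inv_cancel₀ (Nat.cast_ne_zero.2 (h6 p hp).2.ne_zero), one_div]

end Vale.Agent.P027G.Mj
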