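import Vale.Agent.P027G.Glue

/-! Height bounds that imply the height bound for progressions. -/

set_option linter.all false

namespace Vale.Agent.P027G

open Height Vale.Agent.P027Z

lemma of_not_dvd_radN {n m p : ℕ} (hp : p.Prime) (hm : m ≠ 0) (h : ¬ p ∣ radN n m) :
    n ∣ m.factorization p := by
  by_contra c
  refine h (Finset.dvd_prod_of_mem (fun p : ℕ => p) (Finset.mem_filter.2 ⟨?_, c⟩))
  refine Nat.mem_primeFactors.2 ⟨hp, ?_, hm⟩
  by_contra d
  exact c (by rw [Nat.factorization_eq_zero_of_not_dvd d]; exact dvd_zero _)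

lemma fin_bound {x H c C : ℝ} {A E M e κ : ℕ} (h1 : x ≤ c + H) (h2 : H ≤ C * (A : ℝ) ^ κ)
    (h3 : A ≤ (E * M) ^ e) (hM : 0 < M) :
    x ≤ (|c| + |C| * (E : ℝ) ^ (e * κ)) * (M : ℝ) ^ (e * κ) := by
  have m1 : (1 : ℝ) ≤ (M : ℝ) ^ (e * κ) := one_le_pow₀ (by exact_mod_cast hM)
  have h4 : C * (A : ℝ) ^ κ ≤ |C| * ((E : ℝ) * M) ^ (e * κ) := by
    refine mul_le_mul (le_abs_self C) ?_ (by positivity) (abs_nonneg C)
    rw [pow_mul]
    exact pow_le_pow_left₀ (by positivity) (by exact_mod_cast h3) _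
  rw [mul_pow] at h4
  nlinarith [le_abs_self c, abs_nonneg c]

/-- the radical that belongs to a finite set of rational points and infinity -/
def Rad (n : ℕ) (R : Finset ℚ) (t : ℚ) : ℕ := radN n t.den * ∏ r ∈ R, radN n (t - r).num.natAbs

lemma Rad_pos (n : ℕ) (R : Finset ℚ) (t : ℚ) : 0 < Rad n R t :=
  mul_pos (one_le_radN _ _) (Finset.prod_pos fun _ _ => one_le_radN _ _)

lemma val_eq {p : ℕ} (hp : p.Prime) (t : ℚ) : padicValRat p t =
    (t.num.natAbs.factorization p : ℕ) - (t.den.factorization p : ℕ) := by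
  rw [Nat.factorization_def _ hp, Nat.factorization_def _ hp]; rfl

theorem good_of_set {R : Finset ℚ} {T : ℚ} {n κ : ℕ} {C : ℝ} (h : ∀ t : ℚ, T < t →
    Real.log (max t.num.natAbs t.den : ℕ) ≤ C * (Rad n R t : ℝ) ^ κ) :
    ∃ (k κ : ℕ) (C : ℝ), ∀ s : ℚ, 0 < s → GoodK (k + 1) n κ C s := by
  obtain ⟨b, hb⟩ := (insert T R).finite_toSet.bddAbove
  obtain ⟨β, hβ⟩ := exists_nat_gt b
  have hT : T < β := (hb (by simp)).trans_lt hβ
  have hR : ∀ r ∈ R, 0 < β - r := fun r hr => sub_pos.2 ((hb (by simp [hr])).trans_lt hβ)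
  let α : ℕ := ∏ r ∈ R, (β - r).num.natAbs
  have α0 : 0 < α := Finset.prod_pos fun r hr => by simpa using (hR r hr).ne'
  have α1 : ∀ r ∈ R, (β - r).num.natAbs ∣ α := fun r hr => Finset.dvd_prod_of_mem _ hr
  have ex : ∀ r ∈ R, ∃ i : ℕ, (β - r) * i = α := fun r hr => by
    obtain ⟨u, hu⟩ := α1 r hr
    refine ⟨(β - r).den * u, ?_⟩
    rw [hu, Nat.cast_mul, ← mul_assoc, Rat.mul_den_eq_num, Nat.cast_mul, Nat.cast_natAbs,
      abs_of_pos (Rat.num_pos.2 (hR r hr))]
  choose! i hi using ex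
  let E := α * ∏ r ∈ R, (β - r).den
  have E0 : 0 < E := mul_pos α0 (Finset.prod_pos fun r _ => Rat.den_pos _)
  refine ⟨R.sup i, (R.card + 1) * κ, |1 + logHeight₁ (β : ℚ) + logHeight₁ (α : ℚ)| +
    |C| * (E : ℝ) ^ ((R.card + 1) * κ), fun s hs => ?_⟩
  unfold GoodK
  obtain ⟨M, hM⟩ : ∃ M, ∏ l ∈ Finset.range (R.sup i + 1), radN n (s.den + l * s.num).natAbs = M :=
    ⟨_, rfl⟩
  have M1 : 0 < M := hM ▸ Finset.prod_pos fun _ _ => one_le_radN _ _
  rw [hM]
  refine fin_bound ?_ (h (α * s + β) (by linarith [show 0 < α * s by positivity])) ?_ M1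
  · rw [← Rat.logHeight₁_eq_log_max, ← Rat.logHeight₁_eq_log_max]
    have e : s = (α * s + β - β) / α := by field_simp; ring
    have t1 := (congrArg logHeight₁ e).trans_le (h_div _ _)
    linarith [h_sub (α * s + β) β]
  have M0 : 0 < E * M := mul_pos E0 M1
  have s0 := Rat.num_pos.2 hs
  have key : ∀ p : ℕ, p.Prime → ¬ p ∣ E * M → ∀ l ≤ R.sup i,
      n ∣ (s.den + l * s.num : ℤ).natAbs.factorization p := fun p hp hn l hl =>
    of_not_dvd_radN hp (Int.natAbs_ne_zero.2 (by have := s.den_pos; positivity)) fun c =>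
      hn (dvd_mul_of_dvd_right (c.trans (hM ▸ Finset.dvd_prod_of_mem
        (fun l : ℕ => radN n (s.den + l * s.num).natAbs)
        (Finset.mem_range.2 (Nat.lt_succ_of_le hl)))) _)
  have k0 : ∀ p : ℕ, p.Prime → ¬ p ∣ E * M → n ∣ s.den.factorization p := fun p hp hn => by
    simpa using key p hp hn 0 (Nat.zero_le _)
  have kα : ∀ p : ℕ, ¬ p ∣ E * M → ¬ p ∣ α := fun p hn c =>
    hn (dvd_mul_of_dvd_left (dvd_mul_of_dvd_left c _) _)
  rw [pow_succ', Rad]
  refine Nat.mul_le_mul (Nat.le_of_dvd M0 (radN_dvd fun p hp hn => ?_))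
    (Finset.prod_le_pow_card _ _ _ fun r hr => Nat.le_of_dvd M0 (radN_dvd fun p hp hn => ?_))
  all_goals haveI := Fact.mk hp
  · rw [Rat.add_natCast_den]
    refine dvd_den_fact hp fun c => ?_
    rw [padicValRat.mul (by positivity) hs.ne', padicValRat.of_nat,
      padicValNat.eq_zero_of_not_dvd (kα p hn), val_eq hp] at c ⊢
    rcases not_dvd_both hp s with d | d
    · rw [Nat.factorization_eq_zero_of_not_dvd d]
      simpa [Int.natCast_dvd_natCast] using k0 p hp hn
    · rw [Nat.factorization_eq_zero_of_not_dvd d] at c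
      omega
  · refine dvd_num_fact hp ?_
    have e : α * s + β - r = (β - r) * (1 + i r * s) := by rw [← hi r hr]; ring
    have h1 : (1 + i r * s : ℚ) ≠ 0 := by positivity
    have h2 := Int.natCast_dvd_natCast.2 (key p hp hn _ (Finset.le_sup hr))
    rw [val_term hp h1, ← Nat.factorization_def _ hp,
      dvd_add_left (Int.natCast_dvd_natCast.2 (k0 p hp hn))] at h2
    rw [e, padicValRat.mul (hR r hr).ne' h1, val_eq hp,
      Nat.factorization_eq_zero_of_not_dvd fun c => kα p hn (c.trans (α1 r hr)),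
      Nat.factorization_eq_zero_of_not_dvd fun c => hn (dvd_mul_of_dvd_left
        (dvd_mul_of_dvd_right (c.trans (Finset.dvd_prod_of_mem _ hr)) _) _)]
    simpa using h2

lemma fact_den_sub {p : ℕ} (t : ℚ) {r : ℚ} (h : ¬ p ∣ r.den) :
    (t - r).den.factorization p = t.den.factorization p := by
  have k : ∀ t r : ℚ, ¬ p ∣ r.den → (t + r).den.factorization p ≤ t.den.factorization p := by
    intro t r h
    have := (Nat.factorization_le_iff_dvd (Rat.den_nz _)
      (mul_ne_zero t.den_nz r.den_nz)).2 (Rat.add_den_dvd t r) p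
    rwa [Nat.factorization_mul t.den_nz r.den_nz, Finsupp.add_apply,
      Nat.factorization_eq_zero_of_not_dvd h, add_zero] at this
  refine le_antisymm (by simpa [sub_eq_add_neg] using k t (-r) h) ?_
  simpa using k (t - r) r h

lemma val_Rad {n p : ℕ} (hp : p.Prime) {R : Finset ℚ} {t : ℚ} (h : ¬ p ∣ Rad n R t) :
    n ∣ t.den.factorization p ∧ ∀ r ∈ R, t - r ≠ 0 → ¬ p ∣ r.den →
      (n : ℤ) ∣ padicValRat p (t - r) := by
  have h1 := of_not_dvd_radN (n := n) hp t.den_nz fun c => h (dvd_mul_of_dvd_left c _)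
  refine ⟨h1, fun r hr h0 hd => ?_⟩
  rw [val_eq hp, fact_den_sub t hd]
  exact dvd_sub (Int.natCast_dvd_natCast.2 (of_not_dvd_radN hp (by simpa using h0) fun c =>
    h (dvd_mul_of_dvd_right (c.trans
      (Finset.dvd_prod_of_mem (fun r : ℚ => radN n (t - r).num.natAbs) hr)) _)))
    (Int.natCast_dvd_natCast.2 h1)

lemma lprod_ne {α : Type} {f : α → ℚ} {L : List α} (h : ∀ r ∈ L, f r ≠ 0) : (L.map f).prod ≠ 0 :=
  List.prod_ne_zero fun c => by
    obtain ⟨r, hr, e⟩ := List.mem_map.1 c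
    exact h r hr e

lemma one_le_lprod {α : Type} {f : α → ℚ} {L : List α} (h : ∀ r ∈ L, 1 ≤ f r) :
    1 ≤ (L.map f).prod := by
  induction L with
  | nil => simp
  | cons a L ih =>
    simp only [List.mem_cons, forall_eq_or_imp] at h
    rw [List.map_cons, List.prod_cons]
    exact one_le_mul_of_one_le_of_one_le h.1 (ih h.2)

lemma val_prod {α : Type} (p : ℕ) [Fact p.Prime] (f : α → ℚ) (L : List α) (h : ∀ r ∈ L, f r ≠ 0) :
    padicValRat p (L.map f).prod = (L.map fun r => padicValRat p (f r)).sum := by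
  induction L with
  | nil => simp
  | cons a L ih =>
    simp only [List.mem_cons, forall_eq_or_imp] at h
    rw [List.map_cons, List.prod_cons, List.map_cons, List.sum_cons, ← ih h.2,
      padicValRat.mul h.1 (lprod_ne h.2)]

lemma nat_free (n : ℕ) {m : ℕ} (hn : 0 < n) (hm : m ≠ 0) :
    ∃ a b : ℕ, m = a * b ^ n ∧ a ≤ radN n m ^ n := by
  refine ⟨∏ p ∈ m.primeFactors, p ^ (m.factorization p % n),
    ∏ p ∈ m.primeFactors, p ^ (m.factorization p / n), ?_, ?_⟩
  · conv_lhs => rw [← Nat.prod_factorization_pow_eq_self hm]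
    rw [← Finset.prod_pow, ← Finset.prod_mul_distrib, Finsupp.prod, Nat.support_factorization]
    refine Finset.prod_congr rfl fun p _ => ?_
    rw [← pow_mul, ← pow_add, Nat.mod_add_div']
  · rw [radN, ← Finset.prod_pow, Finset.prod_filter]
    refine Finset.prod_le_prod' fun p hp => ?_
    split_ifs with c
    · rw [Nat.mod_eq_zero_of_dvd c, pow_zero]
    · exact Nat.pow_le_pow_right (Nat.prime_of_mem_primeFactors hp).pos (Nat.mod_lt _ hn).le

lemma rat_free (n : ℕ) {z : ℚ} (hz : z ≠ 0) : ∃ (B : ℤ) (y : ℚ), y ≠ 0 ∧ B * y ^ (n + 1) = z ∧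
    B.natAbs ≤ radN (n + 1) z.num.natAbs ^ (n + 1) * (radN (n + 1) z.den ^ (n + 1)) ^ n := by
  obtain ⟨a, b, e, h⟩ := nat_free (n + 1) (m := z.num.natAbs) n.succ_pos (by simpa using hz)
  obtain ⟨a', b', e', h'⟩ := nat_free (n + 1) n.succ_pos z.den_nz
  have b0 : b ≠ 0 := by rintro rfl; simp [hz] at e
  have d0 := z.den_nz
  have a1 : (a' : ℚ) ≠ 0 := by rintro c; simp_all
  have b1 : (b' : ℚ) ≠ 0 := by rintro c; simp_all
  refine ⟨z.num.sign * a * a' ^ n, b / (a' * b'), by positivity, ?_, ?_⟩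
  · have e1 : (z.num : ℚ) = z.num.sign * (a * b ^ (n + 1)) := by
      have : z.num = z.num.sign * (a * b ^ (n + 1) : ℕ) := by rw [← e, Int.sign_mul_natAbs]
      exact_mod_cast this
    have e2 : (z.den : ℚ) = a' * b' ^ (n + 1) := by exact_mod_cast e'
    conv_rhs => rw [← Rat.num_div_den z, e1, e2]
    push_cast
    rw [div_pow, mul_pow]
    field_simp
    ring
  · rw [Int.natAbs_mul, Int.natAbs_mul, Int.natAbs_sign_of_ne_zero (Rat.num_ne_zero.2 hz), one_mul,
      Int.natAbs_pow, Int.natAbs_natCast, Int.natAbs_natCast]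
    exact Nat.mul_le_mul h (Nat.pow_le_pow_left h' _)

theorem set_of_twist {L : List ℚ} {T : ℚ} {n κ : ℕ} {C : ℝ} (hn : 0 < n)
    (h : ∀ (B : ℤ) (t y : ℚ), T < t → y ≠ 0 → B * y ^ n = (L.map fun r => t - r).prod →
      Real.log (max t.num.natAbs t.den : ℕ) ≤ C * |(B : ℝ)| ^ κ) :
    ∃ (R : Finset ℚ) (T : ℚ) (κ : ℕ) (C : ℝ), ∀ t : ℚ, T < t →
      Real.log (max t.num.natAbs t.den : ℕ) ≤ C * (Rad n R t : ℝ) ^ κ := by
  obtain ⟨n, rfl⟩ := Nat.exists_eq_add_of_le' hn
  obtain ⟨b, hb⟩ := (insert T L.toFinset).finite_toSet.bddAbove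
  let E := ∏ r ∈ L.toFinset, r.den
  refine ⟨L.toFinset, b, (n + 1) * (n + 1) * κ, |0| + |C| * (E : ℝ) ^ ((n + 1) * (n + 1) * κ),
    fun t ht => ?_⟩
  have t0 : ∀ r ∈ L, t - r ≠ 0 := fun r hr => (sub_pos.2 ((hb (by simp [hr])).trans_lt ht)).ne'
  obtain ⟨B, y, h1, h2, h3⟩ := rat_free n (z := (L.map fun r => t - r).prod) (lprod_ne t0)
  have h4 := h B t y ((hb (by simp)).trans_lt ht) h1 h2
  rw [← Int.cast_abs, ← Int.natCast_natAbs, Int.cast_natCast] at h4
  refine fin_bound (zero_add _).ge h4 (h3.trans ?_) (Rad_pos _ _ _)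
  have M0 : 0 < E * Rad (n + 1) L.toFinset t :=
    mul_pos (Finset.prod_pos fun r _ => r.den_pos) (Rad_pos _ _ _)
  have key : ∀ p : ℕ, p.Prime → ¬ p ∣ E * Rad (n + 1) L.toFinset t →
      ((n + 1 : ℕ) : ℤ) ∣ padicValRat p (L.map fun r => t - r).prod := fun p hp hn => by
    haveI := Fact.mk hp
    rw [val_prod p _ L t0]
    refine List.dvd_sum fun a ha => ?_
    obtain ⟨r, hr, rfl⟩ := List.mem_map.1 ha
    exact (val_Rad hp fun c => hn (dvd_mul_of_dvd_right c _)).2 r (by simpa using hr) (t0 r hr)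
      fun c => hn (dvd_mul_of_dvd_left (c.trans (Finset.dvd_prod_of_mem _ (by simpa using hr))) _)
  have r1 := Nat.le_of_dvd M0 (radN_dvd fun p hp hn => dvd_num_fact hp (key p hp hn))
  have r2 := Nat.le_of_dvd M0 (radN_dvd fun p hp hn => dvd_den_fact hp fun _ => key p hp hn)
  calc _ ≤ (E * Rad (n + 1) L.toFinset t) ^ (n + 1) *
        ((E * Rad (n + 1) L.toFinset t) ^ (n + 1)) ^ n := by gcongr
    _ = _ := by ring

theorem set_of_poly (L₀ L₁ : List ℤ) (e : ℕ) (he : 0 < e) (hL : L₀ ≠ [])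
    (hid : ∀ s : ℚ, (L₀.map fun r : ℤ => s - r).prod - e = (L₁.map fun r : ℤ => s - r).prod)
    {a b c n κ : ℕ} {C : ℝ} {T : ℚ} (ha : a ∣ n) (hb : b ∣ n) (hc : c ∣ L₀.length * n)
    (h : ∀ t : ℚ, T < t → Real.log (max t.num.natAbs t.den : ℕ) ≤
      C * (radN a t.num.natAbs * radN b (t.den - t.num).natAbs * radN c t.den : ℕ) ^ κ) :
    ∃ (R : Finset ℚ) (T : ℚ) (κ : ℕ) (C : ℝ), ∀ t : ℚ, T < t →
      Real.log (max t.num.natAbs t.den : ℕ) ≤ C * (Rad n R t : ℝ) ^ κ := by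
  let R : Finset ℚ := ((L₀ ++ L₁).map fun r : ℤ => (r : ℚ)).toFinset
  obtain ⟨m, hm⟩ := R.finite_toSet.bddAbove
  obtain ⟨M, hM⟩ := exists_nat_gt m
  have mem : ∀ r ∈ L₀ ++ L₁, (r : ℚ) ∈ R := fun r hr => List.mem_toFinset.2 (List.mem_map_of_mem hr)
  refine ⟨R, M + 1 + e * |T|, 3 * κ, |Real.log (e + M + 1 : ℕ)| + |C| * (e : ℝ) ^ (3 * κ),
    fun s hs => ?_⟩
  have eT : 0 ≤ e * |T| := by positivity
  have s1 : ∀ r ∈ L₀ ++ L₁, 1 ≤ s - M ∧ s - M ≤ s - r := fun r hr =>
    ⟨by linarith, by linarith [hm (mem r hr)]⟩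
  have s0 : ∀ r ∈ L₀ ++ L₁, s - r ≠ 0 := fun r hr => by linarith [s1 r hr]
  have p0 : s - M ≤ (L₀.map fun r : ℤ => s - r).prod := by
    obtain ⟨r, L, rfl⟩ := List.exists_cons_of_ne_nil hL
    have := s1 r (by simp)
    rw [List.map_cons, List.prod_cons]
    refine this.2.trans (le_mul_of_one_le_right (by linarith) (one_le_lprod fun r' hr => ?_))
    linarith [s1 r' (by simp [hr])]
  have e0 : (0 : ℚ) < e := by exact_mod_cast he
  obtain ⟨t, ht⟩ : ∃ t : ℚ, (L₀.map fun r : ℤ => s - r).prod = e * t :=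
    ⟨_, (mul_div_cancel₀ _ e0.ne').symm⟩
  have t1 : |T| < t := lt_of_mul_lt_mul_left (a := (e : ℚ)) (by linarith) e0.le
  have t0 : 0 < t := (abs_nonneg T).trans_lt t1
  have v0 : ∀ p : ℕ, p.Prime → padicValRat p t + padicValNat p e =
      (L₀.map fun r : ℤ => padicValRat p (s - r)).sum := fun p hp => by
    haveI := Fact.mk hp
    rw [← val_prod p _ L₀ fun r hr => s0 r (by simp [hr]), ht, padicValRat.mul e0.ne' t0.ne',
      padicValRat.of_nat, add_comm]
  have v1 : ∀ p : ℕ, p.Prime → p ∣ s.den → padicValRat p t + padicValNat p e =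
      -(L₀.length * s.den.factorization p : ℕ) := fun p hp hd => by
    rw [v0 p hp, List.sum_eq_card_nsmul _ (-((s.den.factorization p : ℕ) : ℤ))]
    · simp
    intro x hx
    obtain ⟨r, hr, rfl⟩ := List.mem_map.1 hx
    rw [val_eq hp, Rat.sub_intCast_den, Nat.factorization_eq_zero_of_not_dvd
      ((not_dvd_both hp _).resolve_right (by simpa using hd))]
    simp
  have l0 := List.length_pos_iff.2 hL
  have dd : s.den ∣ t.den := (Nat.factorization_prime_le_iff_dvd s.den_nz t.den_nz).1 fun p hp => by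
    by_cases hd : p ∣ s.den
    · have := v1 p hp hd
      rw [val_eq hp] at this
      have := Nat.le_mul_of_pos_left (s.den.factorization p) l0
      omega
    · rw [Nat.factorization_eq_zero_of_not_dvd hd]; exact Nat.zero_le _
  refine fin_bound (E := e) (e := 3) ?_ (h t ((le_abs_self T).trans_lt t1)) ?_ (Rad_pos _ _ _)
  · have d1 := Nat.le_of_dvd t.den_pos dd
    have d0 := t.den_pos
    have sp : 0 < s := by linarith [show (0 : ℚ) ≤ M by positivity]
    have d2 : (s.num : ℚ) ≤ e * t.num + M * t.den := by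
      rw [← Rat.mul_den_eq_num, ← Rat.mul_den_eq_num, ← mul_assoc, ← add_mul]
      exact mul_le_mul (by linarith) (by exact_mod_cast d1) (by positivity) (by positivity)
    have d3 : s.num ≤ e * t.num + M * t.den := by exact_mod_cast d2
    rw [← Real.log_mul (by positivity) (by positivity)]
    refine Real.log_le_log (by have := s.den_pos; positivity) ?_
    rw [← Nat.cast_mul, Nat.cast_le]
    obtain ⟨u, hu⟩ := Int.eq_ofNat_of_zero_le (Rat.num_pos.2 t0).le
    obtain ⟨w, hw⟩ := Int.eq_ofNat_of_zero_le (Rat.num_pos.2 sp).le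
    rw [hu, hw] at d3 ⊢
    have d4 : w ≤ e * u + M * t.den := by exact_mod_cast d3
    simp only [Int.natAbs_natCast]
    have := le_max_left u t.den
    have := le_max_right u t.den
    refine max_le ?_ ?_ <;> nlinarith
  have M0 : 0 < e * Rad n R s := mul_pos he (Rad_pos _ _ _)
  have key : ∀ p : ℕ, p.Prime → ¬ p ∣ e * Rad n R s → padicValNat p e = 0 ∧
      n ∣ s.den.factorization p ∧ ∀ L : List ℤ, (∀ r ∈ L, r ∈ L₀ ++ L₁) →
        (n : ℤ) ∣ (L.map fun r : ℤ => padicValRat p (s - r)).sum := fun p hp hn => by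
    have := val_Rad hp fun c => hn (dvd_mul_of_dvd_right c _)
    refine ⟨padicValNat.eq_zero_of_not_dvd fun c => hn (dvd_mul_of_dvd_left c _), this.1,
      fun L hL => List.dvd_sum fun x hx => ?_⟩
    obtain ⟨r, hr, rfl⟩ := List.mem_map.1 hx
    exact this.2 r (mem r (hL r hr)) (s0 r (hL r hr)) (by simpa using hp.one_lt.ne')
  have r1 : radN a t.num.natAbs ∣ e * Rad n R s := radN_dvd fun p hp hn => by
    obtain ⟨k1, -, k3⟩ := key p hp hn
    have := v0 p hp
    rw [k1, Nat.cast_zero, add_zero] at this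
    exact ha.trans (dvd_num_fact hp (this ▸ k3 L₀ fun r hr => by simp [hr]))
  have r2 : radN b (t.den - t.num).natAbs ∣ e * Rad n R s := radN_dvd fun p hp hn => by
    haveI := Fact.mk hp
    obtain ⟨k1, -, k3⟩ := key p hp hn
    have k4 := k3 L₁ fun r hr => by simp [hr]
    have k5 : ∀ r ∈ L₁, s - r ≠ 0 := fun r hr => s0 r (by simp [hr])
    have k6 : (L₁.map fun r : ℤ => s - r).prod = -(e * (1 - t)) := by rw [← hid, ht]; ring
    have k7 : (L₁.map fun r : ℤ => s - r).prod ≠ 0 := lprod_ne k5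
    rw [← val_prod p _ L₁ k5, k6, padicValRat.neg, padicValRat.mul e0.ne'
      (fun c => k7 (by rw [k6, c]; simp)), padicValRat.of_nat, k1, Nat.cast_zero, zero_add] at k4
    rw [← num_one_sub]
    exact hb.trans (dvd_num_fact hp k4)
  have r3 : radN c t.den ∣ e * Rad n R s := radN_dvd fun p hp hn => by
    obtain ⟨k1, k2, -⟩ := key p hp hn
    refine hc.trans (dvd_den_fact hp fun c => ?_)
    by_cases hd : p ∣ s.den
    · have := v1 p hp hd
      rw [k1, Nat.cast_zero, add_zero] at this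
      rw [this, dvd_neg, Int.natCast_dvd_natCast]
      exact Nat.mul_dvd_mul_left _ k2
    · refine absurd c (not_lt.2 ?_)
      have := v0 p hp
      rw [k1, Nat.cast_zero, add_zero] at this
      rw [this]
      refine List.sum_nonneg fun x hx => ?_
      obtain ⟨r, hr, rfl⟩ := List.mem_map.1 hx
      rw [val_eq hp, Rat.sub_intCast_den, Nat.factorization_eq_zero_of_not_dvd hd]
      simp
  calc _ ≤ (e * Rad n R s) * (e * Rad n R s) * (e * Rad n R s) := by
        gcongr <;> exact Nat.le_of_dvd M0 ‹_›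
    _ = _ := by ring

theorem set_of_sig {a b c m n κ : ℕ} {C : ℝ} {T : ℚ} (hm : m ∈ [1, 3, 5, 7, 9]) (ha : a ∣ n)
    (hb : b ∣ n) (hc : c ∣ m * n) (h : ∀ t : ℚ, T < t → Real.log (max t.num.natAbs t.den : ℕ) ≤
      C * (radN a t.num.natAbs * radN b (t.den - t.num).natAbs * radN c t.den : ℕ) ^ κ) :
    ∃ (R : Finset ℚ) (T : ℚ) (κ : ℕ) (C : ℝ), ∀ t : ℚ, T < t →
      Real.log (max t.num.natAbs t.den : ℕ) ≤ C * (Rad n R t : ℝ) ^ κ := by
  simp only [List.mem_cons, List.not_mem_nil, or_false] at hm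
  rcases hm with rfl | rfl | rfl | rfl | rfl
  · exact set_of_poly [0] [1] 1 one_pos (by simp) (fun s => by simp) ha hb hc h
  · exact set_of_poly [0, 3, 3] [1, 1, 4] 4 (by norm_num) (by simp)
      (fun s => by simp; ring) ha hb hc h
  · exact set_of_poly [8, 7, -1, -5, -9] [-8, -7, 1, 5, 9] 5040 (by norm_num) (by simp)
      (fun s => by simp; ring) ha hb hc h
  · exact set_of_poly [-51, -33, -24, 7, 13, 38, 50] [51, 33, 24, -7, -13, -38, -50] 13967553600
      (by norm_num) (by simp) (fun s => by simp; ring) ha hb hc h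
  · exact set_of_poly [98, 82, 58, 34, -13, -16, -69, -75, -99] [-98, -82, -58, -34, 13, 16, 69, 75, 99]
      3377425033382400 (by norm_num) (by simp) (fun s => by simp; ring) ha hb hc h

theorem sig_of_abc {k K : ℕ} (h : ∀ a b : ℕ, 0 < a → 0 < b → a.Coprime b →
    a + b ≤ K * (∏ p ∈ (a * b * (a + b)).primeFactors, p) ^ k) :
    ∃ (j κ : ℕ) (C : ℝ), ∀ t : ℚ, 1 < t → Real.log (max t.num.natAbs t.den : ℕ) ≤ C *
      (radN (2 ^ j) t.num.natAbs * radN (2 ^ j) (t.den - t.num).natAbs *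
        radN (2 ^ j) t.den : ℕ) ^ κ := by
  obtain ⟨j, κ, C, h1⟩ := triples_of_abc h
  refine ⟨j, κ, |C|, fun t t1 => (good_of_triples h1 t).trans ?_⟩
  refine mul_le_mul (le_abs_self C) (pow_le_pow_left₀ (by positivity) ?_ _) (by positivity)
    (abs_nonneg C)
  have n1 : t.num.natAbs ≠ 0 := by simpa using (zero_lt_one.trans t1).ne'
  have n2 : (t.den - t.num).natAbs ≠ 0 := by
    rw [← num_one_sub]; simpa using sub_ne_zero.2 t1.ne
  rw [Int.natAbs_mul, Int.natAbs_mul, Int.natAbs_natCast]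
  exact_mod_cast (radN_mul_le _ (mul_ne_zero n1 n2) t.den_nz).trans
    (Nat.mul_le_mul_right _ (radN_mul_le _ n1 n2))

end Vale.Agent.P027G
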