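import Vale.Agent.P027G.Cl
import Vale.Agent.P027G.Dm
import Vale.Agent.P027G.Iface

/-! The relative density theorem. -/

set_option linter.all false

namespace Vale.Agent.P027G

open Finset Function Filter Topology
open scoped BigOperators

variable {k : ℕ}

/-- the form that vanishes on the coordinate `j` -/
def psi {R : Type} [CommRing R] (j : Fin k) : (Fin k → R) →+ R :=
  AddMonoidHom.mk' (fun x => ∑ i : Fin k, (((j : ℕ) : R) - (i : ℕ)) * x i) fun x y => by
    simp only [Pi.add_apply, mul_add, sum_add_distrib]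

lemma psi_apply {R : Type} [CommRing R] (j : Fin k) (x : Fin k → R) :
    psi j x = ∑ i : Fin k, (((j : ℕ) : R) - (i : ℕ)) * x i := rfl

lemma psi_update {R : Type} [CommRing R] (j : Fin k) (x : Fin k → R) (a : R) :
    psi j (update x j a) = psi j x := by
  rw [psi_apply, psi_apply]
  refine sum_congr rfl fun i _ => ?_
  by_cases c : i = j
  · simp [c]
  · rw [update_of_ne c]

section
variable {F : Type} [Field F] [Fintype F]
  (hF : ∀ i j : Fin k, i ≠ j → ((j : ℕ) : F) - (i : ℕ) ≠ 0)
include hF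

lemma psi_surj {i j : Fin k} (h : i ≠ j) : Surjective (psi (R := F) j) := fun z =>
  ⟨Pi.single i (z / ((j : ℕ) - (i : ℕ))), by
    rw [psi_apply, sum_eq_single i (fun l _ c => by simp [c]) (by simp), Pi.single_eq_same,
      mul_div_cancel₀ _ (hF i j h)]⟩

lemma cut_transfer (j₀ j : Fin k) {h : F → ℝ} {η : ℝ} (hc : CutE (psi j₀) j₀ h η) :
    CutE (psi j) j h η := fun A hA => by
  let π := Equiv.swap j j₀
  let c : Fin k → F := fun i =>
    if i = j then 1 else (((j₀ : ℕ) : F) - (π i : ℕ)) / (((j : ℕ) : F) - (i : ℕ))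
  have c0 : ∀ i, c i ≠ 0 := fun i => by
    simp only [c]
    split_ifs with e
    · exact one_ne_zero
    · exact div_ne_zero (hF _ _ fun e' => e (by simpa [π, Equiv.swap_apply_eq_iff] using e'))
        (hF _ _ e)
  let θ : (Fin k → F) →+ (Fin k → F) := AddMonoidHom.mk' (fun x i => c i * x (π i)) fun x y => by
    funext i; simp only [Pi.add_apply, mul_add]
  have θ1 : Surjective θ := fun y => ⟨fun l => y (π l) / c (π l), funext fun i => by
    simp [θ, π, mul_div_cancel₀ _ (c0 i)]⟩
  have θ2 : ∀ x, psi j (θ x) = psi j₀ x := fun x => by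
    rw [psi_apply, psi_apply, ← Equiv.sum_comp π (fun i => (((j₀ : ℕ) : F) - (i : ℕ)) * x i)]
    refine sum_congr rfl fun i _ => ?_
    show _ * (c i * x (π i)) = _
    simp only [c]
    split_ifs with e
    · simp [e, π]
    · rw [← mul_assoc, mul_div_cancel₀ _ (hF _ _ e)]
  have := hc (fun i x => A (π i) (θ x)) fun i => ⟨fun x => (hA _).1 _, fun x a => by
    have : θ (update x i a) = update (θ x) (π i) (c (π i) * a) := by
      funext l
      by_cases e : l = π i
      · subst e; simp [θ, π]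
      · rw [update_of_ne e]
        show c l * update x i a (π l) = c l * x (π l)
        rw [update_of_ne fun e' => e (by simp [← e', π])]
    simp only
    rw [this, (hA _).2]⟩
  rw [← expect_hom θ θ1]
  convert this using 2
  refine expect_congr rfl fun x _ => ?_
  rw [θ2]
  congr 1
  refine (prod_equiv π (fun i => ?_) fun _ _ => rfl).symm
  simp [π, Equiv.swap_apply_eq_iff]

end

lemma count_eq {R : Type} [CommRing R] [Fintype R] (hk : 2 ≤ k) (f : R → ℝ) :
    𝔼 x : Fin k → R, ∏ j, f (psi j x) = 𝔼 a, 𝔼 d, ∏ i ∈ range k, f (a + i * d) := by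
  obtain ⟨k, rfl⟩ := Nat.exists_eq_add_of_le' hk
  let Φ : (Fin (k + 2) → R) →+ R × R := AddMonoidHom.mk'
    (fun x => (-∑ i : Fin (k + 2), ((i : ℕ) : R) * x i, ∑ i, x i)) fun x y => by
      simp only [Pi.add_apply, mul_add, sum_add_distrib, Prod.mk_add_mk, neg_add]
  have := expect_hom Φ (fun p => ⟨Fin.cons (p.2 + p.1) (Fin.cons (-p.1) 0), by
    simp [Φ, Fin.sum_univ_succ]⟩) fun p => ∏ i ∈ range (k + 2), f (p.1 + i * p.2)
  rw [expect_pair] at this
  rw [← this]
  refine expect_congr rfl fun x _ => ?_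
  rw [← Fin.prod_univ_eq_prod_range (fun i => f ((Φ x).1 + i * (Φ x).2))]
  refine prod_congr rfl fun j _ => ?_
  simp only [Φ, psi_apply, AddMonoidHom.mk'_apply, sub_mul, sum_sub_distrib, mul_sum]
  congr 1
  ring

lemma lf1_of {N : ℕ → ℕ} [∀ n, NeZero (N n)] {ν : ∀ n, ZMod (N n) → ℝ} {ε : ℕ → ℝ}
    (h : ∀ n, LF (apForm k) (ν n) (ε n)) (hε : ∀ n, ε n ≤ 1 / (n + 1)) :
    Lf1 (G := fun n => ZMod (N n)) fun n (j : Fin k) x => ν n (psi j x) := fun T hT => by
  rw [← tendsto_sub_nhds_zero_iff]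
  refine squeeze_zero_norm (fun n => le_trans (le_of_eq ?_) ((h n (T.subtype _)).trans (hε n)))
    tendsto_one_div_add_atTop_nhds_zero_nat
  rw [Real.norm_eq_abs]
  congr 2
  refine expect_congr rfl fun y _ => ?_
  rw [← prod_subtype_of_mem (p := fun p : Fin k × (Fin k → Bool) => p.2 p.1 = false) _
    fun p hp => (mem_IS.1 (hT hp)).1]
  refine prod_congr rfl fun e _ => ?_
  simp only [psi_apply]
  rw [Fintype.sum_prod_type]
  congr 1
  refine sum_congr rfl fun i _ => ?_
  simp only [apForm, pt, Fintype.sum_bool]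
  cases e.1.2 i <;> simp

lemma cut_unif (j : Fin k) {η : ℝ} (hη : 0 < η) : ∃ ε : ℝ, 0 < ε ∧ ∀ (N : ℕ) [NeZero N]
    (ν : ZMod N → ℝ), LF (apForm k) ν ε → CutE (psi j) j (fun z => ν z - 1) η := by
  by_contra hn
  simp only [CutE] at hn
  push Not at hn
  choose N inst ν h1 A h2 h3 using fun n : ℕ => hn (1 / (n + 1)) (by positivity)
  have := slf_bd (lf1_of h1 fun _ => le_rfl) (fun n j x a => by simp only [psi_update])
    (j₀ := j) (S₀ := ∅) (S₁ := ∅) (h₀ := A) (h₁ := bd (fun n j x => ν n (psi j x)) ∅)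
    (fun n i x _ => by simpa [bd] using (h2 n i).1 x) (fun n i x _ => by simp [bd])
    (fun n i => (h2 n i).2) fun n i x a => by simp [bd]
  simp only [DD_one, mul_one] at this
  obtain ⟨n, hn⟩ := (((tendsto_zero_iff_abs_tendsto_zero _).1 this).eventually
    (gt_mem_nhds hη)).exists
  refine lt_asymm hn ((h3 n).trans_eq ?_)
  exact congrArg abs (exp_DD (G := fun n => ZMod (N n)) (H := fun x => ν n (psi j x) - 1)
    (fun x a => by simp only [psi_update]) A)

theorem rel (sz : SzW) : Rel := by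
  intro k δ hk hδ
  obtain ⟨c, hc, N₀, hs⟩ := sz k (δ / 2) (by positivity)
  let j₀ : Fin k := ⟨0, by omega⟩
  let j₁ : Fin k := ⟨1, by omega⟩
  choose η' p1 p2 using fun n : ℕ => dense_model (η := 1 / (n + 1)) (by positivity)
  choose ε p3 p4 using fun n => cut_unif j₀ (p1 n)
  by_contra hn
  push Not at hn
  choose N inst h1 ν f h2 h3 h4 h5 using fun n : ℕ => hn (c / 2) (by positivity)
    (min (ε n) (1 / (n + 1))) (lt_min (p3 n) (by positivity)) (max N₀ k)
  have hF : ∀ n (i j : Fin k), i ≠ j → ((j : ℕ) : ZMod (N n)) - (i : ℕ) ≠ 0 := fun n i j h e => by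
    rw [sub_eq_zero, ZMod.natCast_eq_natCast_iff'] at e
    have := le_of_max_le_right (h1 n)
    rw [Nat.mod_eq_of_lt (by omega), Nat.mod_eq_of_lt (by omega)] at e
    exact h (Fin.ext e.symm)
  have sj := fun n => psi_surj (hF n) (i := j₁) (j := j₀) (by simp [j₀, j₁])
  choose f' q1 q2 using fun n => p2 n (Fin k) (ZMod (N n)) (psi j₀) j₀ (sj n) (ν n) (f n) (h2 n)
    (p4 n (N n) (ν n) fun T => (h4 n T).trans (min_le_left _ _))
  have t0 : Tendsto (fun n : ℕ => 2 * (1 / (n + 1) : ℝ)) atTop (𝓝 0) := by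
    simpa using tendsto_one_div_add_atTop_nhds_zero_nat.const_mul (2 : ℝ)
  have := count (lf1_of h4 fun _ => min_le_right _ _) (fun n j x a => by simp only [psi_update])
    univ (fun n j x => f n (psi j x)) (fun n j x => f' n (psi j x))
    (fun n j x => by simpa [bd] using h2 n _) (fun n j x a => by simp only [psi_update])
    (fun n j => ⟨fun x => q1 n _, fun x a => by simp only [psi_update]⟩)
    fun j A hA => squeeze_zero_norm (fun n => cut_transfer (hF n) j₀ j (q2 n) (A n) (hA n)) t0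
  simp only [count_eq (show 2 ≤ k by omega)] at this
  obtain ⟨n, a1, a2⟩ := ((this.eventually (lt_mem_nhds (show -(c / 2) < 0 by linarith))).and
    (t0.eventually (gt_mem_nhds (show 0 < δ / 2 by positivity)))).exists
  have a3 := q2 n (fun _ _ => 1) fun i => ⟨by simp, fun _ _ => rfl⟩
  simp only [prod_const_one, mul_one] at a3
  rw [expect_hom _ (sj n) fun z => f n z - f' n z, expect_sub_distrib] at a3
  have := hs (N n) (le_of_max_le_left (h1 n)) (f' n) (q1 n) (by linarith [abs_le.1 a3, h3 n])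
  linarith [h5 n]

end Vale.Agent.P027G
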