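import Vale.Agent.P027G.Avg

/-! The strong linear forms estimate. -/

set_option linter.all false

namespace Vale.Agent.P027G

open Finset Function Filter Topology
open scoped BigOperators

variable {ι : Type} [Fintype ι] [DecidableEq ι]

/-- the vertex `ω` of the cube `y` -/
def pt {G : Type} (y : ι × Bool → G) (ω : ι → Bool) : ι → G := fun i => y (i, ω i)

lemma pt_ne {G : Type} (y : ι × Bool → G) {ω : ι → Bool} {i : ι} {b : Bool} (h : ω i ≠ b) (a : G) :
    pt (update y (i, b) a) ω = pt y ω := by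
  funext l
  refine update_of_ne (fun e => h ?_) _ _
  obtain ⟨rfl, e'⟩ := Prod.mk.inj e
  exact e'

lemma pt_eq {G : Type} (y : ι × Bool → G) {ω : ι → Bool} {i : ι} {b : Bool} (h : ω i = b) (a : G) :
    pt (update y (i, b) a) ω = update (pt y ω) i a := by
  funext l
  by_cases e : l = i
  · subst e; simp [pt, h]
  · rw [update_of_ne e]
    exact update_of_ne (fun e' => e (Prod.mk.inj e').1) _ _

lemma pt_swap {G : Type} (y : ι × Bool → G) {ω : ι → Bool} {i : ι} (h : ω i = false) :
    pt (update y (i, false) (y (i, true))) ω = pt y (update ω i true) := by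
  rw [pt_eq y h]
  funext l
  by_cases e : l = i
  · subst e; simp [pt]
  · simp [pt, update_of_ne e]

/-- the edges of the cube with the doubled coordinates `D` -/
def IS (D : Finset ι) : Finset (ι × (ι → Bool)) :=
  univ.filter fun p => p.2 p.1 = false ∧ ∀ i, p.2 i = true → i ∈ D

lemma mem_IS {D : Finset ι} {p : ι × (ι → Bool)} :
    p ∈ IS D ↔ p.2 p.1 = false ∧ ∀ i, p.2 i = true → i ∈ D := by simp [IS]

lemma IS_false {D : Finset ι} {p : ι × (ι → Bool)} (h : p ∈ IS D) {j : ι} (hj : j ∉ D) :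
    p.2 j = false := by
  by_contra e
  exact hj ((mem_IS.1 h).2 j (by simpa using e))

lemma IS_sub (D : Finset ι) : IS D ⊆ IS univ := fun p h =>
  mem_IS.2 ⟨(mem_IS.1 h).1, fun _ _ => mem_univ _⟩

lemma prod_IS_insert {D : Finset ι} {j : ι} (hj : j ∉ D) (F : ι × (ι → Bool) → ℝ) :
    ∏ p ∈ IS (insert j D), F p = (∏ p ∈ IS D with p.1 = j, F p) * (∏ p ∈ IS D with ¬ p.1 = j, F p)
      * ∏ p ∈ IS D with ¬ p.1 = j, F (p.1, update p.2 j true) := by
  rw [prod_filter_mul_prod_filter_not, ← prod_filter_mul_prod_filter_not _ (fun p => p.2 j = false)]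
  congr 1
  · refine prod_congr ?_ fun _ _ => rfl
    ext p
    simp only [mem_filter, mem_IS, mem_insert]
    refine ⟨fun h => ⟨h.1.1, fun i hi => (h.1.2 i hi).resolve_left ?_⟩,
      fun h => ⟨⟨h.1, fun i hi => Or.inr (h.2 i hi)⟩, IS_false (mem_IS.2 h) hj⟩⟩
    rintro rfl
    simp [h.2] at hi
  · symm
    refine prod_nbij' (fun p => (p.1, update p.2 j true)) (fun p => (p.1, update p.2 j false))
      ?_ ?_ ?_ ?_ fun _ _ => rfl
    · intro p h
      simp only [mem_filter, mem_IS, mem_insert] at h ⊢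
      refine ⟨⟨by rw [update_of_ne h.2, h.1.1], fun i hi => ?_⟩, by simp⟩
      by_cases e : i = j
      · exact Or.inl e
      · rw [update_of_ne e] at hi
        exact Or.inr (h.1.2 i hi)
    · intro p h
      simp only [mem_filter, mem_IS, mem_insert] at h ⊢
      have e0 : ¬ p.1 = j := fun e => h.2 (e ▸ h.1.1)
      refine ⟨⟨by rw [update_of_ne e0, h.1.1], fun i hi => ?_⟩, e0⟩
      by_cases e : i = j
      · subst e; simp at hi
      · rw [update_of_ne e] at hi
        exact (h.1.2 i hi).resolve_left e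
    · intro p h
      have := IS_false (mem_filter.1 h).1 hj
      simp [← this]
    · intro p h
      have : p.2 j = true := by simpa using (mem_filter.1 h).2
      simp [← this]

lemma prod_IS_empty (q : ι → Prop) [DecidablePred q] (F : ι × (ι → Bool) → ℝ) :
    ∏ p ∈ IS (∅ : Finset ι) with q p.1, F p = ∏ j with q j, F (j, fun _ => false) := by
  have e : ∀ p ∈ IS (∅ : Finset ι), p.2 = fun _ => false := fun p h =>
    funext fun i => IS_false h (notMem_empty i)
  refine prod_nbij' (fun p => p.1) (fun j => (j, fun _ => false)) ?_ ?_ ?_ (fun _ _ => rfl) ?_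
  · intro p h
    simpa using (mem_filter.1 h).2
  · intro j h
    simpa [mem_IS] using h
  · intro p h
    rw [← e p (mem_filter.1 h).1]
  · intro p h
    rw [← e p (mem_filter.1 h).1]

section
variable {G : Type} [AddCommGroup G] [Fintype G]

lemma two_copies (j₀ : ι) (h : ι → Bool → (ι → G) → ℝ) (h0 : Ind j₀ (h j₀ false)) :
    𝔼 y : ι × Bool → G, ∏ p ∈ IS {j₀}, h p.1 (p.2 j₀) (pt y p.2) =
      𝔼 x, h j₀ false x * (𝔼 a, ∏ j ∈ univ.erase j₀, h j false (update x j₀ a)) *
        𝔼 a, ∏ j ∈ univ.erase j₀, h j true (update x j₀ a) := by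
  have e : ∀ y : ι × Bool → G, ∏ p ∈ IS {j₀}, h p.1 (p.2 j₀) (pt y p.2) =
      h j₀ false (pt y fun _ => false) * (∏ j ∈ univ.erase j₀, h j false (pt y fun _ => false)) *
        ∏ j ∈ univ.erase j₀, h j true
          (pt (update y (j₀, false) (y (j₀, true))) fun _ => false) := fun y => by
    rw [← insert_empty_eq, prod_IS_insert (notMem_empty j₀), prod_IS_empty (fun j => j = j₀),
      prod_IS_empty (fun j => ¬ j = j₀), prod_IS_empty (fun j => ¬ j = j₀)
        (fun p => h p.1 (update p.2 j₀ true j₀) (pt y (update p.2 j₀ true))),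
      pt_swap y rfl, filter_eq', filter_ne']
    simp
  simp only [e]
  rw [dup (c₀ := (j₀, false)) (c₁ := (j₀, true)) (by simp)
    (H := fun y => h j₀ false (pt y fun _ => false))
    (B := fun y => ∏ j ∈ univ.erase j₀, h j false (pt y fun _ => false))
    (B' := fun y => ∏ j ∈ univ.erase j₀, h j true (pt y fun _ => false))
    (fun y a => by simp only; rw [pt_eq y (ω := fun _ => false) rfl, h0])
    (fun y a => by simp only; rw [pt_ne y (by simp)])
    (fun y a => by simp only; rw [pt_ne y (by simp)])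
    (fun y a => by simp only; rw [pt_ne y (by simp)])]
  simp only [pt_eq _ (ω := fun _ => false) rfl]
  exact expect_comp (fun i : ι => (i, false)) (fun _ _ e => (Prod.mk.inj e).1)
    (fun x => h j₀ false x * (𝔼 a, ∏ j ∈ univ.erase j₀, h j false (update x j₀ a)) *
        𝔼 a, ∏ j ∈ univ.erase j₀, h j true (update x j₀ a))

/-- the average after doubling the coordinates in `D` -/
noncomputable def QD (j₀ : ι) (μ g : ι → Bool → (ι → G) → ℝ) (D : Finset ι) : ℝ :=
  𝔼 y : ι × Bool → G, ∏ p ∈ IS D, (if p.1 = j₀ then μ p.1 (p.2 j₀) (pt y p.2) - 1 else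
    if p.1 ∈ D then μ p.1 (p.2 j₀) (pt y p.2) else g p.1 (p.2 j₀) (pt y p.2))

lemma QD_step {j₀ j : ι} {μ g : ι → Bool → (ι → G) → ℝ} {D : Finset ι} (hj : j ∉ D) (h0 : j ≠ j₀)
    (hg : ∀ b x, 0 ≤ g j b x ∧ g j b x ≤ μ j b x) (ig : ∀ b, Ind j (g j b))
    (iμ : ∀ b, Ind j (μ j b)) : QD j₀ μ g D ^ 2 ≤
      (𝔼 y : ι × Bool → G, ∏ p ∈ IS D with p.1 = j, μ p.1 (p.2 j₀) (pt y p.2)) *
        QD j₀ μ g (insert j D) := by
  have f := fun p (h : p ∈ (IS D).filter fun p => p.1 = j) => IS_false (mem_filter.1 h).1 hj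
  have f' := fun p (h : p ∈ (IS D).filter fun p => ¬ p.1 = j) => IS_false (mem_filter.1 h).1 hj
  have := cs_step (c₀ := (j, false)) (c₁ := (j, true)) (by simp)
    (A := fun y : ι × Bool → G => ∏ p ∈ IS D with p.1 = j, g j (p.2 j₀) (pt y p.2))
    (A' := fun y => ∏ p ∈ IS D with p.1 = j, μ j (p.2 j₀) (pt y p.2))
    (B := fun y => ∏ p ∈ IS D with ¬ p.1 = j, (if p.1 = j₀ then μ p.1 (p.2 j₀) (pt y p.2) - 1 else
      if p.1 ∈ D then μ p.1 (p.2 j₀) (pt y p.2) else g p.1 (p.2 j₀) (pt y p.2)))
    (fun y => prod_nonneg fun p _ => (hg _ _).1)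
    (fun y => prod_le_prod (fun p _ => (hg _ _).1) fun p _ => (hg _ _).2)
    (fun y a => prod_congr rfl fun p h => by rw [pt_eq y (f p h), ig])
    (fun y a => prod_congr rfl fun p h => by rw [pt_eq y (f p h), iμ])
    (fun y a => prod_congr rfl fun p h => by rw [pt_ne y (by simp [f p h])])
    (fun y a => prod_congr rfl fun p h => by rw [pt_ne y (by simp [f' p h])])
  convert this using 2
  · refine expect_congr rfl fun y _ => ?_
    rw [← prod_filter_mul_prod_filter_not _ (fun p => p.1 = j)]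
    congr 1
    refine prod_congr rfl fun p h => ?_
    rw [(mem_filter.1 h).2, if_neg h0, if_neg hj]
  · exact expect_congr rfl fun y _ => prod_congr rfl fun p h => by rw [(mem_filter.1 h).2]
  · refine expect_congr rfl fun y _ => ?_
    rw [prod_IS_insert hj]
    congr 1
    congr 1
    · refine prod_congr rfl fun p h => ?_
      rw [(mem_filter.1 h).2, if_neg h0, if_pos (mem_insert_self _ _)]
    · refine prod_congr rfl fun p h => ?_
      simp only [mem_insert, (mem_filter.1 h).2, false_or]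
    · refine prod_congr rfl fun p h => ?_
      simp only [mem_insert, (mem_filter.1 h).2, false_or, pt_swap y (f' p h),
        update_of_ne h0.symm]

end

lemma tendsto_of_sq {f g : ℕ → ℝ} (h : ∀ n, f n ^ 2 ≤ g n) (hg : Tendsto g atTop (𝓝 0)) :
    Tendsto f atTop (𝓝 0) := by
  have := hg.sqrt
  rw [Real.sqrt_zero] at this
  exact squeeze_zero_norm (fun n => Real.abs_le_sqrt (h n)) this

lemma alt {P : Type} [DecidableEq P] {Y : ℕ → Type} [∀ n, Fintype (Y n)] {I : Finset P}
    {u : ∀ n, P → Y n → ℝ}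
    (h : ∀ T ⊆ I, Tendsto (fun n => 𝔼 y, ∏ p ∈ T, u n p y) atTop (𝓝 1)) (I₀ : Finset P) :
    ∀ I₁, I₀ ⊆ I → I₁ ⊆ I → Disjoint I₀ I₁ → Tendsto (fun n => 𝔼 y, (∏ p ∈ I₀, (u n p y - 1)) *
      ∏ p ∈ I₁, u n p y) atTop (𝓝 (0 ^ I₀.card)) := by
  induction I₀ using Finset.induction_on with
  | empty => intro I₁ _ h1 _; simpa using h I₁ h1
  | insert p I₀ hp ih =>
    intro I₁ h0 h1 hd
    rw [insert_subset_iff] at h0
    rw [disjoint_insert_left] at hd
    have := (ih (insert p I₁) h0.2 (insert_subset h0.1 h1) (disjoint_insert_right.2 ⟨hp, hd.2⟩)).sub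
      (ih I₁ h0.2 h1 hd.2)
    rw [card_insert_of_notMem hp, pow_succ, mul_zero]
    rw [sub_self] at this
    refine this.congr fun n => ?_
    rw [← expect_sub_distrib]
    refine expect_congr rfl fun y _ => ?_
    rw [prod_insert hp, prod_insert hd.1]
    ring

variable {G : ℕ → Type} [∀ n, AddCommGroup (G n)] [∀ n, Fintype (G n)]

/-- the linear forms condition along a sequence of groups -/
def Lfc (j₀ : ι) (μ : ∀ n, ι → Bool → (ι → G n) → ℝ) : Prop :=
  ∀ T ⊆ IS univ, Tendsto (fun n => 𝔼 y : ι × Bool → G n, ∏ p ∈ T, μ n p.1 (p.2 j₀) (pt y p.2))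
    atTop (𝓝 1)

theorem slf {j₀ : ι} {μ g : ∀ n, ι → Bool → (ι → G n) → ℝ} (hμ : Lfc j₀ μ)
    (hg : ∀ n j b x, j ≠ j₀ → 0 ≤ g n j b x ∧ g n j b x ≤ μ n j b x)
    (ig : ∀ n j b, Ind j (g n j b)) (iμ : ∀ n j b, Ind j (μ n j b)) :
    Tendsto (fun n => 𝔼 x, (μ n j₀ false x - 1) *
      (𝔼 a, ∏ j ∈ univ.erase j₀, g n j false (update x j₀ a)) *
        𝔼 a, ∏ j ∈ univ.erase j₀, g n j true (update x j₀ a)) atTop (𝓝 0) := by
  have key : ∀ E : Finset ι, j₀ ∉ E → Tendsto (fun n => QD j₀ (μ n) (g n) Eᶜ) atTop (𝓝 0) := by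
    intro E
    induction E using Finset.induction_on with
    | empty =>
      intro _
      have := alt hμ ((IS univ).filter fun p => p.1 = j₀) ((IS univ).filter fun p => ¬ p.1 = j₀)
        (filter_subset _ _) (filter_subset _ _) (disjoint_filter_filter_not _ _ _)
      rw [zero_pow (card_ne_zero.2 ⟨(j₀, fun _ => false), by simp [mem_IS]⟩)] at this
      refine this.congr fun n => expect_congr rfl fun y _ => ?_
      rw [compl_empty, prod_ite]
      simp
    | insert j E hj ih =>
      intro h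
      rw [mem_insert, not_or] at h
      have e : insert j (insert j E)ᶜ = Eᶜ := by
        ext i
        by_cases e : i = j
        · simp [e, hj]
        · simp [e]
      have := (hμ ((IS (insert j E)ᶜ).filter fun p => p.1 = j)
        ((filter_subset _ _).trans (IS_sub _))).mul (ih h.2)
      rw [mul_zero, ← e] at this
      exact tendsto_of_sq (fun n => QD_step (by simp) (Ne.symm h.1)
        (fun b x => hg n j b x (Ne.symm h.1)) (ig n j) (iμ n j)) this
  refine (key (univ.erase j₀) (by simp)).congr fun n => ?_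
  have e : (univ.erase j₀)ᶜ = {j₀} := by ext i; simp
  have := two_copies j₀ (fun j b x => if j = j₀ then μ n j b x - 1 else g n j b x)
    (fun y a => by simp only [if_true]; rw [iμ])
  rw [e]
  convert this using 1
  · refine expect_congr rfl fun y _ => prod_congr rfl fun p _ => ?_
    by_cases e : p.1 = j₀ <;> simp [e]
  · refine expect_congr rfl fun y _ => ?_
    simp only [if_true]
    congr 1
    congr 1
    all_goals
      refine expect_congr rfl fun a _ => prod_congr rfl fun j hj => ?_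
      rw [if_neg (mem_erase.1 hj).1]

end Vale.Agent.P027G
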