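import Vale.Agent.P027G.SzC
import Vale.Agent.P027G.Iface

/-!
# The density theorem for progressions
-/

set_option linter.all false

open Set Filter Topology
open scoped BigOperators

noncomputable section

namespace Vale.Agent.P027G.Szp

theorem expect_hom {G H : Type} [AddCommGroup G] [AddCommGroup H] [Fintype G] [Fintype H]
    (ψ : G →+ H) (hψ : Function.Surjective ψ) (F : H → ℝ) : 𝔼 x, F (ψ x) = 𝔼 y, F y := by
  choose s hs using hψ
  have h1 : ∀ y, 𝔼 x, F (ψ x) = 𝔼 x, F (ψ x + y) := fun y =>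
    (Fintype.expect_equiv (Equiv.addRight (s y)) _ _ fun x => by simp [hs]).symm
  have h2 : ∀ z, 𝔼 y, F (z + y) = 𝔼 y, F y := fun z =>
    Fintype.expect_equiv (Equiv.addLeft z) _ _ fun x => rfl
  calc 𝔼 x, F (ψ x) = 𝔼 y : H, 𝔼 x, F (ψ x + y) := by simp only [← h1, Fintype.expect_const]
    _ = _ := by
      rw [Finset.expect_comm]
      simp only [h2, Fintype.expect_const]

theorem ind_nonneg {Ω : Type} (s : Set Ω) (x : Ω) : 0 ≤ ind s x := by
  by_cases h : x ∈ s <;> simp [ind, h]

theorem ind_le {Ω Ω' : Type} {s : Set Ω} {t : Set Ω'} {x : Ω} {y : Ω'} (h : x ∈ s → y ∈ t) :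
    ind s x ≤ ind t y := by
  by_cases h' : x ∈ s
  · simp [ind, h', h h']
  · simpa [ind, h'] using ind_nonneg t y

/-- progressions inside a set -/
def AP {R : Type} [CommRing R] (k : ℕ) (A : Set R) : Set (R × R) :=
  {p | ∀ i < k, p.1 + (i : R) * p.2 ∈ A}

section ring

variable {R : Type} [CommRing R] {k : ℕ}

/-- the sum of the coordinates -/
def sm : (Fin (k + 2) → R) →+ R where
  toFun x := ∑ i, x i
  map_zero' := by simp
  map_add' x y := by simp [Finset.sum_add_distrib]

/-- the linear forms -/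
def LL (j : ℕ) : (Fin (k + 2) → R) →+ R where
  toFun x := ∑ i : Fin (k + 2), ((j : R) - ((i : ℕ) : R)) * x i
  map_zero' := by simp
  map_add' x y := by simp [mul_add, Finset.sum_add_distrib]

theorem LL_eq (j : ℕ) (x : Fin (k + 2) → R) : LL j x = LL 0 x + j * sm x := by
  show ∑ i : Fin (k + 2), _ = ∑ i : Fin (k + 2), _ + _ * ∑ i : Fin (k + 2), _
  rw [Finset.mul_sum, ← Finset.sum_add_distrib]
  exact Finset.sum_congr rfl fun i _ => by push_cast; ring

theorem sm_single (j : Fin (k + 2)) (v : R) : sm (Pi.single j v : Fin (k + 2) → R) = v := by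
  show ∑ i : Fin (k + 2), _ = _
  simp

theorem LL_single (j : Fin (k + 2)) (v : R) :
    LL 0 (Pi.single j v : Fin (k + 2) → R) = -((j : ℕ) : R) * v := by
  show ∑ i : Fin (k + 2), _ = _
  rw [Finset.sum_eq_single j (fun i _ h => by simp [h]) (by simp)]
  simp

/-- the projection to the hyperplane -/
def pr : (Fin (k + 2) → R) →+ (Fin (k + 2) → R) :=
  AddMonoidHom.id _ - (AddMonoidHom.single (fun _ => R) 0).comp sm

theorem pr_apply (x : Fin (k + 2) → R) : pr x = x - Pi.single 0 (sm x) := rfl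

theorem pr_expect [Fintype R] (j : Fin (k + 2)) (F : (Fin (k + 2) → R) → ℝ)
    (hF : ∀ x y, (∀ i, i ≠ j → x i = y i) → F x = F y) : 𝔼 t, F (pr t) = 𝔼 x, F x := by
  rw [← expect_hom (pr.coprod (AddMonoidHom.single (fun _ => R) j)) (fun x =>
    ⟨(x - Pi.single j (sm x), sm x), by simp [pr_apply, sm_single]⟩) F,
    ← expect_hom (AddMonoidHom.fst _ R) Prod.fst_surjective fun t => F (pr t)]
  refine Finset.expect_congr rfl fun p _ => hF _ _ fun i hi => ?_
  simp [hi]

end ring

theorem core (k : ℕ) (δ : ℝ) (hδ : 0 < δ) : ∃ c > 0, ∀ (R : Type) [CommRing R]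
    [Fintype R] (A : Set R), δ ≤ 𝔼 x, ind A x → c ≤ 𝔼 p, ind (AP k A) p := by
  by_contra h
  push Not at h
  choose R hR hF A h1 h2 using fun n : ℕ => h (1 / ((n : ℝ) + 1)) (by positivity)
  haveI : ∀ n, Nonempty (R n) := fun n => ⟨0⟩
  have hU : UU ≤ atTop := Nat.cofinite_eq_atTop ▸ hyperfilter_le_cofinite
  let B : Fin (k + 2) → Set (Σ n, Fin (k + 2) → R n) := fun j => {p | LL j p.2 ∈ A p.1}
  have h3 := seq_removal (V := R) (fun n => Fin (k + 2) → R n) (fun n t => pr t)
    (fun n j F hF => ?_) B (fun j n x y h => ?_) ?_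
  · refine (not_le.2 hδ) (ge_of_tendsto' h3 fun n => (h1 n).trans ?_)
    rw [← expect_hom (LL (k := k) (R := R n) 0)
      (fun a => ⟨Pi.single 1 (-a), by simp [LL_single]⟩) (ind (A n))]
    refine Finset.expect_le_expect fun t _ => ind_le fun ht => mem_iInter.2 fun j => ?_
    show LL j (pr t) ∈ A n
    rw [LL_eq, pr_apply, map_sub, map_sub, sm_single, LL_single]
    simpa using ht
  · exact pr_expect j F hF
  · show ((∑ i : Fin (k + 2), _) ∈ A n) = ((∑ i : Fin (k + 2), _) ∈ A n)
    refine congrArg (· ∈ A n) (Finset.sum_congr rfl fun i _ => ?_)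
    by_cases hi : i = j
    · simp [hi]
    · exact congrArg _ (h i (by simp [hi]))
  · refine tendsto_of_tendsto_of_tendsto_of_le_of_le tendsto_const_nhds
      (tendsto_one_div_add_atTop_nhds_zero_nat.mono_left hU)
      (fun n => Finset.expect_nonneg fun x _ => ind_nonneg _ _) fun n => le_trans ?_ (h2 n).le
    rw [← expect_hom ((LL (k := k) (R := R n) 0).prod sm) (fun p => ⟨Pi.single 0 (p.2 + p.1) +
      Pi.single 1 (-p.1), by simp [LL_single, sm_single]⟩) (ind (AP k (A n)))]
    refine Finset.expect_le_expect fun t _ => ind_le fun ht i hi => ?_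
    have : LL i t ∈ A n := mem_iInter.1 ht ⟨i, by omega⟩
    rwa [LL_eq] at this

end Vale.Agent.P027G.Szp

namespace Vale.Agent.P027G

open Szp

theorem szw : SzW := by
  intro k δ hδ
  obtain ⟨c, hc, h⟩ := core k (δ / 2) (half_pos hδ)
  refine ⟨(δ / 2) ^ k * c, by positivity, 0, fun N _ _ f hf h1 => ?_⟩
  have h2 : 𝔼 x, f x ≤ 𝔼 x, (δ / 2 + ind {x | δ / 2 ≤ f x} x) :=
    Finset.expect_le_expect fun x _ => by
      by_cases hx : δ / 2 ≤ f x
      · simp only [ind, indicator_of_mem (show x ∈ {x | δ / 2 ≤ f x} from hx)]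
        linarith [(hf x).2]
      · linarith [ind_nonneg {x | δ / 2 ≤ f x} x]
  rw [Finset.expect_add_distrib, Fintype.expect_const] at h2
  have h3 := h (ZMod N) {x | δ / 2 ≤ f x} (by linarith)
  rw [← Finset.expect_product' (f := fun x d : ZMod N => ∏ i ∈ Finset.range k, f (x + i * d)),
    Finset.univ_product_univ]
  refine (mul_le_mul_of_nonneg_left h3 (by positivity)).trans ?_
  rw [Finset.mul_expect]
  refine Finset.expect_le_expect fun p _ => ?_
  by_cases hp : p ∈ AP k {x | δ / 2 ≤ f x}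
  · simp only [ind, indicator_of_mem hp, mul_one]
    calc (δ / 2) ^ k = ∏ i ∈ Finset.range k, δ / 2 := by
          rw [Finset.prod_const, Finset.card_range]
      _ ≤ _ := Finset.prod_le_prod (fun _ _ => by positivity) fun i hi =>
        hp i (Finset.mem_range.1 hi)
  · simp only [ind, indicator_of_notMem hp, mul_zero]
    exact Finset.prod_nonneg fun i _ => (hf _).1

theorem sz : Sz := by
  intro k δ hδ
  obtain ⟨c, hc, h⟩ := core (k + 2) (δ / (k + 2)) (by positivity)
  obtain ⟨N₀, hN₀⟩ := exists_nat_gt (1 / c)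
  refine ⟨N₀ + 1, fun N hN A hA h1 => ?_⟩
  have hA' : ∀ u ∈ A, 1 ≤ u ∧ u ≤ N := fun u hu => Finset.mem_Icc.1 (hA hu)
  haveI : NeZero ((k + 2) * N) := ⟨Nat.mul_ne_zero (by omega) (by omega)⟩
  have hN' : (0 : ℝ) < N := by exact_mod_cast (by omega : 0 < N)
  have key : ∀ z : ℤ, (z : ZMod ((k + 2) * N)) = 0 → |z| < (k + 2) * N → z = 0 := fun z h1 h2 =>
    Int.eq_zero_of_abs_lt_dvd ((ZMod.intCast_zmod_eq_zero_iff_dvd _ _).1 h1) (by exact_mod_cast h2)
  have hind : ∀ s : Finset (ZMod ((k + 2) * N)), 𝔼 x, ind (s : Set (ZMod ((k + 2) * N))) x =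
      s.card / ((k + 2) * N) := fun s => by
    rw [Fintype.expect_eq_sum_div_card]
    simp [ind, indicator_apply]
  have h2 := h (ZMod ((k + 2) * N)) (A.image (↑) : Finset (ZMod ((k + 2) * N))) (by
    rw [hind, Finset.card_image_of_injOn, div_le_div_iff₀ (by positivity) (by positivity)]
    · nlinarith [mul_le_mul_of_nonneg_right h1 (by positivity : (0 : ℝ) ≤ k + 2)]
    · intro u hu v hv huv
      have := key (u - v) (by simpa [sub_eq_zero] using huv) (by
        have := hA' u hu
        have := hA' v hv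
        rw [abs_lt]
        constructor <;> nlinarith)
      omega)
  obtain ⟨p, hp, hd⟩ : ∃ p ∈ AP (k + 2) ((A.image (↑) : Finset (ZMod ((k + 2) * N))) :
      Set (ZMod ((k + 2) * N))), p.2 ≠ 0 := by
    by_contra h3
    push Not at h3
    have h4 := h2.trans (Finset.expect_le_expect fun p _ => ind_le
      (t := (({0} : Finset (ZMod ((k + 2) * N))) : Set _)) (y := AddMonoidHom.snd _ _ p)
      fun hp => by simpa using h3 p hp)
    rw [expect_hom _ Prod.snd_surjective, hind, le_div_iff₀ (by positivity)] at h4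
    rw [div_lt_iff₀ hc] at hN₀
    have : (N₀ : ℝ) + 1 ≤ N := by exact_mod_cast hN
    simp only [Finset.card_singleton, Nat.cast_one] at h4
    nlinarith [mul_pos hc hN', mul_nonneg (mul_pos hc hN').le (Nat.cast_nonneg (α := ℝ) k)]
  have h3 : ∀ i, ∃ u : ℕ, i < k + 2 → u ∈ A ∧ (u : ZMod ((k + 2) * N)) = p.1 + i * p.2 := fun i => by
    by_cases hi : i < k + 2
    · obtain ⟨u, hu, h⟩ := Finset.mem_image.1 (hp i hi)
      exact ⟨u, fun _ => ⟨hu, h⟩⟩
    · exact ⟨0, fun h => absurd h hi⟩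
  choose u hu using h3
  have h4 : ∀ i ≤ k, (u i : ℤ) = u 0 + i * (u 1 - u 0) := fun i hi => by
    have a0 := hu 0 (by omega)
    have a1 := hu 1 (by omega)
    have ai := hu i (by omega)
    have b0 := hA' _ a0.1
    have b1 := hA' _ a1.1
    have bi := hA' _ ai.1
    refine sub_eq_zero.1 (key _ (by simp [a0.2, a1.2, ai.2]) ?_)
    have c1 : |(i : ℤ) * (u 1 - u 0)| ≤ k * N := by
      rw [abs_mul]
      exact mul_le_mul (by rw [abs_le]; omega) (by rw [abs_le]; omega) (abs_nonneg _) (by omega)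
    rw [abs_le] at c1
    rw [abs_lt]
    constructor <;> nlinarith [c1.1, c1.2]
  have h5 : u 1 ≠ u 0 := fun h => hd (by
    have := (hu 1 (by omega)).2
    rw [h, (hu 0 (by omega)).2] at this
    simpa using this)
  rcases lt_or_gt_of_ne h5 with h6 | h6
  · refine ⟨u k, u 0 - u 1, by omega, fun i hi => ?_⟩
    convert (hu (k - i) (by omega)).1 using 1
    zify [h6.le]
    rw [h4 k le_rfl, h4 (k - i) (by omega)]
    push_cast [hi.le]
    ring
  · refine ⟨u 0, u 1 - u 0, by omega, fun i hi => ?_⟩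
    convert (hu i (by omega)).1 using 1
    zify [h6.le]
    rw [h4 i hi.le]

end Vale.Agent.P027G
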