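import Mathlib

/-!
# Relative independence of sigma algebras: basic lemmas for the infinitary removal lemma
-/

set_option linter.all false

open MeasureTheory MeasurableSpace Set Filter
open scoped symmDiff

noncomputable section

namespace Vale.Agent.P027G.Szp

variable {Ω : Type} {m m₁ m₂ m' M m0 : MeasurableSpace Ω} {μ : Measure Ω} {f : Ω → ℝ}

/-- `f` is orthogonal to the sigma algebra `m` -/
def Ort (μ : Measure[m0] Ω) (m : MeasurableSpace Ω) (f : Ω → ℝ) : Prop :=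
  ∀ s, MeasurableSet[m] s → ∫ x in s, f x ∂μ = 0

/-- `m₁` and `M` are relatively independent over `m'` -/
def RI (μ : Measure[m0] Ω) (m₁ M m' : MeasurableSpace Ω) : Prop :=
  ∀ f : Ω → ℝ, MemLp f 2 μ → StronglyMeasurable[m₁] f → Ort μ m' f → Ort μ M f

/-- indicator functions -/
def ind (s : Set Ω) : Ω → ℝ := s.indicator fun _ => 1

theorem Ort.mono (h : Ort μ M f) (hm : m ≤ M) : Ort μ m f := fun s hs => h s (hm s hs)

theorem sm_ind {s : Set Ω} (hs : MeasurableSet[m] s) : StronglyMeasurable[m] (ind s) :=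
  stronglyMeasurable_const.indicator hs

theorem int_ind {s : Set Ω} (hs : MeasurableSet s) (W : Set Ω) :
    ∫ x in W, ind s x ∂μ = μ.real (s ∩ W) := by
  rw [ind, integral_indicator hs, setIntegral_const, smul_eq_mul, mul_one, Measure.real,
    Measure.restrict_apply hs]
  rfl

theorem int_ind_mul {s : Set Ω} (hs : MeasurableSet s) (f : Ω → ℝ) :
    ∫ x, ind s x * f x ∂μ = ∫ x in s, f x ∂μ := by
  rw [← integral_indicator hs]
  congr 1
  funext x
  by_cases h : x ∈ s <;> simp [ind, h]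

theorem ort_gen {C : Set (Set Ω)} (hm : generateFrom C ≤ m0) (hC : IsPiSystem C)
    (hf : Integrable f μ) (h0 : ∫ x, f x ∂μ = 0) (h : ∀ s ∈ C, ∫ x in s, f x ∂μ = 0) :
    Ort μ (generateFrom C) f := by
  intro s hs
  induction s, hs using induction_on_inter (m := generateFrom C) rfl hC with
  | empty => simp
  | basic t ht => exact h t ht
  | compl t ht ih => rw [setIntegral_compl (hm t ht) hf, ih, h0, sub_zero]
  | iUnion g hd hg ih =>
    rw [integral_iUnion (fun i => hm _ (hg i)) hd hf.integrableOn]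
    simp [ih]

theorem ort_sup (h₁ : m₁ ≤ m0) (h₂ : m₂ ≤ m0) (hf : Integrable f μ)
    (h : ∀ s t, MeasurableSet[m₁] s → MeasurableSet[m₂] t → ∫ x in s ∩ t, f x ∂μ = 0) :
    Ort μ (m₁ ⊔ m₂) f := by
  refine (ort_gen (C := {u | ∃ s t, MeasurableSet[m₁] s ∧ MeasurableSet[m₂] t ∧ u = s ∩ t})
    (generateFrom_le ?_) ?_ hf ?_ ?_).mono (sup_le (fun s hs => measurableSet_generateFrom ?_)
      fun t ht => measurableSet_generateFrom ?_)
  · rintro _ ⟨s, t, hs, ht, rfl⟩
    exact (h₁ s hs).inter (h₂ t ht)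
  · rintro _ ⟨s, t, hs, ht, rfl⟩ _ ⟨s', t', hs', ht', rfl⟩ -
    exact ⟨s ∩ s', t ∩ t', hs.inter hs', ht.inter ht', inter_inter_inter_comm _ _ _ _⟩
  · simpa using h univ univ MeasurableSet.univ MeasurableSet.univ
  · rintro _ ⟨s, t, hs, ht, rfl⟩
    exact h s t hs ht
  · exact ⟨s, univ, hs, MeasurableSet.univ, (inter_univ s).symm⟩
  · exact ⟨univ, t, MeasurableSet.univ, ht, (univ_inter t).symm⟩

variable [IsFiniteMeasure μ]

theorem lp_ind {s : Set Ω} (hs : MeasurableSet s) : MemLp (ind s) 2 μ :=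
  memLp_indicator_const 2 hs 1 (Or.inr (measure_ne_top _ _))

theorem Ort.mul (h : Ort μ m f) (hm : m ≤ m0) (hf : MemLp f 2 μ) {φ : Ω → ℝ} (hφ : MemLp φ 2 μ)
    (hφ' : StronglyMeasurable[m] φ) : ∫ x, φ x * f x ∂μ = 0 := by
  have h1 : (0 : Ω → ℝ) =ᵐ[μ] μ[f | m] :=
    ae_eq_condExp_of_forall_setIntegral_eq hm (hf.integrable one_le_two)
      (fun s _ _ => (integrable_zero _ _ _).integrableOn)
      (fun s hs _ => by rw [h s hs]; simp) aestronglyMeasurable_const
  have h2 := condExp_mul_of_stronglyMeasurable_left hφ' (hφ.integrable_mul hf)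
    (hf.integrable one_le_two)
  have h3 : μ[φ * f | m] =ᵐ[μ] 0 := by
    filter_upwards [h1, h2] with x a b
    rw [b, Pi.mul_apply, ← a]
    simp
  calc ∫ x, φ x * f x ∂μ = ∫ x, (μ[φ * f | m]) x ∂μ := (integral_condExp hm).symm
    _ = 0 := by rw [integral_congr_ae h3]; simp

theorem ort_sub (hm : m ≤ m0) (hf : MemLp f 2 μ) : Ort μ m (f - μ[f | m]) := by
  intro s hs
  simp only [Pi.sub_apply]
  rw [integral_sub (hf.integrable one_le_two).integrableOn integrable_condExp.integrableOn,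
    setIntegral_condExp hm (hf.integrable one_le_two) hs, sub_self]

theorem RI.ort (h : RI μ m₁ M m') (h1 : m' ≤ m₁) (h2 : m' ≤ m0) (hf : MemLp f 2 μ)
    (hf' : StronglyMeasurable[m₁] f) : Ort μ M (f - μ[f | m']) :=
  h _ (hf.sub (hf.condExp one_le_two)) (hf'.sub (stronglyMeasurable_condExp.mono h1))
    (ort_sub h2 hf)

/-- a Hahn decomposition -/
theorem RI.hahn (h : RI μ m₁ M m') (h1 : m' ≤ m₁) (h2 : m' ≤ M) (h3 : M ≤ m0) (hf : MemLp f 2 μ)
    (hf' : StronglyMeasurable[m₁] f) : ∃ D, MeasurableSet[m'] D ∧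
      (∀ W, MeasurableSet[M] W → W ⊆ D → 0 ≤ ∫ x in W, f x ∂μ ∧ (∫ x in W, f x ∂μ ≤ 0 → μ W = 0)) ∧
      ∀ W, MeasurableSet[M] W → W ⊆ Dᶜ → ∫ x in W, f x ∂μ ≤ 0 := by
  have h4 : ∀ W, MeasurableSet[M] W → ∫ x in W, f x ∂μ = ∫ x in W, (μ[f | m']) x ∂μ := by
    intro W hW
    have := h.ort h1 (h2.trans h3) hf hf' W hW
    simp only [Pi.sub_apply] at this
    rwa [integral_sub (hf.integrable one_le_two).integrableOn integrable_condExp.integrableOn,
      sub_eq_zero] at this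
  refine ⟨{x | 0 < (μ[f | m']) x}, ?_, fun W hW hs => ?_, fun W hW hs => ?_⟩
  · exact measurableSet_lt measurable_const stronglyMeasurable_condExp.measurable
  · rw [h4 W hW]
    have h5 : 0 ≤ᵐ[μ.restrict W] μ[f | m'] :=
      (ae_restrict_iff' (h3 W hW)).2 (Eventually.of_forall fun x hx => le_of_lt (hs hx))
    refine ⟨integral_nonneg_of_ae h5, fun h6 => ?_⟩
    by_contra h7
    refine h6.not_gt ((setIntegral_pos_iff_support_of_nonneg_ae h5
      integrable_condExp.integrableOn).2 ?_)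
    have h8 : W ⊆ Function.support (μ[f | m']) := fun x hx => (ne_of_lt (hs hx)).symm
    rw [inter_eq_right.2 h8]
    exact pos_iff_ne_zero.2 h7
  · rw [h4 W hW]
    exact setIntegral_nonpos (h3 W hW) fun x hx => not_lt.1 (hs hx)

/-- one step in the proof of relative independence -/
theorem ort_step {N N' : MeasurableSpace Ω} (hr : RI μ m₂ N N') (a1 : N' ≤ m₂) (a2 : N' ≤ m₁)
    (a3 : m₁ ≤ N) (a4 : N ≤ m0) (a5 : m₂ ≤ m0) (hf : MemLp f 2 μ) (hf' : StronglyMeasurable[N] f)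
    (h : Ort μ m₁ f) : Ort μ (m₁ ⊔ m₂) f := by
  refine ort_sup (a3.trans a4) a5 (hf.integrable one_le_two) fun s t hs ht => ?_
  have hs0 := a4 s (a3 s hs)
  have ht0 := a5 t ht
  have l1 : MemLp (ind t) 2 μ := lp_ind ht0
  have l2 : MemLp (μ[ind t | N']) 2 μ := l1.condExp one_le_two
  have l3 : MemLp (s.indicator f) 2 μ := hf.indicator hs0
  have h1 := (hr.ort a1 (a1.trans a5) l1 (sm_ind ht)).mul a4 (l1.sub l2) l3
    (hf'.indicator (a3 s hs))
  have h2 := h.mul (a3.trans a4) hf (l2.indicator hs0)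
    ((stronglyMeasurable_condExp.mono a2).indicator hs)
  have h3 : ∀ x, s.indicator f x * (ind t - μ[ind t | N']) x =
      ind (s ∩ t) x * f x - s.indicator (μ[ind t | N']) x * f x := by
    intro x
    by_cases hx : x ∈ s <;> by_cases hx' : x ∈ t <;> simp [ind, hx, hx'] <;> ring
  simp only [h3] at h1
  have i1 : Integrable (fun x => ind (s ∩ t) x * f x) μ :=
    (lp_ind (hs0.inter ht0)).integrable_mul hf
  have i2 : Integrable (fun x => s.indicator (μ[ind t | N']) x * f x) μ :=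
    (l2.indicator hs0).integrable_mul hf
  rwa [integral_sub i1 i2, h2, sub_zero, int_ind_mul (hs0.inter ht0)] at h1

/-- finite partitions -/
structure Part (m : MeasurableSpace Ω) where
  κ : Type
  fin : Finite κ
  p : Ω → κ
  meas : ∀ a, MeasurableSet[m] (p ⁻¹' {a})

omit [IsFiniteMeasure μ] in
theorem meas_glue {κ : Type} [Finite κ] {p : Ω → κ} (hp : ∀ a, MeasurableSet[m] (p ⁻¹' {a}))
    {D : κ → Set Ω} (hD : ∀ a, MeasurableSet[m] (D a)) : MeasurableSet[m] {x | x ∈ D (p x)} := by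
  have : {x | x ∈ D (p x)} = ⋃ a, p ⁻¹' {a} ∩ D a := by
    ext x
    simp
  rw [this]
  exact MeasurableSet.iUnion fun a => (hp a).inter (hD a)

theorem approx_alg {C : Set (Set Ω)} (hC : IsSetAlgebra C) (hm : generateFrom C ≤ m0) {s : Set Ω}
    (hs : MeasurableSet[generateFrom C] s) {ε : ℝ} (hε : 0 < ε) :
    ∃ t ∈ C, μ.real (s ∆ t) < ε := by
  have h := @Measure.MeasureDense.of_generateFrom_isSetAlgebra_finite Ω (generateFrom C)
    (μ.trim hm) C _ hC rfl
  obtain ⟨t, ht, h1⟩ := @Measure.MeasureDense.approx Ω (generateFrom C) _ _ h s hs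
    (measure_ne_top _ _) ε hε
  rw [trim_measurableSet_eq hm (hs.symmDiff (measurableSet_generateFrom ht))] at h1
  exact ⟨t, ht, (ENNReal.lt_ofReal_iff_toReal_lt (measure_ne_top _ _)).1 h1⟩

theorem approx_sup (h₁ : m₁ ≤ m0) (h₂ : m₂ ≤ m0) {s : Set Ω} (hs : MeasurableSet[m₁ ⊔ m₂] s)
    {ε : ℝ} (hε : 0 < ε) : ∃ (P : Part m₁) (D : P.κ → Set Ω), (∀ a, MeasurableSet[m₂] (D a)) ∧
      μ.real (s ∆ {x | x ∈ D (P.p x)}) < ε := by
  let C : Set (Set Ω) := {u | ∃ (P : Part m₁) (D : P.κ → Set Ω),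
    (∀ a, MeasurableSet[m₂] (D a)) ∧ u = {x | x ∈ D (P.p x)}}
  let P₀ : Part m₁ := ⟨Unit, inferInstance, fun _ => (), fun _ => by simp⟩
  have hC : IsSetAlgebra C := by
    refine ⟨⟨P₀, fun _ => ∅, fun _ => @MeasurableSet.empty _ m₂, rfl⟩, ?_, ?_⟩
    · rintro _ ⟨P, D, hD, rfl⟩
      exact ⟨P, fun a => (D a)ᶜ, fun a => (hD a).compl, rfl⟩
    · rintro _ _ ⟨P, D, hD, rfl⟩ ⟨P', D', hD', rfl⟩
      haveI := P.fin
      haveI := P'.fin
      refine ⟨⟨P.κ × P'.κ, inferInstance, fun x => (P.p x, P'.p x), fun a => ?_⟩,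
        fun a => D a.1 ∪ D' a.2, fun a => (hD _).union (hD' _), rfl⟩
      convert (P.meas a.1).inter (P'.meas a.2) using 1
      ext x
      simp [Prod.ext_iff]
  have h1 : generateFrom C ≤ m0 := by
    refine generateFrom_le ?_
    rintro _ ⟨P, D, hD, rfl⟩
    haveI := P.fin
    exact meas_glue (fun a => h₁ _ (P.meas a)) fun a => h₂ _ (hD a)
  have h2 : m₁ ⊔ m₂ ≤ generateFrom C := by
    refine sup_le (fun t ht => measurableSet_generateFrom ?_)
      fun t ht => measurableSet_generateFrom ⟨P₀, fun _ => t, fun _ => ht, rfl⟩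
    refine ⟨⟨Prop, inferInstance, fun x => x ∈ t, fun a => ?_⟩, fun a => {_x | a},
      fun a => MeasurableSet.const a, rfl⟩
    by_cases ha : a
    · convert ht using 1
      ext x
      simp [ha]
    · convert ht.compl using 1
      ext x
      simp [ha]
  obtain ⟨_, ⟨P, D, hD, rfl⟩, h3⟩ := approx_alg (μ := μ) hC h1 (h2 s hs) hε
  exact ⟨P, D, hD, h3⟩

end Vale.Agent.P027G.Szp
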