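import Vale.Agent.P027G.SzA

/-!
# The infinitary removal lemma
-/

set_option linter.all false
set_option warn.classDefReducibility false

open MeasureTheory MeasurableSpace Set Filter
open scoped symmDiff

noncomputable section

namespace Vale.Agent.P027G.Szp

/-- two measures which agree on the sigma algebras of proper subsets; the first one has
relatively independent sigma algebras -/
structure Sys (ι Ω : Type) [Fintype ι] [DecidableEq ι] (m0 : MeasurableSpace Ω) where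
  B : Finset ι → MeasurableSpace Ω
  μ : Measure[m0] Ω
  ν : Measure[m0] Ω
  pμ : IsProbabilityMeasure μ
  pν : IsProbabilityMeasure ν
  le : ∀ e, B e ≤ m0
  mono : Monotone B
  ri : ∀ e₀, RI μ (B e₀) (⨆ e, ⨆ (_ : ¬ e₀ ⊆ e), B e) (⨆ e, ⨆ (_ : e ⊂ e₀), B e)
  agree : ∀ e, e ≠ Finset.univ → ∀ s, MeasurableSet[B e] s → μ s = ν s

variable {ι Ω : Type} [Fintype ι] [DecidableEq ι] {m0 : MeasurableSpace Ω} (S : Sys ι Ω m0)

instance : IsProbabilityMeasure S.μ := S.pμ
instance : IsProbabilityMeasure S.ν := S.pν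

/-- families which are closed under subsets -/
def Down (I : Finset (Finset ι)) : Prop := ∀ e ∈ I, ∀ e' ⊆ e, e' ∈ I

theorem Down.erase {I : Finset (Finset ι)} (h : Down I) {e₀ : Finset ι}
    (h0 : ∀ e ∈ I, e₀ ⊆ e → e = e₀) : Down (I.erase e₀) := by
  intro e he e' he'
  rw [Finset.mem_erase] at he ⊢
  exact ⟨fun h1 => he.1 (h0 e he.2 (h1 ▸ he')), h e he.2 e' he'⟩

/-- the sigma algebra of a family -/
def Sys.BI (I : Finset (Finset ι)) : MeasurableSpace Ω := ⨆ e ∈ I, S.B e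

theorem Sys.BI_le {I : Finset (Finset ι)} {m : MeasurableSpace Ω} (h : ∀ e ∈ I, S.B e ≤ m) :
    S.BI I ≤ m := iSup₂_le h

theorem Sys.le_BI {I : Finset (Finset ι)} {e : Finset ι} (h : e ∈ I) : S.B e ≤ S.BI I :=
  le_iSup₂ (f := fun e (_ : e ∈ I) => S.B e) e h

theorem Sys.BI_mono {I J : Finset (Finset ι)} (h : I ⊆ J) : S.BI I ≤ S.BI J :=
  S.BI_le fun _ he => S.le_BI (h he)

theorem Sys.BI_le0 (I : Finset (Finset ι)) : S.BI I ≤ m0 := S.BI_le fun e _ => S.le e

theorem Sys.BI_erase (I : Finset (Finset ι)) (e₀ : Finset ι) :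
    S.BI I ≤ S.BI (I.erase e₀) ⊔ S.B e₀ := by
  refine S.BI_le fun e he => ?_
  by_cases h : e = e₀
  · exact h ▸ le_sup_right
  · exact (S.le_BI (Finset.mem_erase.2 ⟨h, he⟩)).trans le_sup_left

theorem Sys.ri_down {I : Finset (Finset ι)} (hI : Down I) : ∀ (n : ℕ) (J : Finset (Finset ι)),
    Down J → (J \ I).card = n → RI S.μ (S.BI I) (S.BI J) (S.BI (I ∩ J)) := by
  intro n
  induction n with
  | zero =>
    intro J _ h f _ _ h1
    refine h1.mono (S.BI_mono fun e he => Finset.mem_inter.2 ⟨?_, he⟩)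
    exact Finset.sdiff_eq_empty_iff_subset.1 (Finset.card_eq_zero.1 h) he
  | succ n ih =>
    intro J hJ h f hf hf' h1
    obtain ⟨e₁, h2⟩ := (J \ I).exists_maximal (Finset.card_pos.1 (by omega))
    obtain ⟨h3, h4⟩ := Finset.mem_sdiff.1 h2.1
    have h5 : ∀ e ∈ I, ¬ e₁ ⊆ e := fun e he h => h4 (hI e he _ h)
    have h6 : ∀ e ∈ J, e₁ ⊆ e → e = e₁ := fun e he h =>
      Finset.Subset.antisymm (h2.2 (Finset.mem_sdiff.2 ⟨he, fun h' => h5 e h' h⟩) h) h
    have h7 := ih (J.erase e₁) (hJ.erase h6) (by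
      rw [Finset.erase_sdiff_comm, Finset.card_erase_of_mem h2.1, h]; rfl) f hf hf'
      (h1.mono (S.BI_mono (Finset.inter_subset_inter_left (Finset.erase_subset _ _))))
    refine (ort_step (S.ri e₁) (iSup₂_le fun e he => S.mono he.1)
      (iSup₂_le fun e he => S.le_BI (Finset.mem_erase.2 ⟨he.ne, hJ _ h3 _ he.1⟩))
      (S.BI_le fun e he => ?_) (iSup₂_le fun e _ => S.le e) (S.le _) hf
      (hf'.mono (S.BI_le fun e he => ?_)) h7).mono (S.BI_erase J e₁)
    · rw [Finset.mem_erase] at he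
      exact le_iSup₂ (f := fun e (_ : ¬ e₁ ⊆ e) => S.B e) e fun h => he.1 (h6 e he.2 h)
    · exact le_iSup₂ (f := fun e (_ : ¬ e₁ ⊆ e) => S.B e) e (h5 e he)

/-- refinement of one set along a partition -/
theorem refine {m₁ M m' : MeasurableSpace Ω} {μ : Measure[m0] Ω} [IsFiniteMeasure μ]
    (h : RI μ m₁ M m') (h1 : m' ≤ m₁) (h2 : m' ≤ M) (h3 : M ≤ m0) (h4 : m₁ ≤ m0) {κ : Type}
    [Finite κ] {p : Ω → κ} (hp : ∀ a, MeasurableSet[m₁] (p ⁻¹' {a})) {A : Set Ω}
    (hA : MeasurableSet[m₁] A) {D : κ → Set Ω} (hD : ∀ a, MeasurableSet[m'] (D a)) {η ε : ℝ}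
    (hη : 0 < η) (hε : μ.real (A ∆ {x | x ∈ D (p x)}) < ε) :
    ∃ D' : κ → Set Ω, (∀ a, MeasurableSet[m'] (D' a)) ∧
      (∀ a W, MeasurableSet[M] W → W ⊆ D' a →
        μ.real ((p ⁻¹' {a} ∩ W) \ A) ≤ η * μ.real (p ⁻¹' {a} ∩ W)) ∧
      μ.real (A \ {x | x ∈ D' (p x)}) ≤ ε / η + ε := by
  letI := m0
  have hA0 := h4 _ hA
  have hp0 := fun a => h4 _ (hp a)
  have e1 : ∀ a W, ∫ x in W, (η • ind (p ⁻¹' {a}) - ind (p ⁻¹' {a} \ A)) x ∂μ =
      η * μ.real (p ⁻¹' {a} ∩ W) - μ.real ((p ⁻¹' {a} ∩ W) \ A) := by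
    intro a W
    simp only [Pi.sub_apply, Pi.smul_apply, smul_eq_mul]
    rw [integral_sub (((lp_ind (hp0 a)).integrable one_le_two).const_mul η).integrableOn
      ((lp_ind ((hp0 a).diff hA0)).integrable one_le_two).integrableOn, integral_const_mul,
      int_ind (hp0 a), int_ind ((hp0 a).diff hA0),
      show (p ⁻¹' {a} \ A) ∩ W = (p ⁻¹' {a} ∩ W) \ A from inter_right_comm _ _ _]
  choose D' k1 k2 k3 using fun a => h.hahn h1 h2 h3
    (((lp_ind (hp0 a)).const_smul η).sub (lp_ind ((hp0 a).diff hA0)))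
    (((sm_ind (hp a)).const_smul η).sub (sm_ind ((hp a).diff hA)))
  refine ⟨D', k1, fun a W hW hs => ?_, ?_⟩
  · have := (k2 a W hW hs).1
    rw [e1] at this
    linarith
  · haveI := Fintype.ofFinite κ
    have m1 : ∀ a, MeasurableSet (p ⁻¹' {a} ∩ (D a \ D' a)) := fun a =>
      (hp0 a).inter (h3 _ (h2 _ ((hD a).diff (k1 a))))
    have d1 : Pairwise (Function.onFun Disjoint fun a => p ⁻¹' {a} ∩ (D a \ D' a)) :=
      fun a b hab => Set.disjoint_left.2 fun x hx hx' => hab (hx.1.symm.trans hx'.1)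
    have k4 : η * μ.real (⋃ a, p ⁻¹' {a} ∩ (D a \ D' a)) ≤
        μ.real (⋃ a, (p ⁻¹' {a} ∩ (D a \ D' a)) \ A) := by
      rw [measureReal_iUnion_fintype d1 m1, measureReal_iUnion_fintype
        (fun a b hab => (d1 hab).mono diff_subset diff_subset) fun a => (m1 a).diff hA0,
        Finset.mul_sum]
      refine Finset.sum_le_sum fun a _ => ?_
      have := k3 a (D a \ D' a) (h2 _ ((hD a).diff (k1 a))) fun x hx => hx.2
      rw [e1] at this
      linarith
    have k5 : μ.real (⋃ a, (p ⁻¹' {a} ∩ (D a \ D' a)) \ A) ≤ μ.real (A ∆ {x | x ∈ D (p x)}) := by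
      refine measureReal_mono (iUnion_subset fun a x hx => Or.inr ⟨?_, hx.2⟩)
      show x ∈ D (p x)
      rw [show p x = a from hx.1.1]
      exact hx.1.2.1
    have k6 : μ.real (A \ {x | x ∈ D' (p x)}) ≤
        μ.real (⋃ a, p ⁻¹' {a} ∩ (D a \ D' a)) + μ.real (A ∆ {x | x ∈ D (p x)}) := by
      refine le_trans (measureReal_mono fun x hx => ?_) (measureReal_union_le _ _)
      by_cases hx' : x ∈ D (p x)
      · exact Or.inl (mem_iUnion.2 ⟨p x, rfl, hx', hx.2⟩)
      · exact Or.inr (Or.inl ⟨hx.1, hx'⟩)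
    have k7 : μ.real (⋃ a, p ⁻¹' {a} ∩ (D a \ D' a)) ≤ ε / η := by
      rw [le_div_iff₀ hη]
      linarith
    linarith

theorem real_le_sum {μ : Measure[m0] Ω} [IsFiniteMeasure μ] {κ : Type} [Fintype κ] (Z : Set Ω)
    (A : κ → Set Ω) : μ.real Z ≤ μ.real (Z ∩ ⋂ i, A i) + ∑ i, μ.real (Z \ A i) := by
  refine le_trans (measureReal_mono (s₂ := (Z ∩ ⋂ i, A i) ∪ ⋃ i, Z \ A i) fun x hx => ?_)
    ((measureReal_union_le _ _).trans (add_le_add le_rfl (measureReal_iUnion_fintype_le _)))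
  by_cases h : ∀ i, x ∈ A i
  · exact Or.inl ⟨hx, mem_iInter.2 h⟩
  · push Not at h
    obtain ⟨i, hi⟩ := h
    exact Or.inr (mem_iUnion.2 ⟨i, hx, hi⟩)

/-- **the infinitary removal lemma** -/
theorem Sys.removal : ∀ (n : ℕ) (J : Finset (Finset ι)), Down J → J.card = n →
    ∀ (κ : Type) [Fintype κ] (I : κ → Finset (Finset ι)) (A : κ → Set Ω), (∀ i, Down (I i)) →
    (∀ i, I i ⊆ J) → (∀ i, ∃ e, e ≠ Finset.univ ∧ ∀ e' ∈ I i, e' ⊆ e) →
    (∀ i, MeasurableSet[S.BI (I i)] (A i)) → S.μ (⋂ i, A i) = 0 → S.ν (⋂ i, A i) = 0 := by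
  intro n
  induction n with
  | zero =>
    intro J _ hJ κ _ I A _ h2 _ h4 h5
    have h6 : MeasurableSet[⊥] (⋂ i, A i) := MeasurableSet.iInter fun i =>
      S.BI_le (fun e he => by simpa [Finset.card_eq_zero.1 hJ] using h2 i he) _ (h4 i)
    rcases measurableSet_bot_iff.1 h6 with h | h
    · rw [h, measure_empty]
    · rw [h, measure_univ] at h5
      exact absurd h5 one_ne_zero
  | succ n ih =>
    intro J hJ hn κ _ I A h1 h2 h3 h4 h5
    obtain ⟨e₀, h6⟩ := J.exists_maximal (Finset.card_pos.1 (by omega))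
    have h7 : ∀ e ∈ J, e₀ ⊆ e → e = e₀ := fun e he h => Finset.Subset.antisymm (h6.2 he h) h
    have hJ' : Down (J.erase e₀) := hJ.erase h7
    have ih' := ih (J.erase e₀) hJ' (by rw [Finset.card_erase_of_mem h6.1, hn]; rfl)
    by_cases h8 : ∀ i, e₀ ∉ I i
    · exact ih' κ I A h1 (fun i e he => Finset.mem_erase.2 ⟨fun h => h8 i (h ▸ he), h2 i he⟩)
        h3 h4 h5
    push Not at h8
    obtain ⟨i₀, hi₀⟩ := h8
    have hu : e₀ ≠ Finset.univ := by
      obtain ⟨e, he, he'⟩ := h3 i₀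
      exact fun h => he (Finset.univ_subset_iff.1 (h ▸ he' _ hi₀))
    have hag : ∀ i s, MeasurableSet[S.BI (I i)] s → S.μ s = S.ν s := fun i s hs => by
      obtain ⟨e, he, he'⟩ := h3 i
      exact S.agree e he s (S.BI_le (fun e' h => S.mono (he' e' h)) s hs)
    -- cells
    have cell : ∀ (Z : Set Ω) (D : κ → Set Ω), MeasurableSet[S.B e₀] Z →
        (∀ i, MeasurableSet[S.BI ((I i).erase e₀)] (D i)) → S.μ (Z ∩ ⋂ i, D i) = 0 →
        S.ν (Z ∩ ⋂ i, D i) = 0 := by
      intro Z D hZ hD h0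
      have l1 : (⨆ e, ⨆ (_ : e ⊂ e₀), S.B e) ≤ S.B e₀ := iSup₂_le fun e he => S.mono he.1
      have l2 : (⨆ e, ⨆ (_ : e ⊂ e₀), S.B e) ≤ ⨆ e, ⨆ (_ : ¬ e₀ ⊆ e), S.B e :=
        iSup₂_le fun e he => le_iSup₂ (f := fun e (_ : ¬ e₀ ⊆ e) => S.B e) e he.2
      have l3 : ∀ i, S.BI ((I i).erase e₀) ≤ ⨆ e, ⨆ (_ : ¬ e₀ ⊆ e), S.B e := fun i =>
        S.BI_le fun e he => le_iSup₂ (f := fun e (_ : ¬ e₀ ⊆ e) => S.B e) e fun h =>
          (Finset.mem_erase.1 he).1 (h7 e (h2 i (Finset.mem_erase.1 he).2) h)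
      have hZ0 := S.le _ _ hZ
      obtain ⟨Z', k1, k2, k3⟩ := (S.ri e₀).hahn l1 l2 (iSup₂_le fun e _ => S.le e) (lp_ind hZ0)
        (sm_ind hZ)
      have k4 : S.μ (Z' ∩ ⋂ i, D i) = 0 := by
        refine (k2 _ ((l2 _ k1).inter (MeasurableSet.iInter fun i => l3 i _ (hD i)))
          inter_subset_left).2 ?_
        rw [int_ind hZ0]
        refine le_trans (measureReal_mono (s₂ := Z ∩ ⋂ i, D i) fun x hx => ⟨hx.1, hx.2.2⟩) ?_
        rw [Measure.real, h0]
        rfl
      have k5 : S.ν (Z ∩ Z'ᶜ) = 0 := by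
        have k6 := k3 _ (l2 _ k1).compl Subset.rfl
        rw [int_ind hZ0] at k6
        rw [← S.agree e₀ hu _ (hZ.inter (l1 _ k1).compl)]
        exact (measureReal_eq_zero_iff (measure_ne_top _ _)).1 (le_antisymm k6 measureReal_nonneg)
      have k7 := ih' (Option κ) (fun o => o.elim (e₀.powerset.erase e₀) fun i => (I i).erase e₀)
        (fun o => o.elim Z' D) ?_ ?_ ?_ ?_ (by rw [iInter_option]; exact k4)
      · rw [iInter_option] at k7
        refine measure_mono_null (t := (Z ∩ Z'ᶜ) ∪ (Z' ∩ ⋂ i, D i)) (fun x hx => ?_)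
          (measure_union_null k5 k7)
        by_cases hx' : x ∈ Z'
        exacts [Or.inr ⟨hx', hx.2⟩, Or.inl ⟨hx.1, hx'⟩]
      · rintro (_ | i)
        · exact Down.erase (fun e he e' he' => Finset.mem_powerset.2
            (he'.trans (Finset.mem_powerset.1 he))) fun e he h =>
              Finset.Subset.antisymm (Finset.mem_powerset.1 he) h
        · exact (h1 i).erase fun e he => h7 e (h2 i he)
      · rintro (_ | i)
        · exact Finset.erase_subset_erase _ fun e he => hJ _ h6.1 _ (Finset.mem_powerset.1 he)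
        · exact Finset.erase_subset_erase _ (h2 i)
      · rintro (_ | i)
        · exact ⟨e₀, hu, fun e he => Finset.mem_powerset.1 (Finset.mem_erase.1 he).2⟩
        · obtain ⟨e, he, he'⟩ := h3 i
          exact ⟨e, he, fun e' h => he' e' (Finset.mem_erase.1 h).2⟩
      · rintro (_ | i)
        · exact (iSup₂_le fun e (he : e ⊂ e₀) => S.le_BI (I := e₀.powerset.erase e₀)
            (Finset.mem_erase.2 ⟨he.ne, Finset.mem_powerset.2 he.1⟩)) _ k1
        · exact hD i
    -- approximation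
    obtain ⟨l, hl⟩ : ∃ l : ℝ, l = (Fintype.card κ : ℝ) := ⟨_, rfl⟩
    have hl0 : 0 ≤ l := hl ▸ Nat.cast_nonneg _
    have hη : (0 : ℝ) < 1 / (l + 1) := by positivity
    have key : ∀ ε : ℝ, 0 < ε → S.ν.real (⋂ i, A i) ≤ l * (ε / (1 / (l + 1)) + ε) := by
      intro ε hε
      choose P D k1 k2 using fun i => approx_sup (μ := S.μ) (S.le e₀) (S.BI_le0 ((I i).erase e₀))
        (((S.BI_erase (I i) e₀).trans (sup_comm _ _).le) _ (h4 i)) hε
      haveI := fun i => (P i).fin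
      let p : Ω → ∀ i, (P i).κ := fun x i => (P i).p x
      have hp : ∀ a, MeasurableSet[S.B e₀] (p ⁻¹' {a}) := fun a => by
        convert MeasurableSet.iInter fun i => (P i).meas (a i) using 1
        ext x
        simp [p, funext_iff]
      have k3 : ∀ i, ∃ D' : (∀ i, (P i).κ) → Set Ω,
          (∀ a, MeasurableSet[S.BI ((I i).erase e₀)] (D' a)) ∧
          (∀ a W, MeasurableSet[S.BI (J.erase e₀)] W → W ⊆ D' a →
            S.μ.real ((p ⁻¹' {a} ∩ W) \ A i) ≤ 1 / (l + 1) * S.μ.real (p ⁻¹' {a} ∩ W)) ∧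
          S.ν.real (A i \ {x | x ∈ D' (p x)}) ≤ ε / (1 / (l + 1)) + ε := by
        intro i
        by_cases hi : e₀ ∈ I i
        · have r := S.ri_down (h1 i) _ _ hJ' rfl
          rw [Finset.inter_erase, Finset.inter_eq_left.2 (h2 i)] at r
          have l1 := S.BI_mono (Finset.erase_subset e₀ (I i))
          have hp' := fun a => S.le_BI hi _ (hp a)
          obtain ⟨D', a1, a2, a3⟩ := refine r l1 (S.BI_mono (Finset.erase_subset_erase _ (h2 i)))
            (S.BI_le0 _) (S.BI_le0 _) hp' (h4 i) (D := fun a => D i (a i)) (fun a => k1 i _) hη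
            (k2 i)
          refine ⟨D', a1, a2, ?_⟩
          rwa [Measure.real, ← hag i _ ((h4 i).diff (meas_glue hp' fun a => l1 _ (a1 a)))]
        · refine ⟨fun _ => A i, fun _ => (Finset.erase_eq_of_notMem hi).symm ▸ h4 i,
            fun a W _ hW => ?_, ?_⟩
          · rw [diff_eq_empty.2 (inter_subset_right.trans hW), measureReal_empty]
            positivity
          · rw [show A i \ {x | x ∈ A i} = ∅ from diff_self, measureReal_empty]
            positivity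
      choose D' a1 a2 a3 using k3
      have b1 : ∀ a, S.ν (p ⁻¹' {a} ∩ ⋂ i, D' i a) = 0 := by
        intro a
        refine cell _ _ (hp a) (fun i => a1 i a) ?_
        have c1 := real_le_sum (μ := S.μ) (p ⁻¹' {a} ∩ ⋂ i, D' i a) A
        have c2 : S.μ.real ((p ⁻¹' {a} ∩ ⋂ i, D' i a) ∩ ⋂ i, A i) = 0 := by
          rw [Measure.real, measure_mono_null inter_subset_right h5]
          rfl
        have c3 := Finset.sum_le_card_nsmul Finset.univ _ _ fun i (_ : i ∈ Finset.univ) =>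
          a2 i a _ (MeasurableSet.iInter fun j =>
            S.BI_mono (Finset.erase_subset_erase _ (h2 j)) _ (a1 j a)) (iInter_subset _ i)
        rw [Finset.card_univ, nsmul_eq_mul, ← hl] at c3
        have c4 : 0 ≤ S.μ.real (p ⁻¹' {a} ∩ ⋂ i, D' i a) := measureReal_nonneg
        have c5 : l * (1 / (l + 1)) = 1 - 1 / (l + 1) := by field_simp; ring
        refine (measureReal_eq_zero_iff (measure_ne_top _ _)).1 (le_antisymm ?_ c4)
        rw [← mul_assoc, c5] at c3
        nlinarith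
      have b2 := real_le_sum (μ := S.ν) (⋂ i, A i) fun i => {x | x ∈ D' i (p x)}
      have b3 : S.ν.real ((⋂ i, A i) ∩ ⋂ i, {x | x ∈ D' i (p x)}) = 0 := by
        rw [Measure.real, measure_mono_null (t := ⋃ a, p ⁻¹' {a} ∩ ⋂ i, D' i a)
          (fun x hx => mem_iUnion.2 ⟨p x, rfl, mem_iInter.2 fun i => mem_iInter.1 hx.2 i⟩)
          (measure_iUnion_null b1)]
        rfl
      have b4 := Finset.sum_le_card_nsmul Finset.univ
        (fun i => S.ν.real ((⋂ i, A i) \ {x | x ∈ D' i (p x)})) _ fun i (_ : i ∈ Finset.univ) =>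
          (measureReal_mono (diff_subset_diff_left (iInter_subset _ i))).trans (a3 i)
      rw [Finset.card_univ, nsmul_eq_mul, ← hl] at b4
      linarith
    refine (measureReal_eq_zero_iff (measure_ne_top _ _)).1 (le_antisymm ?_ measureReal_nonneg)
    refine le_of_forall_pos_le_add fun δ hδ => ?_
    refine (key (δ / ((l + 1) * (l + 2))) (by positivity)).trans ?_
    have : l * (δ / ((l + 1) * (l + 2)) / (1 / (l + 1)) + δ / ((l + 1) * (l + 2))) =
        δ * (l / (l + 1)) := by field_simp; ring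
    rw [this, zero_add]
    exact mul_le_of_le_one_right hδ.le (div_le_one_of_le₀ (by linarith) (by linarith))

end Vale.Agent.P027G.Szp
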