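import Vale.Agent.P027G.SzB

/-!
# Ultralimits of finite product spaces
-/

set_option linter.all false
set_option warn.classDefReducibility false

open MeasureTheory MeasurableSpace Set Filter Topology
open scoped symmDiff BigOperators

noncomputable section

namespace Vale.Agent.P027G.Szp

section lim

variable {S : Type}

/-- basic sets of ultrafilters -/
def hat (A : Set S) : Set (Ultrafilter S) := {u | A ∈ u}

local instance msU : MeasurableSpace (Ultrafilter S) := borel _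
local instance bsU : BorelSpace (Ultrafilter S) := ⟨rfl⟩

theorem hat_clopen (A : Set S) : IsClopen (hat A) :=
  ⟨ultrafilter_isClosed_basic A, ultrafilter_isOpen_basic A⟩

theorem hat_meas (A : Set S) : MeasurableSet (hat A) := (hat_clopen A).isOpen.measurableSet

theorem hat_inter (A B : Set S) : hat (A ∩ B) = hat A ∩ hat B := Set.ext fun _ => inter_mem_iff

theorem hat_union (A B : Set S) : hat (A ∪ B) = hat A ∪ hat B :=
  Set.ext fun _ => Ultrafilter.union_mem_iff

theorem hat_compl (A : Set S) : hat Aᶜ = (hat A)ᶜ :=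
  Set.ext fun _ => Ultrafilter.compl_mem_iff_notMem

theorem hat_empty : hat (∅ : Set S) = ∅ := eq_empty_of_forall_notMem fun u => u.empty_notMem

theorem hat_univ : hat (univ : Set S) = univ := eq_univ_of_forall fun _ => univ_mem

theorem hat_iInter {κ : Type} [Finite κ] (A : κ → Set S) : hat (⋂ i, A i) = ⋂ i, hat (A i) :=
  Set.ext fun u => by
    rw [mem_iInter]
    exact iInter_mem

/-- the ultrafilter -/
abbrev UU : Filter ℕ := hyperfilter ℕ

theorem exists_lim (T : ℕ → Type) [∀ n, Fintype (T n)] [∀ n, Nonempty (T n)] (φ : ∀ n, T n → S) :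
    ∃ μ : Measure (Ultrafilter S), IsProbabilityMeasure μ ∧
      ∀ A, Tendsto (fun n => 𝔼 t, ind A (φ n t)) UU (𝓝 (μ.real (hat A))) := by
  have hc : ∀ n, (Fintype.card (T n) : ENNReal) ≠ 0 := fun n => by simp
  let m : ℕ → ProbabilityMeasure (Ultrafilter S) := fun n =>
    ⟨(Fintype.card (T n) : ENNReal)⁻¹ • ∑ t, Measure.dirac (pure (φ n t)), ⟨by
      simp [Measure.finsetSum_apply, ENNReal.inv_mul_cancel (hc n)]⟩⟩
  obtain ⟨μ, -, hμ⟩ := isCompact_univ.ultrafilter_le_nhds ((hyperfilter ℕ).map m) (by simp)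
  refine ⟨μ, inferInstance, fun A => ?_⟩
  have h := ProbabilityMeasure.tendsto_iff_forall_integral_tendsto.1 hμ
    (BoundedContinuousFunction.indicator _ (hat_clopen A))
  have h1 : ∀ ν : Measure (Ultrafilter S),
      ∫ u, BoundedContinuousFunction.indicator _ (hat_clopen A) u ∂ν = ν.real (hat A) :=
    fun ν => integral_indicator_one (hat_meas A)
  simp only [h1] at h
  refine Tendsto.congr (fun n => ?_) h
  show ((((Fintype.card (T n) : ENNReal)⁻¹ • ∑ t, Measure.dirac (pure (φ n t)) :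
    Measure (Ultrafilter S))) (hat A)).toReal = _
  rw [Measure.smul_apply, Measure.finsetSum_apply, smul_eq_mul, ENNReal.toReal_mul,
    ENNReal.toReal_sum fun _ _ => measure_ne_top _ _, Fintype.expect_eq_sum_div_card,
    ENNReal.toReal_inv, ENNReal.toReal_natCast, div_eq_inv_mul]
  congr 1
  refine Finset.sum_congr rfl fun t _ => ?_
  rw [Measure.dirac_apply' _ (hat_meas A)]
  by_cases ht : φ n t ∈ A
  · rw [indicator_of_mem (show pure (φ n t) ∈ hat A from ht), ind, indicator_of_mem ht]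
    rfl
  · rw [indicator_of_notMem (show pure (φ n t) ∉ hat A from ht), ind, indicator_of_notMem ht]
    rfl

variable {ι : Type} [Fintype ι] [DecidableEq ι] {V : ℕ → Type}

/-- functions which depend only on the coordinates in `e` -/
def Dep {β : Type} (e : Finset ι) (F : (Σ n, ι → V n) → β) : Prop :=
  ∀ n (x y : ι → V n), (∀ i ∈ e, x i = y i) → F ⟨n, x⟩ = F ⟨n, y⟩

/-- the generating algebra -/
def Gen (V : ℕ → Type) (e : Finset ι) : Set (Set (Ultrafilter (Σ n, ι → V n))) :=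
  {s | ∃ A : Set (Σ n, ι → V n), Dep e (fun p => p ∈ A) ∧ s = hat A}

theorem gen_alg (e : Finset ι) : IsSetAlgebra (Gen V e) := by
  refine ⟨⟨∅, fun _ _ _ _ => rfl, hat_empty.symm⟩, ?_, ?_⟩
  · rintro _ ⟨A, hA, rfl⟩
    exact ⟨Aᶜ, fun n x y h => congrArg Not (hA n x y h), (hat_compl A).symm⟩
  · rintro _ _ ⟨A, hA, rfl⟩ ⟨B, hB, rfl⟩
    exact ⟨A ∪ B, fun n x y h => congrArg₂ Or (hA n x y h) (hB n x y h), (hat_union A B).symm⟩

theorem gen_le (e : Finset ι) : generateFrom (Gen V e) ≤ msU := by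
  refine generateFrom_le ?_
  rintro _ ⟨A, -, rfl⟩
  exact hat_meas A

theorem ind_mul (A B : Set S) (x : S) : ind A x * ind B x = ind (A ∩ B) x := by
  by_cases h : x ∈ A <;> by_cases h' : x ∈ B <;> simp [ind, h, h']

theorem real_sub_le {Ω : Type} [MeasurableSpace Ω] {μ : Measure Ω} [IsFiniteMeasure μ]
    (G s t : Set Ω) : |μ.real (G ∩ t) - μ.real (s ∩ G)| ≤ μ.real (s ∆ t) := by
  have h1 : μ.real (G ∩ t) ≤ μ.real (s ∩ G) + μ.real (s ∆ t) := by
    refine le_trans (measureReal_mono fun x hx => ?_) (measureReal_union_le _ _)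
    by_cases h : x ∈ s
    exacts [Or.inl ⟨h, hx.1⟩, Or.inr (Or.inr ⟨hx.2, h⟩)]
  have h2 : μ.real (s ∩ G) ≤ μ.real (G ∩ t) + μ.real (s ∆ t) := by
    refine le_trans (measureReal_mono fun x hx => ?_) (measureReal_union_le _ _)
    by_cases h : x ∈ t
    exacts [Or.inl ⟨hx.2, h⟩, Or.inr (Or.inl ⟨hx.1, h⟩)]
  rw [abs_le]
  constructor <;> linarith

variable [∀ n, Fintype (V n)] [∀ n, Nonempty (V n)]
variable {μ : Measure (Ultrafilter (Σ n, ι → V n))} [IsProbabilityMeasure μ]

/-- approximation by internal functions -/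
def Ap (μ : Measure (Ultrafilter (Σ n, ι → V n))) (e : Finset ι)
    (f : Ultrafilter (Σ n, ι → V n) → ℝ) : Prop :=
  ∀ ε > 0, ∃ F : (Σ n, ι → V n) → ℝ, Dep e F ∧ ∀ G, ∀ᶠ n in UU,
    |(𝔼 x : ι → V n, ind G ⟨n, x⟩ * F ⟨n, x⟩) - ∫ u in hat G, f u ∂μ| ≤ ε

theorem ap_of (hμ : ∀ A, Tendsto (fun n => 𝔼 x : ι → V n, ind A ⟨n, x⟩) UU (𝓝 (μ.real (hat A))))
    (e : Finset ι) {f : Ultrafilter (Σ n, ι → V n) → ℝ} (hf : MemLp f 1 μ)
    (hf' : AEStronglyMeasurable[generateFrom (Gen V e)] f μ) : Ap μ e f := by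
  refine MemLp.induction_stronglyMeasurable (gen_le e) ENNReal.one_ne_top (Ap μ e) ?_ ?_ ?_ ?_
    hf hf'
  · intro c s hs _ ε hε
    have hc : 0 < ε / (2 * (|c| + 1)) := by positivity
    obtain ⟨_, ⟨A, hA, rfl⟩, h1⟩ := approx_alg (μ := μ) (gen_alg e) (gen_le e) hs hc
    refine ⟨fun p => c * ind A p, fun n x y h => ?_, fun G => ?_⟩
    · have := hA n x y h
      by_cases hx : (⟨n, y⟩ : Σ n, ι → V n) ∈ A <;> simp [ind, this, hx, indicator_apply]
    · filter_upwards [Metric.tendsto_nhds.1 (hμ (G ∩ A)) _ hc] with n hn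
      have h2 : ∫ u in hat G, s.indicator (fun _ => c) u ∂μ = c * μ.real (s ∩ hat G) := by
        rw [← int_ind (gen_le e _ hs), ← integral_const_mul]
        congr 1
        funext u
        by_cases hu : u ∈ s <;> simp [ind, hu]
      have h3 := real_sub_le (μ := μ) (hat G) s (hat A)
      simp only [mul_left_comm _ c, ind_mul, ← Finset.mul_expect]
      rw [h2, ← mul_sub, abs_mul]
      rw [Real.dist_eq, hat_inter] at hn
      have h4 := abs_sub_le (𝔼 x : ι → V n, ind (G ∩ A) ⟨n, x⟩) (μ.real (hat G ∩ hat A))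
        (μ.real (s ∩ hat G))
      calc _ ≤ (|c| + 1) * (2 * (ε / (2 * (|c| + 1)))) := by
            gcongr <;> linarith
        _ = ε := by field_simp
  · intro f g _ hf hg _ _ h1 h2 ε hε
    obtain ⟨F, a1, a2⟩ := h1 (ε / 2) (half_pos hε)
    obtain ⟨F', b1, b2⟩ := h2 (ε / 2) (half_pos hε)
    refine ⟨fun p => F p + F' p, fun n x y h => congrArg₂ (· + ·) (a1 n x y h) (b1 n x y h),
      fun G => ?_⟩
    filter_upwards [a2 G, b2 G] with n h3 h4
    simp only [mul_add, Finset.expect_add_distrib, Pi.add_apply]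
    rw [integral_add (memLp_one_iff_integrable.1 hf).integrableOn
      (memLp_one_iff_integrable.1 hg).integrableOn]
    rw [abs_le] at *
    constructor <;> linarith [h3.1, h3.2, h4.1, h4.2]
  · refine isClosed_of_closure_subset fun f hf ε hε => ?_
    obtain ⟨g, hg, h1⟩ := Metric.mem_closure_iff.1 hf (ε / 2) (half_pos hε)
    obtain ⟨F, a1, a2⟩ := hg (ε / 2) (half_pos hε)
    refine ⟨F, a1, fun G => ?_⟩
    have h2 : |∫ u in hat G, g.1 u ∂μ - ∫ u in hat G, f.1 u ∂μ| ≤ ε / 2 := by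
      have i1 := L1.integrable_coeFn g.1
      have i2 := L1.integrable_coeFn f.1
      rw [← integral_sub i1.integrableOn i2.integrableOn]
      refine (abs_integral_le_integral_abs).trans ((setIntegral_le_integral (i1.sub i2).abs
        (Eventually.of_forall fun _ => abs_nonneg _)).trans ?_)
      rw [Subtype.dist_eq, dist_comm, L1.dist_eq_integral_dist] at h1
      exact h1.le
    filter_upwards [a2 G] with n h3
    rw [abs_le] at *
    constructor <;> linarith [h3.1, h3.2, h2.1, h2.2]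
  · intro f g h _ h1 ε hε
    obtain ⟨F, a1, a2⟩ := h1 ε hε
    refine ⟨F, a1, fun G => ?_⟩
    rw [← integral_congr_ae (ae_restrict_of_ae h)]
    exact a2 G

theorem exists_slice {W : Type} [Fintype W] [Nonempty W] (e : Finset ι) (Φ : (ι → W) → ℝ) :
    ∃ y : ι → W, |𝔼 x, Φ x| ≤ |𝔼 x, Φ (e.piecewise x y)| := by
  have h1 : Function.Involutive fun p : (ι → W) × (ι → W) =>
      (e.piecewise p.2 p.1, e.piecewise p.1 p.2) := by
    intro p
    refine Prod.ext (funext fun i => ?_) (funext fun i => ?_) <;>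
      by_cases h : i ∈ e <;> simp [Finset.piecewise, h]
  have h2 : 𝔼 y, 𝔼 x, Φ (e.piecewise x y) = 𝔼 x, Φ x := by
    rw [← Finset.expect_product', Finset.univ_product_univ, Fintype.expect_bijective _ h1.bijective
      _ (fun p => Φ p.1) fun _ => rfl, ← Finset.univ_product_univ,
      Finset.expect_product' (f := fun x _ => Φ x)]
    simp only [Fintype.expect_const]
  obtain ⟨y, -, hy⟩ := Finset.exists_le_of_le_expect Finset.univ_nonempty
    (h2 ▸ Finset.abs_expect_le Finset.univ fun y => 𝔼 x, Φ (e.piecewise x y))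
  exact ⟨y, hy⟩

theorem ri_lim (hμ : ∀ A, Tendsto (fun n => 𝔼 x : ι → V n, ind A ⟨n, x⟩) UU (𝓝 (μ.real (hat A))))
    (e₀ : Finset ι) : RI μ (generateFrom (Gen V e₀))
      (⨆ e, ⨆ (_ : ¬ e₀ ⊆ e), generateFrom (Gen V e))
      (⨆ e, ⨆ (_ : e ⊂ e₀), generateFrom (Gen V e)) := by
  intro f hf hf' h0
  let sb : (∀ n, ι → V n) → Set (Σ n, ι → V n) → Set (Σ n, ι → V n) := fun y G =>
    {p | (⟨p.1, e₀.piecewise p.2 (y p.1)⟩ : Σ n, ι → V n) ∈ G}
  let C : Set (Set (Ultrafilter (Σ n, ι → V n))) := {s | ∃ G, s = hat G ∧ ∀ y,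
    MeasurableSet[⨆ e, ⨆ (_ : e ⊂ e₀), generateFrom (Gen V e)] (hat (sb y G))}
  have hap := ap_of hμ e₀ (hf.mono_exponent one_le_two) hf'.aestronglyMeasurable
  refine (ort_gen (C := C) (generateFrom_le ?_) ?_ (hf.integrable one_le_two) ?_ ?_).mono
    (iSup₂_le fun e he => generateFrom_le ?_)
  · rintro _ ⟨G, rfl, -⟩
    exact hat_meas G
  · rintro _ ⟨G, rfl, hG⟩ _ ⟨G', rfl, hG'⟩ -
    refine ⟨G ∩ G', (hat_inter _ _).symm, fun y => ?_⟩
    rw [show sb y (G ∩ G') = sb y G ∩ sb y G' from rfl, hat_inter]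
    exact (hG y).inter (hG' y)
  · simpa using h0 univ MeasurableSet.univ
  · rintro _ ⟨G, rfl, hG⟩
    refine abs_nonpos_iff.1 (le_of_forall_pos_le_add fun ε hε => ?_)
    obtain ⟨F, a1, a2⟩ := hap (ε / 2) (half_pos hε)
    choose y hy using fun n => exists_slice e₀ fun x : ι → V n => ind G ⟨n, x⟩ * F ⟨n, x⟩
    obtain ⟨n, h1, h2⟩ := ((a2 G).and (a2 (sb y G))).exists
    have h3 := hy n
    have h4 : ∀ x : ι → V n, ind G ⟨n, e₀.piecewise x (y n)⟩ * F ⟨n, e₀.piecewise x (y n)⟩ =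
        ind (sb y G) ⟨n, x⟩ * F ⟨n, x⟩ := fun x => by
      rw [a1 n _ x fun i hi => e₀.piecewise_eq_of_mem _ _ hi]
      rfl
    simp only [h4] at h3
    rw [h0 _ (hG y), sub_zero] at h2
    have h5 := h3.trans h2
    rw [abs_le] at *
    constructor <;> linarith [h1.1, h1.2, h5.1, h5.2]
  · rintro _ ⟨A, hA, rfl⟩
    refine measurableSet_generateFrom ⟨A, rfl, fun y => ?_⟩
    have h1 : e ∩ e₀ ⊂ e₀ := ⟨Finset.inter_subset_right, fun h =>
      he (h.trans Finset.inter_subset_left)⟩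
    refine le_iSup₂ (f := fun e (_ : e ⊂ e₀) => generateFrom (Gen V e)) _ h1 _
      (measurableSet_generateFrom ⟨sb y A, fun n x x' h => hA n (e₀.piecewise x (y n))
        (e₀.piecewise x' (y n)) fun i hi => ?_, rfl⟩)
    by_cases h2 : i ∈ e₀
    · rw [e₀.piecewise_eq_of_mem _ _ h2, e₀.piecewise_eq_of_mem _ _ h2]
      exact h i (Finset.mem_inter.2 ⟨hi, h2⟩)
    · rw [e₀.piecewise_eq_of_notMem _ _ h2, e₀.piecewise_eq_of_notMem _ _ h2]

/-- the removal lemma for sequences of finite spaces -/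
theorem seq_removal (T : ℕ → Type) [∀ n, Fintype (T n)] [∀ n, Nonempty (T n)]
    (φ : ∀ n, T n → ι → V n)
    (hφ : ∀ n (j : ι) (F : (ι → V n) → ℝ), (∀ x y, (∀ i, i ≠ j → x i = y i) → F x = F y) →
      𝔼 t, F (φ n t) = 𝔼 x, F x)
    (A : ι → Set (Σ n, ι → V n)) (hA : ∀ j, Dep (Finset.univ.erase j) fun p => p ∈ A j)
    (h0 : Tendsto (fun n => 𝔼 x : ι → V n, ind (⋂ j, A j) ⟨n, x⟩) UU (𝓝 0)) :
    Tendsto (fun n => 𝔼 t, ind (⋂ j, A j) ⟨n, φ n t⟩) UU (𝓝 0) := by
  obtain ⟨μ, p1, hμ⟩ := exists_lim (S := Σ n, ι → V n) (fun n => ι → V n) fun n x => ⟨n, x⟩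
  obtain ⟨ν, p2, hν⟩ := exists_lim (S := Σ n, ι → V n) T fun n t => ⟨n, φ n t⟩
  let S : Sys ι (Ultrafilter (Σ n, ι → V n)) msU :=
    { B := fun e => generateFrom (Gen V e)
      μ := μ
      ν := ν
      pμ := p1
      pν := p2
      le := gen_le
      mono := fun e e' h => generateFrom_mono (by
        rintro _ ⟨A, hA, rfl⟩
        exact ⟨A, fun n x y h' => hA n x y fun i hi => h' i (h hi), rfl⟩)
      ri := ri_lim hμ
      agree := fun e he s hs => by
        refine ext_on_measurableSpace_of_generate_finite msU (Gen V e) ?_ (gen_le e) rfl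
          (gen_alg e).isSetRing.isSetSemiring.isPiSystem (by simp) hs
        rintro _ ⟨A, hA, rfl⟩
        obtain ⟨j, hj⟩ : ∃ j, j ∉ e := by
          by_contra h
          push Not at h
          exact he (Finset.eq_univ_iff_forall.2 h)
        rw [← measureReal_eq_measureReal_iff (measure_ne_top _ _) (measure_ne_top _ _)]
        refine tendsto_nhds_unique (hμ A) ((hν A).congr fun n => hφ n j
          (fun x => ind A ⟨n, x⟩) fun x y h => ?_)
        have := hA n x y fun i hi => h i fun h' => hj (h' ▸ hi)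
        by_cases hx : (⟨n, y⟩ : Σ n, ι → V n) ∈ A <;> simp [ind, this, hx, indicator_apply] }
  have hne : ∀ j : ι, Finset.univ.erase j ≠ Finset.univ := fun j h => by
    simpa using (h.symm ▸ Finset.mem_univ j : j ∈ Finset.univ.erase j)
  have h1 := S.removal _ Finset.univ (fun _ _ _ _ => Finset.mem_univ _) rfl ι
    (fun j => (Finset.univ.erase j).powerset) (fun j => hat (A j))
    (fun j e he e' he' => Finset.mem_powerset.2 (he'.trans (Finset.mem_powerset.1 he)))
    (fun _ => Finset.subset_univ _) (fun j => ⟨_, hne j, fun e he => Finset.mem_powerset.1 he⟩)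
    (fun j => S.le_BI (Finset.mem_powerset_self _) _ (measurableSet_generateFrom ⟨_, hA j, rfl⟩))
    (by
      rw [← hat_iInter]
      exact (measureReal_eq_zero_iff (measure_ne_top _ _)).1 (tendsto_nhds_unique (hμ _) h0))
  rw [← hat_iInter] at h1
  have h2 := hν (⋂ j, A j)
  rwa [(measureReal_eq_zero_iff (measure_ne_top _ _)).2 h1] at h2

end lim

end Vale.Agent.P027G.Szp
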